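import Mathlib
import Crest.Agent.R266.Chart3

/-!
Row 266 (S0404/S0405): chart layer, part 4 (helper35): the swapped splitting; differentials of maps
into `X` in charts; sections along maps in charts.
-/

set_option autoImplicit false
set_option linter.unusedSectionVars false

open Set Function Filter VectorField
open scoped Manifold ContDiff Topology
open Crest.AlgGeometry.HolSplit

namespace Crest.Agent.R266

noncomputable section

variable {n : ℕ} {X : Type*} [TopologicalSpace X] [ChartedSpace (Model n) X]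
  [IsManifold (mI n) ω X]

/-! ### the swapped splitting -/

lemma holField_sub {U : Set X} {V W : (x : X) → TangentSpace (mI n) x}
    (hV : IsHolVectorFieldOn U V) (hW : IsHolVectorFieldOn U W) :
    IsHolVectorFieldOn U (fun x => V x - W x) :=
  ContMDiffOn.sub_section hV hW

/-- the same splitting with the two summands exchanged. -/
def swap (S : Splitting n X) : Splitting n X where
  proj x := ContinuousLinearMap.id ℂ (TangentSpace (mI n) x) - S.proj x
  idem x v := by
    simp only [sub_apply, ContinuousLinearMap.id_apply, map_sub, S.idem,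
      sub_self, sub_zero]
  holomorphic U hU V hV := by
    have h1 := S.holomorphic U hU V hV
    exact holField_sub hV h1
  first_ne_zero x h := by
    apply S.second_ne_zero x
    exact (sub_eq_zero.1 h).symm
  second_ne_zero x h := by
    apply S.first_ne_zero x
    have : ContinuousLinearMap.id ℂ (TangentSpace (mI n) x) - S.proj x =
      ContinuousLinearMap.id ℂ (TangentSpace (mI n) x) := h
    exact sub_eq_self.1 this

lemma swap_proj (S : Splitting n X) (x : X) (v : TangentSpace (mI n) x) :
    (swap S).proj x v = v - S.proj x v := rfl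

lemma swap_proj_eq_iff (S : Splitting n X) (x : X) (v : TangentSpace (mI n) x) :
    (swap S).proj x v = v ↔ S.proj x v = 0 := by
  rw [swap_proj, sub_eq_self]

lemma swap_proj_zero_iff (S : Splitting n X) (x : X) (v : TangentSpace (mI n) x) :
    (swap S).proj x v = 0 ↔ S.proj x v = v := by
  rw [swap_proj, sub_eq_zero, eq_comm]





/-! ### differentials of maps into `X` -/

section Maps

variable {E' : Type*} [NormedAddCommGroup E'] [NormedSpace ℂ E']
variable {H' : Type*} [TopologicalSpace H'] {I' : ModelWithCorners ℂ E' H'}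
  {M : Type*} [TopologicalSpace M] [ChartedSpace H' M]

lemma mdifferentiableAt_chart {x₀ x : X} (hx : x ∈ (chartAt (Model n) x₀).source) :
    MDifferentiableAt (mI n) 𝓘(ℂ, Model n) (chartAt (Model n) x₀) x :=
  (contMDiffOn_chart (I := mI n) (n := ω) (x := x₀)).contMDiffAt
    ((chartAt (Model n) x₀).open_source.mem_nhds hx) |>.mdifferentiableAt (by simp)

lemma mfderiv_chart {x₀ x : X} (hx : x ∈ (chartAt (Model n) x₀).source) :
    (mfderiv (mI n) 𝓘(ℂ, Model n) (chartAt (Model n) x₀) x : Model n →L[ℂ] Model n)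
      = tcc x x₀ x := by
  have h := mfderiv_extChart (x₀ := x₀) hx
  have h2 : (extChartAt (mI n) x₀ : X → Model n) = chartAt (Model n) x₀ := by
    ext1 y
    simp [extChartAt]
  rw [h2] at h
  exact h



/-- holomorphic maps from a vector space to `X` in charts. -/
lemma contMDiffAt_iff_chart {f : E' → X} {z : E'} {x₀ : X}
    (hz : f z ∈ (chartAt (Model n) x₀).source) :
    ContMDiffAt 𝓘(ℂ, E') (mI n) ω f z ↔
      ContinuousAt f z ∧ AnalyticAt ℂ (fun w => chartAt (Model n) x₀ (f w)) z := by
  rw [contMDiffAt_iff_target_of_mem_source hz]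
  have h2 : (extChartAt (mI n) x₀ : X → Model n) ∘ f = fun w => chartAt (Model n) x₀ (f w) := by
    ext1 y
    simp [extChartAt]
  rw [h2, contMDiffAt_iff_contDiffAt]
  exact and_congr_right fun _ => ⟨fun h => h.analyticAt, fun h => h.contDiffAt⟩

lemma ContMDiffAt.analyticAt_chart {f : E' → X} {z : E'} {x₀ : X}
    (hf : ContMDiffAt 𝓘(ℂ, E') (mI n) ω f z) (hz : f z ∈ (chartAt (Model n) x₀).source) :
    AnalyticAt ℂ (fun w => chartAt (Model n) x₀ (f w)) z :=
  ((contMDiffAt_iff_chart hz).1 hf).2

/-- the coordinates of a section along a map, in the chart at `x₀`. -/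
def sc (x₀ : X) (g : E' → X) (s : E' → Model n) (w : E') : Model n := tcc (g w) x₀ (g w) (s w)

/-- holomorphic sections along a map. -/
def IsHolSec (g : E' → X) (s : E' → Model n) (z : E') : Prop :=
  ContMDiffAt 𝓘(ℂ, E') (mI n).tangent ω
    (fun w => (Bundle.TotalSpace.mk' (Model n) (g w) (s w) : TangentBundle (mI n) X)) z

lemma isHolSec_iff {g : E' → X} {s : E' → Model n} {z : E'} {x₀ : X}
    (hz : g z ∈ (chartAt (Model n) x₀).source) :
    IsHolSec g s z ↔ ContMDiffAt 𝓘(ℂ, E') (mI n) ω g z ∧ AnalyticAt ℂ (sc x₀ g s) z := by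
  have h := (trivializationAt (Model n) (TangentSpace (mI n)) x₀).contMDiffAt_iff
    (IM := 𝓘(ℂ, E')) (IB := mI n) (n := ω)
    (f := fun w => (Bundle.TotalSpace.mk' (Model n) (g w) (s w) : TangentBundle (mI n) X))
    (x₀ := z) (by simpa [Bundle.Trivialization.mem_source] using hz)
  refine Iff.trans h ?_
  refine and_congr_right fun _ => ?_
  rw [contMDiffAt_iff_contDiffAt]
  exact ⟨fun h => h.analyticAt, fun h => h.contDiffAt⟩


lemma sc_proj (S : Splitting n X) {g : E' → X} {w : E'} {x₀ : X}
    (hw : g w ∈ (chartAt (Model n) x₀).source) (s : E' → Model n) :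
    sc x₀ g (fun w => pr S (g w) (s w)) w =
      Pc S x₀ (chartAt (Model n) x₀ (g w)) (sc x₀ g s w) :=
  (Pc_at S hw (s w)).symm

lemma IsHolSec.contMDiffAt {g : E' → X} {s : E' → Model n} {z : E'} (hs : IsHolSec g s z) :
    ContMDiffAt 𝓘(ℂ, E') (mI n) ω g z :=
  ((isHolSec_iff (mem_chart_source _ (g z))).1 hs).1

lemma IsHolSec.analyticAt {g : E' → X} {s : E' → Model n} {z : E'} (hs : IsHolSec g s z)
    {x₀ : X} (hz : g z ∈ (chartAt (Model n) x₀).source) : AnalyticAt ℂ (sc x₀ g s) z :=
  ((isHolSec_iff hz).1 hs).2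

lemma IsHolSec.congr {g : E' → X} {s t : E' → Model n} {z : E'} (hs : IsHolSec g s z)
    (h : ∀ᶠ w in 𝓝 z, t w = s w) : IsHolSec g t z := by
  refine ContMDiffAt.congr_of_eventuallyEq hs ?_
  filter_upwards [h] with w hw
  rw [hw]

/-- projections of holomorphic sections along a map are holomorphic. -/
lemma IsHolSec.proj (S : Splitting n X) {g : E' → X} {s : E' → Model n} {z : E'}
    (hs : IsHolSec g s z) : IsHolSec g (fun w => pr S (g w) (s w)) z := by
  have hz := mem_chart_source (Model n) (g z)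
  refine (isHolSec_iff hz).2 ⟨hs.contMDiffAt, ?_⟩
  have h0 : AnalyticAt ℂ (fun w => chartAt (Model n) (g z) (g w)) z :=
    ContMDiffAt.analyticAt_chart hs.contMDiffAt hz
  have h1 : AnalyticAt ℂ (fun w => Pc S (g z) (chartAt (Model n) (g z) (g w))) z :=
    AnalyticAt.comp (g := Pc S (g z))
      (Pc_analyticOnNhd S (g z) _ ((chartAt (Model n) (g z)).map_source hz)) h0
  refine (an_clm_apply h1 (hs.analyticAt hz)).congr ?_
  have hc := hs.contMDiffAt.continuousAt
  filter_upwards [hc ((chartAt (Model n) (g z)).open_source.mem_nhds hz)] with w hw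
  exact (sc_proj S hw s).symm

lemma sc_add {x₀ : X} {g : E' → X} {s t : E' → Model n} :
    sc x₀ g (fun w => s w + t w) = fun w => sc x₀ g s w + sc x₀ g t w := by
  ext1 w
  exact map_add (tcc (g w) x₀ (g w)) _ _

lemma sc_sub {x₀ : X} {g : E' → X} {s t : E' → Model n} :
    sc x₀ g (fun w => s w - t w) = fun w => sc x₀ g s w - sc x₀ g t w := by
  ext1 w
  exact map_sub (tcc (g w) x₀ (g w)) _ _

lemma sc_neg {x₀ : X} {g : E' → X} {s : E' → Model n} :
    sc x₀ g (fun w => - s w) = fun w => - sc x₀ g s w := by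
  ext1 w
  exact map_neg (tcc (g w) x₀ (g w)) _


lemma sc_smul {x₀ : X} {g : E' → X} {s : E' → Model n} (f : E' → ℂ) :
    sc x₀ g (fun w => f w • s w) = fun w => f w • sc x₀ g s w := by
  ext1 w
  exact map_smul (tcc (g w) x₀ (g w)) _ _

lemma sc_sum {x₀ : X} {g : E' → X} {ι : Type*} (A : Finset ι) (s : ι → E' → Model n) :
    sc x₀ g (fun w => ∑ i ∈ A, s i w) = fun w => ∑ i ∈ A, sc x₀ g (s i) w := by
  ext1 w
  exact map_sum (tcc (g w) x₀ (g w)) _ _




lemma IsHolSec.add {g : E' → X} {s t : E' → Model n} {z : E'} (hs : IsHolSec g s z)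
    (ht : IsHolSec g t z) : IsHolSec g (fun w => s w + t w) z := by
  have hz := mem_chart_source (Model n) (g z)
  refine (isHolSec_iff hz).2 ⟨hs.contMDiffAt, ?_⟩
  rw [sc_add]
  exact (hs.analyticAt hz).add (ht.analyticAt hz)

lemma IsHolSec.sub {g : E' → X} {s t : E' → Model n} {z : E'} (hs : IsHolSec g s z)
    (ht : IsHolSec g t z) : IsHolSec g (fun w => s w - t w) z := by
  have hz := mem_chart_source (Model n) (g z)
  refine (isHolSec_iff hz).2 ⟨hs.contMDiffAt, ?_⟩
  rw [sc_sub]
  exact (hs.analyticAt hz).sub (ht.analyticAt hz)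

lemma IsHolSec.neg {g : E' → X} {s : E' → Model n} {z : E'} (hs : IsHolSec g s z) :
    IsHolSec g (fun w => - s w) z := by
  have hz := mem_chart_source (Model n) (g z)
  refine (isHolSec_iff hz).2 ⟨hs.contMDiffAt, ?_⟩
  rw [sc_neg]
  exact (hs.analyticAt hz).neg


lemma IsHolSec.smul {g : E' → X} {s : E' → Model n} {z : E'} {f : E' → ℂ}
    (hf : AnalyticAt ℂ f z) (hs : IsHolSec g s z) : IsHolSec g (fun w => f w • s w) z := by
  have hz := mem_chart_source (Model n) (g z)
  refine (isHolSec_iff hz).2 ⟨hs.contMDiffAt, ?_⟩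
  rw [sc_smul]
  exact hf.smul (hs.analyticAt hz)

lemma IsHolSec.sum {ι : Type*} {A : Finset ι} {g : E' → X} {s : ι → E' → Model n} {z : E'}
    (hg : ContMDiffAt 𝓘(ℂ, E') (mI n) ω g z)
    (hs : ∀ i ∈ A, IsHolSec g (s i) z) : IsHolSec g (fun w => ∑ i ∈ A, s i w) z := by
  have hz := mem_chart_source (Model n) (g z)
  refine (isHolSec_iff hz).2 ⟨hg, ?_⟩
  rw [sc_sum]
  exact Finset.analyticAt_fun_sum _ fun i hi => (hs i hi).analyticAt hz




end Maps

end

end Crest.Agent.R266
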