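import Mathlib
import Crest.Prelude.Def_TangentSplitting

/-!
R266 / Emb: toolbox for projective embeddings (`ProjEmbedding n X N`) of a compact complex
manifold: the relation `OnX pe v x` ("`v` is a homogeneous coordinate vector of `x`"), local
analytic equations of `X` in projective space with a holomorphic local retraction, lifting of
analytic families `q w` of homogeneous coordinate vectors to `X`, identity theorem.
-/

set_option autoImplicit false

open scoped Manifold ContDiff Topology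
open Set Metric Filter
open Crest.AlgGeometry.HolSplit

namespace Crest.Agent.R266.Emb

abbrev CN (N : ℕ) : Type := Fin (N + 1) → ℂ

/-! ### pure analysis: left inverse of an immersion germ -/

theorem immersion_leftInverse {E F : Type*} [NormedAddCommGroup E] [NormedSpace ℂ E]
    [FiniteDimensional ℂ E] [NormedAddCommGroup F] [NormedSpace ℂ F] [FiniteDimensional ℂ F]
    {K : E → F} {y0 : E} (hK : AnalyticAt ℂ K y0) (hinj : ∀ v, fderiv ℂ K y0 v = 0 → v = 0) :
    ∃ R : F → E, AnalyticAt ℂ R (K y0) ∧ R (K y0) = y0 ∧ ∀ᶠ y in 𝓝 y0, R (K y) = y := by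
  have : CompleteSpace E := FiniteDimensional.complete ℂ E
  have : CompleteSpace F := FiniteDimensional.complete ℂ F
  obtain ⟨L0, hL0⟩ := LinearMap.exists_leftInverse_of_injective (fderiv ℂ K y0 : E →ₗ[ℂ] F)
    (by
      rw [LinearMap.ker_eq_bot']
      intro v hv
      exact hinj v hv)
  set L : F →L[ℂ] E := LinearMap.toContinuousLinearMap L0 with hL
  have hLK : ∀ v, L (fderiv ℂ K y0 v) = v := by
    intro v
    have := LinearMap.congr_fun hL0 v
    simpa [hL] using this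
  have hT : AnalyticAt ℂ (fun y => L (K y)) y0 := (L.analyticAt _).comp hK
  have hT1 : HasFDerivAt (fun y => L (K y)) ((ContinuousLinearEquiv.refl ℂ E : E ≃L[ℂ] E) : E →L[ℂ] E) y0 := by
    have h1 := L.hasFDerivAt.comp y0 hK.differentiableAt.hasFDerivAt
    have h2 : L.comp (fderiv ℂ K y0) = ((ContinuousLinearEquiv.refl ℂ E : E ≃L[ℂ] E) : E →L[ℂ] E) := by
      ext v; simp [hLK]
    rw [h2] at h1
    exact h1
  have hT2 : ContDiffAt ℂ ω (fun y => L (K y)) y0 := hT.contDiffAt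
  have hω : (ω : WithTop ℕ∞) ≠ 0 := by simp
  refine ⟨fun u => hT2.localInverse hT1 hω (L u), ?_, ?_, ?_⟩
  · have h3 : AnalyticAt ℂ (hT2.localInverse hT1 hω) (L (K y0)) :=
      (hT2.to_localInverse hT1 hω).analyticAt
    exact AnalyticAt.comp (g := hT2.localInverse hT1 hω) (f := fun u => L u) h3 (L.analyticAt _)
  · exact hT2.localInverse_apply_image hT1 hω
  · have h4 := (hT2.hasStrictFDerivAt' hT1 hω).eventually_left_inverse
    filter_upwards [h4] with y hy
    exact hy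

section
variable {n N : ℕ} {X : Type} [TopologicalSpace X] [ChartedSpace (Model n) X]
  [IsManifold (mI n) ω X]

/-- `v` is a homogeneous coordinate vector of the point `x`. -/
def OnX (pe : ProjEmbedding n X N) (v : CN N) (x : X) : Prop :=
  v ≠ 0 ∧ ∃ p, x ∈ pe.nbhd p ∧ ∃ c : ℂ, v = c • pe.coords p x

variable {pe : ProjEmbedding n X N}

theorem OnX.ne_zero {v : CN N} {x : X} (h : OnX pe v x) : v ≠ 0 := h.1

theorem onX_coords (pe : ProjEmbedding n X N) {p x : X} (hx : x ∈ pe.nbhd p) :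
    OnX pe (pe.coords p x) x := ⟨pe.ne_zero p x hx, p, hx, 1, by simp⟩

theorem OnX.smul {v : CN N} {x : X} (h : OnX pe v x) {c : ℂ} (hc : c ≠ 0) : OnX pe (c • v) x := by
  obtain ⟨hv, p, hp, d, hd⟩ := h
  exact ⟨smul_ne_zero hc hv, p, hp, c * d, by rw [hd, smul_smul]⟩

theorem OnX.exists_coords {v : CN N} {x : X} (h : OnX pe v x) {p : X} (hp : x ∈ pe.nbhd p) :
    ∃ c : ℂ, c ≠ 0 ∧ v = c • pe.coords p x := by
  obtain ⟨hv, q, hq, d, hd⟩ := h
  obtain ⟨e, he⟩ := pe.compatible p q x ⟨hp, hq⟩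
  refine ⟨d * e, ?_, by rw [hd, he, smul_smul]⟩
  intro h0
  apply hv
  rw [hd, he, smul_smul, h0, zero_smul]

theorem OnX.exists_coords' {v : CN N} {x : X} (h : OnX pe v x) {p : X} (hp : x ∈ pe.nbhd p) :
    ∃ c : ℂ, c ≠ 0 ∧ pe.coords p x = c • v := by
  obtain ⟨c, hc, hv⟩ := h.exists_coords hp
  exact ⟨c⁻¹, inv_ne_zero hc, by rw [hv, smul_smul, inv_mul_cancel₀ hc, one_smul]⟩

theorem OnX.unique {v : CN N} {x y : X} (hx : OnX pe v x) (hy : OnX pe v y) : x = y := by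
  obtain ⟨c, hc, hv⟩ := hx.exists_coords (pe.mem_nbhd x)
  obtain ⟨d, hd, hv'⟩ := hy.exists_coords' (pe.mem_nbhd y)
  exact pe.injective x y x y (pe.mem_nbhd x) (pe.mem_nbhd y) ⟨d * c, by rw [hv', hv, smul_smul]⟩

/-- proportional nonzero vectors -/
theorem prop_of_wedge {ι : Type*} {v u : ι → ℂ} (hv : v ≠ 0)
    (h : ∀ i j, u i * v j = u j * v i) : ∃ c : ℂ, u = c • v := by
  obtain ⟨i, hi⟩ := Function.ne_iff.mp hv
  have hi : v i ≠ 0 := hi
  refine ⟨u i / v i, ?_⟩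
  ext j
  have := h i j
  simp only [Pi.smul_apply, smul_eq_mul]
  field_simp
  rw [← this]

theorem wedge_of_prop {ι : Type*} {v u : ι → ℂ} {c : ℂ} (h : u = c • v) (i j : ι) :
    u i * v j = u j * v i := by
  rw [h]; simp only [Pi.smul_apply, smul_eq_mul]; ring

theorem onX_iff_wedge (pe : ProjEmbedding n X N) {v : CN N} {p x : X} (hx : x ∈ pe.nbhd p) :
    OnX pe v x ↔ v ≠ 0 ∧ ∀ i j, v i * pe.coords p x j = v j * pe.coords p x i := by
  constructor
  · intro h
    obtain ⟨c, _, hc⟩ := h.exists_coords hx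
    exact ⟨h.1, fun i j => wedge_of_prop hc i j⟩
  · rintro ⟨hv, h⟩
    obtain ⟨c, hc⟩ := prop_of_wedge (pe.ne_zero p x hx) h
    exact ⟨hv, p, hx, c, hc⟩

theorem continuousAt_coords (pe : ProjEmbedding n X N) {p x : X} (hx : x ∈ pe.nbhd p) :
    ContinuousAt (pe.coords p) x :=
  ((pe.holomorphic p).contMDiffAt ((pe.isOpen_nbhd p).mem_nhds hx)).continuousAt

/-- the complement of the relation is open -/
theorem eventually_not_onX (pe : ProjEmbedding n X N) {v : CN N} {x : X} (hv : v ≠ 0)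
    (h : ¬ OnX pe v x) : ∀ᶠ z : CN N × X in 𝓝 (v, x), ¬ OnX pe z.1 z.2 := by
  have hx := pe.mem_nbhd x
  rw [onX_iff_wedge pe hx] at h
  push Not at h
  obtain ⟨i, j, hij⟩ := h hv
  have h1 : ∀ᶠ z : CN N × X in 𝓝 (v, x), z.2 ∈ pe.nbhd x :=
    (continuousAt_snd (p := (v, x))).eventually ((pe.isOpen_nbhd x).mem_nhds hx)
  have hc : ContinuousAt (fun z : CN N × X => pe.coords x z.2) (v, x) :=
    ContinuousAt.comp (f := fun z : CN N × X => z.2) (g := pe.coords x)
      (continuousAt_coords pe hx) continuousAt_snd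
  have hci : ∀ k, ContinuousAt (fun z : CN N × X => pe.coords x z.2 k) (v, x) := fun k =>
    ((continuous_apply k).continuousAt).comp hc
  have hcv : ∀ k, ContinuousAt (fun z : CN N × X => z.1 k) (v, x) := fun k =>
    ((continuous_apply k).comp continuous_fst).continuousAt
  have h2 : ∀ᶠ z : CN N × X in 𝓝 (v, x),
      z.1 i * pe.coords x z.2 j - z.1 j * pe.coords x z.2 i ≠ 0 := by
    have hcont : ContinuousAt (fun z : CN N × X =>
        z.1 i * pe.coords x z.2 j - z.1 j * pe.coords x z.2 i) (v, x) :=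
      ((hcv i).mul (hci j)).sub ((hcv j).mul (hci i))
    exact hcont.eventually_ne (sub_ne_zero.mpr hij)
  filter_upwards [h1, h2] with z hz1 hz2 hz
  rw [onX_iff_wedge pe hz1] at hz
  exact hz2 (sub_eq_zero.mpr (hz.2 i j))

variable [CompactSpace X]

/-- points of `X` with homogeneous coordinates near those of `x₀` are near `x₀` -/
theorem eventually_mem_of_onX {v₀ : CN N} {x₀ : X} (h : OnX pe v₀ x₀) {U : Set X}
    (hU : U ∈ 𝓝 x₀) : ∀ᶠ v in 𝓝 v₀, ∀ x, OnX pe v x → x ∈ U := by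
  have hK : IsCompact (interior U)ᶜ := isOpen_interior.isClosed_compl.isCompact
  have := hK.eventually_forall_of_forall_eventually (x₀ := v₀) (P := fun v x => ¬ OnX pe v x)
    (by
      intro y hy
      apply eventually_not_onX pe h.1
      intro hy'
      apply hy
      have := h.unique hy'
      rw [← this]
      exact mem_interior_iff_mem_nhds.mpr hU)
  filter_upwards [this] with v hv x hx
  by_contra hxU
  exact hv x (fun h => hxU (interior_subset h)) hx

/-- nonexistence of a point of `X` is an open condition -/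
theorem eventually_forall_not_onX {v₀ : CN N} (hv₀ : v₀ ≠ 0) (h : ∀ x, ¬ OnX pe v₀ x) :
    ∀ᶠ v in 𝓝 v₀, ∀ x, ¬ OnX pe v x := by
  have hK : IsCompact (univ : Set X) := isCompact_univ
  have := hK.eventually_forall_of_forall_eventually (x₀ := v₀) (P := fun v x => ¬ OnX pe v x)
    (fun y _ => eventually_not_onX pe hv₀ (h y))
  filter_upwards [this] with v hv x
  exact hv x (mem_univ _)


/-! ### local equations and retraction -/

omit [CompactSpace X] in
/-- coordinates in the chart at a point are analytic -/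
theorem analyticAt_coords_chart (pe : ProjEmbedding n X N) (p x₀ : X) {y : Model n}
    (hy : y ∈ (chartAt (Model n) x₀).target) (hp : (chartAt (Model n) x₀).symm y ∈ pe.nbhd p) :
    AnalyticAt ℂ (fun z => pe.coords p ((chartAt (Model n) x₀).symm z)) y := by
  have h1 : ContMDiffAt (mI n) (mI n) ω ((chartAt (Model n) x₀).symm) y :=
    (contMDiffOn_chart_symm (I := mI n) (n := ω) (x := x₀)).contMDiffAt
      ((chartAt (Model n) x₀).open_target.mem_nhds hy)
  have h2 : ContMDiffAt (mI n) 𝓘(ℂ, CN N) ω (pe.coords p) ((chartAt (Model n) x₀).symm y) :=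
    (pe.holomorphic p).contMDiffAt ((pe.isOpen_nbhd p).mem_nhds hp)
  have h3 : ContMDiffAt (mI n) 𝓘(ℂ, CN N) ω (pe.coords p ∘ (chartAt (Model n) x₀).symm) y :=
    h2.comp y h1
  rw [contMDiffAt_iff_contDiffAt] at h3
  exact h3.analyticAt

omit [CompactSpace X] in
theorem fderiv_coords_chart (pe : ProjEmbedding n X N) (p x₀ : X) {y : Model n}
    (hy : y ∈ (chartAt (Model n) x₀).target) (hp : (chartAt (Model n) x₀).symm y ∈ pe.nbhd p)
    (v : Model n)
    (h : ∃ c : ℂ, fderiv ℂ (fun z => pe.coords p ((chartAt (Model n) x₀).symm z)) y v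
      = c • pe.coords p ((chartAt (Model n) x₀).symm y)) : v = 0 := by
  have hω : (ω : WithTop ℕ∞) ≠ 0 := by simp
  have h1 : MDifferentiableAt (mI n) (mI n) ((chartAt (Model n) x₀).symm) y :=
    ((contMDiffOn_chart_symm (I := mI n) (n := ω) (x := x₀)).contMDiffAt
      ((chartAt (Model n) x₀).open_target.mem_nhds hy)).mdifferentiableAt hω
  have h2 : MDifferentiableAt (mI n) 𝓘(ℂ, CN N) (pe.coords p) ((chartAt (Model n) x₀).symm y) :=
    ((pe.holomorphic p).contMDiffAt ((pe.isOpen_nbhd p).mem_nhds hp)).mdifferentiableAt hω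
  have h3 : mfderiv (mI n) 𝓘(ℂ, CN N) (pe.coords p ∘ (chartAt (Model n) x₀).symm) y =
      (mfderiv (mI n) 𝓘(ℂ, CN N) (pe.coords p) ((chartAt (Model n) x₀).symm y)).comp
        (mfderiv (mI n) (mI n) ((chartAt (Model n) x₀).symm) y) := mfderiv_comp y h2 h1
  rw [mfderiv_eq_fderiv] at h3
  obtain ⟨c, hc⟩ := h
  have h4 := congrArg (fun T : Model n →L[ℂ] CN N => T v) h3
  have h5 : mfderiv (mI n) 𝓘(ℂ, CN N) (pe.coords p) ((chartAt (Model n) x₀).symm y)
      (mfderiv (mI n) (mI n) ((chartAt (Model n) x₀).symm) y v) =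
      c • pe.coords p ((chartAt (Model n) x₀).symm y) := by
    rw [← hc]
    exact h4.symm
  have h6 := pe.immersive p _ hp _ ⟨c, h5⟩
  -- the differential of the inverse chart is injective
  have h7 : MDifferentiableAt (mI n) (mI n) (chartAt (Model n) x₀) ((chartAt (Model n) x₀).symm y) :=
    ((contMDiffOn_chart (I := mI n) (n := ω) (x := x₀)).contMDiffAt
      ((chartAt (Model n) x₀).open_source.mem_nhds
        ((chartAt (Model n) x₀).map_target hy))).mdifferentiableAt hω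
  have h8 := mfderiv_comp y h7 h1
  have h9 : mfderiv (mI n) (mI n) (chartAt (Model n) x₀ ∘ (chartAt (Model n) x₀).symm) y =
      mfderiv (mI n) (mI n) (id : Model n → Model n) y := by
    apply Filter.EventuallyEq.mfderiv_eq
    filter_upwards [(chartAt (Model n) x₀).open_target.mem_nhds hy] with z hz
    exact (chartAt (Model n) x₀).right_inv hz
  rw [h9, mfderiv_id] at h8
  have h10 := congrArg (fun T : Model n →L[ℂ] Model n => T v) h8
  have h11 : v = mfderiv (mI n) (mI n) (chartAt (Model n) x₀) ((chartAt (Model n) x₀).symm y)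
    (mfderiv (mI n) (mI n) ((chartAt (Model n) x₀).symm) y v) := h10
  rw [h11, h6]
  exact map_zero _

/-- local equations of `X` and holomorphic retraction, near a homogeneous coordinate vector of a
point of `X` -/
theorem exists_retr {v₀ : CN N} {x₀ : X} (h : OnX pe v₀ x₀) :
    ∃ Om : Set (CN N), IsOpen Om ∧ v₀ ∈ Om ∧ ∃ (σ : CN N → X) (Φ : CN N → CN N),
      ContMDiffOn 𝓘(ℂ, CN N) (mI n) ω σ Om ∧ AnalyticOnNhd ℂ Φ Om ∧ (∀ v ∈ Om, v ≠ 0) ∧
      (∀ v ∈ Om, Φ v = 0 ↔ ∃ x, OnX pe v x) ∧ (∀ v ∈ Om, Φ v = 0 → OnX pe v (σ v)) := by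
  set φ := chartAt (Model n) x₀ with hφ
  set K : Model n → CN N := fun z => pe.coords x₀ (φ.symm z) with hK
  set y₀ := φ x₀ with hy₀
  have hx₀s : x₀ ∈ φ.source := mem_chart_source _ x₀
  have hy₀t : y₀ ∈ φ.target := mem_chart_target _ x₀
  have hsymm : φ.symm y₀ = x₀ := φ.left_inv hx₀s
  have hn₀ : φ.symm y₀ ∈ pe.nbhd x₀ := by rw [hsymm]; exact pe.mem_nbhd x₀
  have hKan : AnalyticAt ℂ K y₀ := analyticAt_coords_chart pe x₀ x₀ hy₀t hn₀
  have hK0 : K y₀ ≠ 0 := pe.ne_zero x₀ _ hn₀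
  obtain ⟨i₀, hi₀⟩ := Function.ne_iff.mp hK0
  have hi₀ : K y₀ i₀ ≠ 0 := hi₀
  obtain ⟨c₀, hc₀, hv₀⟩ := h.exists_coords (pe.mem_nbhd x₀)
  have hKy₀ : K y₀ = pe.coords x₀ x₀ := by simp only [hK, hsymm]
  have hv₀i : v₀ i₀ ≠ 0 := by
    rw [hv₀, ← hKy₀]
    exact mul_ne_zero hc₀ hi₀
  -- normalised coordinates
  have hKian : AnalyticAt ℂ (fun z => K z i₀) y₀ :=
    ((ContinuousLinearMap.proj (R := ℂ) (φ := fun _ : Fin (N + 1) => ℂ) i₀).analyticAt _).comp hKan
  set K' : Model n → CN N := fun z => (K z i₀)⁻¹ • K z with hK'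
  have hK'an : AnalyticAt ℂ K' y₀ := (hKian.inv hi₀).smul hKan
  have hinj : ∀ v, fderiv ℂ K' y₀ v = 0 → v = 0 := by
    intro v hv
    have hd1 : HasFDerivAt (fun z => K z i₀) (fderiv ℂ (fun z => K z i₀) y₀) y₀ :=
      hKian.differentiableAt.hasFDerivAt
    have hd2 : HasFDerivAt K (fderiv ℂ K y₀) y₀ := hKan.differentiableAt.hasFDerivAt
    -- K = (K i₀) • K'
    have hd3 : HasFDerivAt K' (fderiv ℂ K' y₀) y₀ := hK'an.differentiableAt.hasFDerivAt
    have hd4 := hd1.smul hd3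
    have hev : (fun z => K z i₀ • K' z) =ᶠ[𝓝 y₀] K := by
      filter_upwards [hKian.continuousAt.eventually_ne hi₀] with z hz
      simp only [hK', smul_smul, mul_inv_cancel₀ hz, one_smul]
    have hd5 := hd4.congr_of_eventuallyEq hev.symm
    have hd6 := hd2.unique hd5
    have hd7 := congrArg (fun T : Model n →L[ℂ] CN N => T v) hd6
    simp only [add_apply, smul_apply,
      ContinuousLinearMap.smulRight_apply] at hd7
    rw [hv, smul_zero, zero_add] at hd7
    apply fderiv_coords_chart pe x₀ x₀ hy₀t hn₀ v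
    refine ⟨fderiv ℂ (fun z => K z i₀) y₀ v * (K y₀ i₀)⁻¹, ?_⟩
    have : fderiv ℂ K y₀ v = (fderiv ℂ (fun z => K z i₀) y₀ v * (K y₀ i₀)⁻¹) • K y₀ := by
      rw [hd7]; simp only [hK', smul_smul]
    exact this
  obtain ⟨R, hRan, hR0, hR⟩ := immersion_leftInverse hK'an hinj
  -- the retraction
  have hproj : ∀ v : CN N, AnalyticAt ℂ (fun v : CN N => v i₀) v := fun v =>
    (ContinuousLinearMap.proj (R := ℂ) (φ := fun _ : Fin (N + 1) => ℂ) i₀).analyticAt v
  have hnor : ∀ v : CN N, v i₀ ≠ 0 → AnalyticAt ℂ (fun v : CN N => (v i₀)⁻¹ • v) v := fun v hv =>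
    ((hproj v).inv hv).smul analyticAt_id
  have hnv₀ : (v₀ i₀)⁻¹ • v₀ = K' y₀ := by
    simp only [hK']
    rw [hKy₀]
    have : v₀ i₀ = c₀ * pe.coords x₀ x₀ i₀ := by rw [hv₀]; rfl
    rw [this]
    conv_lhs => rw [hv₀]
    rw [smul_smul, mul_inv, mul_comm c₀⁻¹, mul_assoc, inv_mul_cancel₀ hc₀, mul_one]
  set ρ : CN N → Model n := fun v => R ((v i₀)⁻¹ • v) with hρ
  have hρan : AnalyticAt ℂ ρ v₀ := by
    have hR' : AnalyticAt ℂ R ((fun v : CN N => (v i₀)⁻¹ • v) v₀) := by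
      simp only []
      rw [hnv₀]; exact hRan
    exact AnalyticAt.comp (g := R) (f := fun v : CN N => (v i₀)⁻¹ • v) hR' (hnor v₀ hv₀i)
  have hρ0 : ρ v₀ = y₀ := by simp only [hρ, hnv₀, hR0]
  set Φ : CN N → CN N := fun v => K' (ρ v) - (v i₀)⁻¹ • v with hΦ
  have hΦan : AnalyticAt ℂ Φ v₀ := by
    have h1 : AnalyticAt ℂ K' (ρ v₀) := by rw [hρ0]; exact hK'an
    exact (h1.comp hρan).sub (hnor v₀ hv₀i)
  -- the good set of y's
  have hgy : ∀ᶠ y in 𝓝 y₀, y ∈ φ.target ∧ φ.symm y ∈ pe.nbhd x₀ ∧ R (K' y) = y ∧ K y i₀ ≠ 0 := by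
    have h1 : ∀ᶠ y in 𝓝 y₀, y ∈ φ.target := φ.open_target.mem_nhds hy₀t
    have h2 : ∀ᶠ y in 𝓝 y₀, φ.symm y ∈ pe.nbhd x₀ :=
      (φ.continuousAt_symm hy₀t).eventually ((pe.isOpen_nbhd x₀).mem_nhds hn₀)
    filter_upwards [h1, h2, hR, hKian.continuousAt.eventually_ne hi₀] with y a b c d
    exact ⟨a, b, c, d⟩
  have hgv : ∀ᶠ v in 𝓝 v₀, ρ v ∈ φ.target ∧ φ.symm (ρ v) ∈ pe.nbhd x₀ ∧ R (K' (ρ v)) = ρ v ∧
      K (ρ v) i₀ ≠ 0 := by
    have := hρan.continuousAt.eventually (by rw [hρ0]; exact hgy)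
    exact this
  have hgx : ∀ᶠ v in 𝓝 v₀, ∀ x, OnX pe v x → x ∈ φ.source ∧ x ∈ pe.nbhd x₀ ∧
      R (K' (φ x)) = φ x := by
    apply eventually_mem_of_onX h (U := {x | x ∈ φ.source ∧ x ∈ pe.nbhd x₀ ∧ R (K' (φ x)) = φ x})
    have h1 : ∀ᶠ x in 𝓝 x₀, x ∈ φ.source := φ.open_source.mem_nhds hx₀s
    have h2 : ∀ᶠ x in 𝓝 x₀, x ∈ pe.nbhd x₀ := (pe.isOpen_nbhd x₀).mem_nhds (pe.mem_nbhd x₀)
    have h3 : ∀ᶠ x in 𝓝 x₀, R (K' (φ x)) = φ x :=
      (φ.continuousAt hx₀s).eventually hR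
    filter_upwards [h1, h2, h3] with x a b c
    exact ⟨a, b, c⟩
  have hall : ∀ᶠ v in 𝓝 v₀, (AnalyticAt ℂ ρ v ∧ AnalyticAt ℂ Φ v ∧ v i₀ ≠ 0) ∧
      (ρ v ∈ φ.target ∧ φ.symm (ρ v) ∈ pe.nbhd x₀ ∧ R (K' (ρ v)) = ρ v ∧
      K (ρ v) i₀ ≠ 0) ∧ (∀ x, OnX pe v x → x ∈ φ.source ∧ x ∈ pe.nbhd x₀ ∧
      R (K' (φ x)) = φ x) := by
    filter_upwards [hρan.eventually_analyticAt, hΦan.eventually_analyticAt,
      (hproj v₀).continuousAt.eventually_ne hv₀i, hgv, hgx] with v a b c d e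
    exact ⟨⟨a, b, c⟩, d, e⟩
  obtain ⟨Om, hOm, hOmo, hv₀m⟩ := _root_.eventually_nhds_iff.mp hall
  have key : ∀ v ∈ Om, Φ v = 0 → OnX pe v (φ.symm (ρ v)) := by
    intro v hv h0
    obtain ⟨⟨_, _, hvi⟩, ⟨_, hb, _, hd⟩, _⟩ := hOm v hv
    have hv0 : v ≠ 0 := fun h0 => hvi (by rw [h0]; rfl)
    refine ⟨hv0, x₀, hb, v i₀ * (K (ρ v) i₀)⁻¹, ?_⟩
    have h1 : K' (ρ v) = (v i₀)⁻¹ • v := sub_eq_zero.mp h0
    have h2 : v = v i₀ • K' (ρ v) := by rw [h1, smul_smul, mul_inv_cancel₀ hvi, one_smul]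
    conv_lhs => rw [h2]
    simp only [hK', smul_smul]
    rfl
  refine ⟨Om, hOmo, hv₀m, fun v => φ.symm (ρ v), Φ, ?_, ?_, ?_, ?_, key⟩
  · intro v hv
    obtain ⟨⟨ha, _, _⟩, ⟨ht, _⟩, _⟩ := hOm v hv
    have h1 : ContMDiffAt (mI n) (mI n) ω φ.symm (ρ v) :=
      (contMDiffOn_chart_symm (I := mI n) (n := ω) (x := x₀)).contMDiffAt
        (φ.open_target.mem_nhds ht)
    have h2 : ContMDiffAt 𝓘(ℂ, CN N) (mI n) ω ρ v := ha.contDiffAt.contMDiffAt
    exact (h1.comp v h2).contMDiffWithinAt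
  · intro v hv
    exact (hOm v hv).1.2.1
  · intro v hv h0
    exact (hOm v hv).1.2.2 (by rw [h0]; rfl)
  · intro v hv
    constructor
    · intro h0
      exact ⟨_, key v hv h0⟩
    · rintro ⟨x, hx⟩
      obtain ⟨⟨_, _, hvi⟩, _, he⟩ := hOm v hv
      obtain ⟨hxs, hxn, hxR⟩ := he x hx
      obtain ⟨c, hc, hvc⟩ := hx.exists_coords hxn
      have hKx : K (φ x) = pe.coords x₀ x := by simp only [hK, φ.left_inv hxs]
      have h1 : (v i₀)⁻¹ • v = K' (φ x) := by
        simp only [hK']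
        rw [hKx]
        have : v i₀ = c * pe.coords x₀ x i₀ := by rw [hvc]; rfl
        rw [this]
        conv_lhs => rw [hvc]
        rw [smul_smul, mul_inv, mul_comm c⁻¹, mul_assoc, inv_mul_cancel₀ hc, mul_one]
      have h2 : ρ v = φ x := by simp only [hρ]; rw [h1, hxR]
      simp only [hΦ]
      rw [h2, h1, sub_self]

/-! ### lifting and identity theorem -/

/-- a family of homogeneous coordinate vectors gives a holomorphic family of points -/
theorem contMDiffAt_lift {E H M : Type*} [NormedAddCommGroup E] [NormedSpace ℂ E]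
    [TopologicalSpace H] {I : ModelWithCorners ℂ E H} [TopologicalSpace M] [ChartedSpace H M]
    {q : M → CN N} {g : M → X} {w₀ : M} (hq : ContMDiffAt I 𝓘(ℂ, CN N) ω q w₀)
    (h : ∀ᶠ w in 𝓝 w₀, OnX pe (q w) (g w)) : ContMDiffAt I (mI n) ω g w₀ := by
  obtain ⟨Om, hOmo, hmem, σ, Φ, hσ, _, _, hiff, hon⟩ := exists_retr h.self_of_nhds
  have h1 : ContMDiffAt I (mI n) ω (σ ∘ q) w₀ :=
    (hσ.contMDiffAt (hOmo.mem_nhds hmem)).comp w₀ hq
  refine h1.congr_of_eventuallyEq ?_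
  filter_upwards [h, hq.continuousAt.eventually (hOmo.mem_nhds hmem)] with w hw hw1
  exact hw.unique (hon _ hw1 ((hiff _ hw1).mpr ⟨_, hw⟩))

theorem contMDiffOn_lift {E : Type*} [NormedAddCommGroup E] [NormedSpace ℂ E]
    {q : E → CN N} {g : E → X} {W : Set E} (hW : IsOpen W) (hq : AnalyticOnNhd ℂ q W)
    (h : ∀ w ∈ W, OnX pe (q w) (g w)) : ContMDiffOn 𝓘(ℂ, E) (mI n) ω g W := by
  intro w hw
  exact (contMDiffAt_lift (hq w hw).contDiffAt.contMDiffAt
    (by filter_upwards [hW.mem_nhds hw] with z hz using h z hz)).contMDiffWithinAt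

/-- identity theorem: an analytic family of homogeneous coordinate vectors on a connected domain
which lies on `X` on a nonempty open subset lies on `X` everywhere -/
theorem onX_ident {E : Type*} [NormedAddCommGroup E] [NormedSpace ℂ E]
    {q : E → CN N} {W V : Set E} (hW : IsOpen W) (hWc : IsPreconnected W)
    (hq : AnalyticOnNhd ℂ q W) (hq0 : ∀ w ∈ W, q w ≠ 0) (hV : IsOpen V) (hVne : (V ∩ W).Nonempty)
    (h : ∀ w ∈ V ∩ W, ∃ x, OnX pe (q w) x) : ∀ w ∈ W, ∃ x, OnX pe (q w) x := by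
  set A : Set E := {w | w ∈ W ∧ ∃ x, OnX pe (q w) x} with hA
  have hsub : W ⊆ interior A := by
    apply hWc.subset_of_closure_inter_subset isOpen_interior
    · obtain ⟨w, hwV, hwW⟩ := hVne
      refine ⟨w, hwW, ?_⟩
      rw [mem_interior_iff_mem_nhds]
      filter_upwards [hV.mem_nhds hwV, hW.mem_nhds hwW] with z hz1 hz2
      exact ⟨hz2, h z ⟨hz1, hz2⟩⟩
    · rintro w₁ ⟨hw₁c, hw₁W⟩
      have hex : ∃ x, OnX pe (q w₁) x := by
        by_contra hne
        push Not at hne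
        have h1 := (hq w₁ hw₁W).continuousAt.eventually
          (eventually_forall_not_onX (hq0 w₁ hw₁W) hne)
        obtain ⟨w₂, hw₂, hw₂A⟩ := mem_closure_iff_nhds.mp hw₁c _ h1
        obtain ⟨_, x, hx⟩ := interior_subset hw₂A
        exact hw₂ x hx
      obtain ⟨x, hx⟩ := hex
      obtain ⟨Om, hOmo, hmem, σ, Φ, _, hΦ, _, hiff, hon⟩ := exists_retr hx
      have h2 : ∀ᶠ w in 𝓝 w₁, w ∈ W ∧ q w ∈ Om :=
        Filter.Eventually.and (hW.mem_nhds hw₁W)
          ((hq w₁ hw₁W).continuousAt.eventually (hOmo.mem_nhds hmem))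
      obtain ⟨r, hr, hball⟩ := Metric.eventually_nhds_iff_ball.mp h2
      have han : AnalyticOnNhd ℂ (fun w => Φ (q w)) (ball w₁ r) := by
        intro w hw
        exact (hΦ _ (hball w hw).2).comp (hq w (hball w hw).1)
      obtain ⟨w₂, hw₂b, hw₂A⟩ := mem_closure_iff_nhds.mp hw₁c _ (ball_mem_nhds w₁ hr)
      have hev : (fun w => Φ (q w)) =ᶠ[𝓝 w₂] 0 := by
        filter_upwards [isOpen_ball.mem_nhds hw₂b, isOpen_interior.mem_nhds hw₂A] with z hz1 hz2
        exact (hiff _ (hball z hz1).2).mpr (interior_subset hz2).2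
      have hzero := han.eqOn_zero_of_preconnected_of_eventuallyEq_zero
        (convex_ball w₁ r).isPreconnected hw₂b hev
      rw [mem_interior_iff_mem_nhds]
      filter_upwards [ball_mem_nhds w₁ hr] with z hz
      exact ⟨(hball z hz).1, (hiff _ (hball z hz).2).mp (hzero hz)⟩
  intro w hw
  exact (interior_subset (hsub hw)).2


end

end Crest.Agent.R266.Emb
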