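import Crest.Prelude.Def_TangentSplitting
import Mathlib
import Crest.Agent.R266.RatDefs
import Crest.Agent.R266.Emb
import Crest.Agent.R266.StepThreeDefs
import Crest.Agent.R266.SurjDense
import Crest.Agent.R266.LemmaZ
import Crest.Agent.R266.Sard
import Crest.Agent.R266.P1PolyX
import Crest.Agent.R266.A.Iface404

-- ▼ part R266/StepOneA
section

/-!
R266 / StepOneA: elementary reductions for Step 1 of S0404.
-/

set_option autoImplicit false

open scoped Manifold ContDiff Topology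
open Set Filter Metric Crest.AlgGeometry.HolSplit

namespace Crest.Agent.R266.S1

variable {n : ℕ} {X : Type} [TopologicalSpace X] [ChartedSpace (Model n) X]
  [IsManifold (mI n) ω X]

/-- two points on a rational curve may be assumed to be at finite parameters -/
theorem mobius {x y : X} (h : OnRationalCurve (n := n) x y) :
    ∃ g₀ g₁ : ℂ → X, ContMDiff 𝓘(ℂ, ℂ) (mI n) ω g₀ ∧ ContMDiff 𝓘(ℂ, ℂ) (mI n) ω g₁ ∧
      (∀ z : ℂ, z ≠ 0 → g₁ z = g₀ z⁻¹) ∧ ∃ z z' : ℂ, x = g₀ z ∧ y = g₀ z' := by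
  obtain ⟨g₀, g₁, h₀, h₁, h01, hx, hy⟩ := h
  have key : ∀ w : X, w ∈ range g₀ ∪ {g₁ 0} → ∃ S : Finset ℂ, ∀ c ∉ S,
      ∃ z : ℂ, w = if z = 0 then g₁ 0 else g₀ (c + z⁻¹) := by
    intro w hw
    rcases hw with ⟨a, rfl⟩ | hw
    · refine ⟨{a}, fun c hc => ⟨(a - c)⁻¹, ?_⟩⟩
      have hac : a - c ≠ 0 := by
        intro h
        apply hc
        simp only [Finset.mem_singleton]
        exact (sub_eq_zero.mp h).symm
      rw [if_neg (inv_ne_zero hac), inv_inv]
      congr 1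
      ring
    · refine ⟨∅, fun c _ => ⟨0, ?_⟩⟩
      simpa using hw
  obtain ⟨Sx, hSx⟩ := key x hx
  obtain ⟨Sy, hSy⟩ := key y hy
  obtain ⟨c, hc⟩ := Infinite.exists_notMem_finset (Sx ∪ Sy)
  rw [Finset.mem_union, not_or] at hc
  obtain ⟨z, hz⟩ := hSx c hc.1
  obtain ⟨z', hz'⟩ := hSy c hc.2
  refine ⟨fun z => if z = 0 then g₁ 0 else g₀ (c + z⁻¹), fun z => g₀ (c + z), ?_, ?_, ?_,
    z, z', hz, hz'⟩
  · intro z
    by_cases hz0 : z = 0
    · subst hz0
      have e1 : (fun z : ℂ => if z = 0 then g₁ 0 else g₀ (c + z⁻¹)) =ᶠ[𝓝 0]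
          fun z => g₁ (z / (c * z + 1)) := by
        have : ∀ᶠ z : ℂ in 𝓝 0, c * z + 1 ≠ 0 := by
          apply ContinuousAt.eventually_ne (by fun_prop)
          simp
        filter_upwards [this] with z hz
        by_cases h0 : z = 0
        · simp [h0]
        · rw [if_neg h0, h01 _ (div_ne_zero h0 hz), inv_div]
          congr 1
          field_simp
      refine ContMDiffAt.congr_of_eventuallyEq ?_ e1
      have h2 : ContMDiffAt 𝓘(ℂ, ℂ) 𝓘(ℂ, ℂ) ω (fun z : ℂ => z / (c * z + 1)) 0 := by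
        rw [contMDiffAt_iff_contDiffAt]
        apply ContDiffAt.div contDiffAt_id
        · fun_prop
        · simp
      exact (h₁.contMDiffAt (x := (0 : ℂ) / (c * 0 + 1))).comp (0 : ℂ) h2
    · have e1 : (fun z : ℂ => if z = 0 then g₁ 0 else g₀ (c + z⁻¹)) =ᶠ[𝓝 z]
          fun z => g₀ (c + z⁻¹) := by
        filter_upwards [isOpen_ne.mem_nhds hz0] with w hw
        rw [if_neg hw]
      refine ContMDiffAt.congr_of_eventuallyEq ?_ e1
      have h2 : ContMDiffAt 𝓘(ℂ, ℂ) 𝓘(ℂ, ℂ) ω (fun z : ℂ => c + z⁻¹) z := by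
        rw [contMDiffAt_iff_contDiffAt]
        exact contDiffAt_const.add (contDiffAt_inv ℂ hz0)
      exact (h₀.contMDiffAt (x := c + z⁻¹)).comp z h2
  · have h2 : ContMDiff 𝓘(ℂ, ℂ) 𝓘(ℂ, ℂ) ω (fun z : ℂ => c + z) := by
      rw [contMDiff_iff_contDiff]
      fun_prop
    exact h₀.comp h2
  · intro w hw
    simp only [inv_inv]
    rw [if_neg (inv_ne_zero hw)]

/-- an analytic subset is closed -/
theorem isClosed_analytic {A : Set (X × X)} (hA : IsAnalyticSubset (n := n) A) : IsClosed A := by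
  rw [← isOpen_compl_iff, isOpen_iff_mem_nhds]
  intro p hp
  obtain ⟨U, k, f, hU, hpU, hf, hAU⟩ := hA p
  have : ∃ i, f i p ≠ 0 := by
    by_contra hcon
    push Not at hcon
    have : p ∈ A ∩ U := by
      rw [hAU]
      exact ⟨hpU, hcon⟩
    exact hp this.1
  obtain ⟨i, hi⟩ := this
  have hc : ContinuousAt (f i) p := ((hf i).continuousOn).continuousAt (hU.mem_nhds hpU)
  filter_upwards [hc.eventually_ne hi, hU.mem_nhds hpU] with q hq hqU hqA
  have : q ∈ A ∩ U := ⟨hqA, hqU⟩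
  rw [hAU] at this
  exact hq (this.2 i)

/-- output of rational connectedness: a nonempty open set of pairs joined by curves at finite
parameters -/
theorem exists_open_pairs (hrc : IsRationallyConnected n X) :
    ∃ O : Set (X × X), IsOpen O ∧ O.Nonempty ∧ ∀ p ∈ O, ∃ g₀ g₁ : ℂ → X,
      ContMDiff 𝓘(ℂ, ℂ) (mI n) ω g₀ ∧ ContMDiff 𝓘(ℂ, ℂ) (mI n) ω g₁ ∧
      (∀ z : ℂ, z ≠ 0 → g₁ z = g₀ z⁻¹) ∧ ∃ z z' : ℂ, p = (g₀ z, g₀ z') := by
  obtain ⟨A, hA, hne, hcur⟩ := hrc
  refine ⟨Aᶜ, (isClosed_analytic hA).isOpen_compl, Set.nonempty_compl.mpr hne, ?_⟩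
  rintro ⟨x, y⟩ hp
  obtain ⟨g₀, g₁, h0, h1, h01, z, z', hx, hy⟩ := mobius (hcur x y hp)
  exact ⟨g₀, g₁, h0, h1, h01, z, z', by rw [hx, hy]⟩

end Crest.Agent.R266.S1
end

-- ▼ part R266/StepOneB
section

/-!
R266 / StepOneB: polynomial rational curves in `X ⊆ ℙ^N` (both charts), the set `Sd` of coefficient
vectors of such curves is locally an analytic set, and analytic families of such coefficient vectors
give holomorphic families of rational curves.
-/

set_option autoImplicit false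

open scoped Manifold ContDiff Topology
open Set Filter Metric Crest.AlgGeometry.HolSplit
open Crest.Agent.R266.Rat Crest.Agent.R266.Emb

namespace Crest.Agent.R266.S1

/-- coefficient vectors -/
abbrev Cf (N d : ℕ) : Type := Fin (N + 1) → Fin (d + 1) → ℂ

/-- reversed coefficients = the chart at infinity -/
def revc {N d : ℕ} (q : Cf N d) : Cf N d := fun i j => q i (Fin.rev j)

/-- the curve in both charts -/
noncomputable def pevb {N d : ℕ} (b : Bool) (q : Cf N d) (z : ℂ) : Fin (N + 1) → ℂ :=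
  pev (if b then revc q else q) z

theorem revc_revc {N d : ℕ} (q : Cf N d) : revc (revc q) = q := by
  funext i j
  simp [revc]

theorem pev_revc {N d : ℕ} (q : Cf N d) {z : ℂ} (hz : z ≠ 0) :
    pev (revc q) z = z ^ d • pev q z⁻¹ := by
  funext i
  simp only [pev, revc, Pi.smul_apply, smul_eq_mul, Finset.mul_sum]
  rw [← Equiv.sum_comp Fin.revPerm]
  apply Finset.sum_congr rfl
  intro j _
  simp only [Fin.revPerm_apply, Fin.rev_rev]
  have h1 : z ^ d = z ^ ((Fin.rev j : Fin (d + 1)) : ℕ) * z ^ (j : ℕ) := by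
    rw [← pow_add]
    congr 1
    have := j.2
    simp only [Fin.val_rev]
    omega
  rw [h1, inv_pow]
  field_simp

theorem pevb_not {N d : ℕ} (b : Bool) (q : Cf N d) {z : ℂ} (hz : z ≠ 0) :
    pevb (!b) q z = z ^ d • pevb b q z⁻¹ := by
  cases b
  · simpa [pevb] using pev_revc q hz
  · have := pev_revc (revc q) hz
    rw [revc_revc] at this
    simpa [pevb] using this

theorem pev_revc_zero {N d : ℕ} (q : Cf N d) :
    pev (revc q) 0 = fun i => q i (Fin.last d) := by
  funext i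
  simp only [pev, revc]
  rw [Finset.sum_eq_single (0 : Fin (d + 1))]
  · simp
  · intro j _ hj
    have : (j : ℕ) ≠ 0 := by
      intro h
      exact hj (Fin.ext h)
    simp [this]
  · simp

theorem pevb_analytic {N d : ℕ} (b : Bool) :
    AnalyticOnNhd ℂ (fun p : Cf N d × ℂ => pevb b p.1 p.2) univ := by
  intro p _
  rw [analyticAt_pi_iff]
  intro i
  cases b
  · simp only [pevb, pev, Bool.false_eq_true, if_false]
    apply Finset.analyticAt_fun_sum
    intro j _
    apply AnalyticAt.mul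
    · have h1 : (fun p : Cf N d × ℂ => p.1 i j) = fun p : Cf N d × ℂ =>
        ((ContinuousLinearMap.proj (R := ℂ) (φ := fun _ : Fin (d + 1) => ℂ) j).comp
          ((ContinuousLinearMap.proj (R := ℂ) (φ := fun _ : Fin (N + 1) => Fin (d + 1) → ℂ) i).comp
            (ContinuousLinearMap.fst ℂ (Cf N d) ℂ))) p := by
        funext p; rfl
      rw [h1]
      exact ContinuousLinearMap.analyticAt _ _
    · exact analyticAt_snd.pow _
  · simp only [pevb, pev, if_true, revc]
    apply Finset.analyticAt_fun_sum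
    intro j _
    apply AnalyticAt.mul
    · have h1 : (fun p : Cf N d × ℂ => p.1 i (Fin.rev j)) = fun p : Cf N d × ℂ =>
        ((ContinuousLinearMap.proj (R := ℂ) (φ := fun _ : Fin (d + 1) => ℂ) (Fin.rev j)).comp
          ((ContinuousLinearMap.proj (R := ℂ) (φ := fun _ : Fin (N + 1) => Fin (d + 1) → ℂ) i).comp
            (ContinuousLinearMap.fst ℂ (Cf N d) ℂ))) p := by
        funext p; rfl
      rw [h1]
      exact ContinuousLinearMap.analyticAt _ _
    · exact analyticAt_snd.pow _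

theorem pevb_continuous {N d : ℕ} (b : Bool) :
    Continuous (fun p : Cf N d × ℂ => pevb b p.1 p.2) := by
  rw [continuous_iff_continuousAt]
  intro p
  exact (pevb_analytic b p (mem_univ _)).continuousAt

/-- nonvanishing at all points of `ℙ¹` is an open condition -/
theorem eventually_ne_zero {N d : ℕ} {q₀ : Cf N d} (h : ∀ b z, pevb b q₀ z ≠ 0) :
    ∀ᶠ q in 𝓝 q₀, ∀ b z, pevb b q z ≠ 0 := by
  have key : ∀ b, ∀ᶠ q in 𝓝 q₀, ∀ z ∈ closedBall (0 : ℂ) 1, pevb b q z ≠ 0 := by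
    intro b
    apply (isCompact_closedBall (0 : ℂ) 1).eventually_forall_of_forall_eventually
    intro z _
    exact ((pevb_continuous b).continuousAt (x := (q₀, z))).eventually_ne (h b z)
  filter_upwards [key false, key true] with q h0 h1 b z
  have hall : ∀ b, ∀ z ∈ closedBall (0 : ℂ) 1, pevb b q z ≠ 0 := by
    intro b
    cases b
    · exact h0
    · exact h1
  by_cases hz : ‖z‖ ≤ 1
  · exact hall b z (by simpa using hz)
  · have hz0 : z ≠ 0 := by
      rintro rfl
      simp at hz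
    have h2 := pevb_not (!b) q hz0
    rw [Bool.not_not] at h2
    rw [h2]
    refine smul_ne_zero (pow_ne_zero _ hz0) (hall _ _ ?_)
    rw [mem_closedBall, dist_zero_right, norm_inv]
    exact inv_le_one_of_one_le₀ (le_of_lt (not_le.1 hz))

section

variable {n N : ℕ} {X : Type} [TopologicalSpace X] [ChartedSpace (Model n) X]
  [IsManifold (mI n) ω X]

/-- coefficient vectors of polynomial rational curves on `X` -/
def Sd (pe : ProjEmbedding n X N) (d : ℕ) : Set (Cf N d) :=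
  {q | ∀ b z, ∃ x, OnX pe (pevb b q z) x}

/-- the rational curve of a coefficient vector -/
noncomputable def cv [Nonempty X] (pe : ProjEmbedding n X N) {d : ℕ} (q : Cf N d) (b : Bool)
    (z : ℂ) : X :=
  Classical.epsilon fun x => OnX pe (pevb b q z) x

theorem cv_spec [Nonempty X] {pe : ProjEmbedding n X N} {d : ℕ} {q : Cf N d} (hq : q ∈ Sd pe d)
    (b : Bool) (z : ℂ) : OnX pe (pevb b q z) (cv pe q b z) :=
  Classical.epsilon_spec (hq b z)

theorem cv_eq [Nonempty X] {pe : ProjEmbedding n X N} {d : ℕ} {q : Cf N d} {b : Bool}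
    {z : ℂ} {x : X} (h : OnX pe (pevb b q z) x) : cv pe q b z = x :=
  OnX.unique (Classical.epsilon_spec (p := fun x => OnX pe (pevb b q z) x) ⟨x, h⟩) h

theorem cv_not [Nonempty X] {pe : ProjEmbedding n X N} {d : ℕ} {q : Cf N d} (hq : q ∈ Sd pe d)
    (b : Bool) {z : ℂ} (hz : z ≠ 0) : cv pe q (!b) z = cv pe q b z⁻¹ := by
  apply cv_eq
  rw [pevb_not b q hz]
  exact (cv_spec hq b z⁻¹).smul (pow_ne_zero _ hz)

/-- a coefficient vector which lies on `X` near one parameter of the chart `false` and vanishes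
nowhere lies in `Sd`. -/
theorem mem_Sd_of_local [CompactSpace X] [T2Space X] {pe : ProjEmbedding n X N} {d : ℕ}
    {q : Cf N d} (h0 : ∀ b z, pevb b q z ≠ 0) {r : ℝ} (hr : 0 < r)
    (h : ∀ z ∈ ball (0 : ℂ) r, ∃ x, OnX pe (pevb false q z) x) : q ∈ Sd pe d := by
  have han : ∀ b, AnalyticOnNhd ℂ (fun z : ℂ => pevb b q z) univ := by
    intro b z _
    exact (pevb_analytic b (q, z) (mem_univ _)).comp (analyticAt_const.prod analyticAt_id)
  have hF : ∀ z, ∃ x, OnX pe (pevb false q z) x := by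
    intro z
    refine onX_ident (pe := pe) (W := univ) (V := ball 0 r) isOpen_univ isPreconnected_univ
      (han false) (fun w _ => h0 false w) isOpen_ball ⟨0, mem_ball_self hr, mem_univ _⟩
      (fun w hw => h w hw.1) z (mem_univ _)
  have hT : ∀ z, ∃ x, OnX pe (pevb true q z) x := by
    intro z
    refine onX_ident (pe := pe) (W := univ) (V := {0}ᶜ) isOpen_univ isPreconnected_univ
      (han true) (fun w _ => h0 true w) isOpen_compl_singleton
      ⟨1, by simp, mem_univ _⟩ (fun w hw => ?_) z (mem_univ _)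
    have hw0 : w ≠ 0 := by simpa using hw.1
    obtain ⟨x, hx⟩ := hF w⁻¹
    refine ⟨x, ?_⟩
    have h2 := pevb_not false q hw0
    rw [Bool.not_false] at h2
    rw [h2]
    exact hx.smul (pow_ne_zero _ hw0)
  intro b z
  cases b
  · exact hF z
  · exact hT z

/-- **E4**: `Sd` is locally the common zero set of analytic functions. -/
theorem Sd_local [CompactSpace X] [T2Space X] (pe : ProjEmbedding n X N) (d : ℕ) (q₀ : Cf N d)
    (hq₀ : q₀ ∈ Sd pe d) :
    ∃ (O : Set (Cf N d)) (ι : Type) (φ : ι → Cf N d → ℂ), IsOpen O ∧ q₀ ∈ O ∧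
      (∀ i, AnalyticOnNhd ℂ (φ i) O) ∧ (∀ q ∈ O, q ∈ Sd pe d ↔ ∀ i, φ i q = 0) := by
  obtain ⟨x₀, hx₀⟩ := hq₀ false 0
  obtain ⟨Om, hOm, hmem, σ, Φ, hσ, hΦ, hne, hiff, hon⟩ := exists_retr hx₀
  -- a neighbourhood where everything is defined
  have h1 : ∀ᶠ p : Cf N d × ℂ in 𝓝 (q₀, (0 : ℂ)), pevb false p.1 p.2 ∈ Om :=
    ((pevb_continuous false).continuousAt (x := (q₀, (0 : ℂ)))).eventually (hOm.mem_nhds hmem)
  obtain ⟨A, hA, B, hB, hAB⟩ := eventually_prod_iff.1 (by rwa [nhds_prod_eq] at h1)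
  obtain ⟨r, hr, hrB⟩ := Metric.eventually_nhds_iff_ball.1 hB
  have h2 : ∀ᶠ q in 𝓝 q₀, A q ∧ ∀ b z, pevb b q z ≠ 0 :=
    hA.and (eventually_ne_zero fun b z => (hq₀ b z).choose_spec.1)
  obtain ⟨O, hOsub, hO, hqO⟩ := _root_.eventually_nhds_iff.1 h2
  refine ⟨O, (ball (0 : ℂ) r) × Fin (N + 1), fun i q => Φ (pevb false q i.1) i.2, hO, hqO, ?_, ?_⟩
  · rintro ⟨⟨z, hz⟩, i⟩ q hq
    have h3 : pevb false q z ∈ Om := hAB (hOsub q hq).1 (hrB z hz)
    have h4 : AnalyticAt ℂ (fun q : Cf N d => pevb false q z) q :=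
      AnalyticAt.comp (g := fun p : Cf N d × ℂ => pevb false p.1 p.2)
        (f := fun q : Cf N d => (q, z)) (pevb_analytic false (q, z) (mem_univ _))
        (analyticAt_id.prod analyticAt_const)
    have h5 : AnalyticAt ℂ (fun q : Cf N d => Φ (pevb false q z)) q :=
      AnalyticAt.comp (g := Φ) (f := fun q : Cf N d => pevb false q z) (hΦ _ h3) h4
    exact (analyticAt_pi_iff.1 h5) i
  · intro q hq
    constructor
    · rintro hS ⟨⟨z, hz⟩, i⟩
      have h3 : pevb false q z ∈ Om := hAB (hOsub q hq).1 (hrB z hz)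
      have := (hiff _ h3).2 (hS false z)
      simp [this]
    · intro hz
      refine mem_Sd_of_local (hOsub q hq).2 hr fun z hzr => ?_
      have h3 : pevb false q z ∈ Om := hAB (hOsub q hq).1 (hrB z hzr)
      refine (hiff _ h3).1 ?_
      funext i
      exact hz (⟨z, hzr⟩, i)

/-- **A4**: analytic families of coefficient vectors give holomorphic families of curves. -/
theorem isFam_of_analytic [CompactSpace X] [T2Space X] [Nonempty X] (pe : ProjEmbedding n X N)
    {d : ℕ} {E : Type*} [NormedAddCommGroup E] [NormedSpace ℂ E] {V : Set E} (hV : IsOpen V)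
    {γ : E → Cf N d} (hγ : AnalyticOnNhd ℂ γ V) (hS : ∀ s ∈ V, γ s ∈ Sd pe d) :
    IsFam n V (fun s b z => cv pe (γ s) b z) := by
  constructor
  · intro b
    apply contMDiffOn_lift (pe := pe) (hV.prod isOpen_univ)
      (q := fun p : E × ℂ => pevb b (γ p.1) p.2)
    · intro p hp
      exact AnalyticAt.comp (g := fun p : Cf N d × ℂ => pevb b p.1 p.2)
        (f := fun p : E × ℂ => (γ p.1, p.2)) (pevb_analytic b _ (mem_univ _))
        (((hγ p.1 hp.1).comp analyticAt_fst).prod analyticAt_snd)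
    · intro p hp
      exact cv_spec (hS p.1 hp.1) b p.2
  · intro s hs b z hz
    exact cv_not (hS s hs) b hz

end

end Crest.Agent.R266.S1
end

-- ▼ part R266/StepOne

/-!
R266 / StepOne: final assembly of Step 1 of S0404: a projective rationally connected manifold has a
holomorphic family of rational curves whose two-point differential is surjective on a dense set.
-/

set_option autoImplicit false

open scoped Manifold ContDiff Topology
open Set Filter Metric Crest.AlgGeometry.HolSplit MeasureTheory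
open Crest.Agent.R266.Rat Crest.Agent.R266.Emb

namespace Crest.Agent.R266.S1

section

variable {n N : ℕ} {X : Type} [TopologicalSpace X] [ChartedSpace (Model n) X]
  [IsManifold (mI n) ω X]

/-- The P1POLY property: every rational curve on `X` is given by a polynomial vector. -/
def PolyCurves (pe : ProjEmbedding n X N) : Prop :=
  ∀ g₀ g₁ : ℂ → X, ContMDiff 𝓘(ℂ, ℂ) (mI n) ω g₀ → ContMDiff 𝓘(ℂ, ℂ) (mI n) ω g₁ →
    (∀ z : ℂ, z ≠ 0 → g₁ z = g₀ z⁻¹) →
    ∃ (d : ℕ) (q : Cf N d), (∀ z, OnX pe (pev q z) (g₀ z)) ∧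
      OnX pe (fun i => q i (Fin.last d)) (g₁ 0)

theorem exists_Sd {pe : ProjEmbedding n X N} (hP : PolyCurves pe) [Nonempty X] {g₀ g₁ : ℂ → X}
    (h0 : ContMDiff 𝓘(ℂ, ℂ) (mI n) ω g₀) (h1 : ContMDiff 𝓘(ℂ, ℂ) (mI n) ω g₁)
    (h01 : ∀ z : ℂ, z ≠ 0 → g₁ z = g₀ z⁻¹) :
    ∃ (d : ℕ) (q : Cf N d), q ∈ Sd pe d ∧ ∀ z, cv pe q false z = g₀ z := by
  obtain ⟨d, q, hq, hq'⟩ := hP g₀ g₁ h0 h1 h01
  have hF : ∀ z, OnX pe (pevb false q z) (g₀ z) := fun z => by simpa [pevb] using hq z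
  refine ⟨d, q, ?_, fun z => cv_eq (hF z)⟩
  intro b z
  cases b
  · exact ⟨_, hF z⟩
  · by_cases hz : z = 0
    · subst hz
      refine ⟨g₁ 0, ?_⟩
      simp only [pevb, if_true]
      rw [pev_revc_zero]
      exact hq'
    · refine ⟨g₀ z⁻¹, ?_⟩
      have h2 := pevb_not false q hz
      rw [Bool.not_false] at h2
      rw [h2]
      exact (hF z⁻¹).smul (pow_ne_zero _ hz)

/-- the two-point map of a family in the charts `b`, `b'` -/
def tp {E : Type*} (f : E → Bool → ℂ → X) (b b' : Bool) (p : E × ℂ × ℂ) : X × X :=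
  (f p.1 b p.2.1, f p.1 b' p.2.2)

omit [IsManifold (mI n) ω X] in
theorem tp_hol {E : Type*} [NormedAddCommGroup E] [NormedSpace ℂ E] {W : Set E}
    {f : E → Bool → ℂ → X} (hf : IsFam n W f) (b b' : Bool) :
    ContMDiffOn 𝓘(ℂ, E × ℂ × ℂ) ((mI n).prod (mI n)) ω (tp f b b')
      (W ×ˢ (univ : Set ℂ) ×ˢ (univ : Set ℂ)) := by
  apply ContMDiffOn.prodMk
  · have h1 : ContMDiff 𝓘(ℂ, E × ℂ × ℂ) 𝓘(ℂ, E × ℂ) ω
        (fun p : E × ℂ × ℂ => ((p.1, p.2.1) : E × ℂ)) := by
      rw [contMDiff_iff_contDiff]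
      fun_prop
    exact (hf.hol b).comp h1.contMDiffOn (fun p hp => ⟨hp.1, mem_univ _⟩)
  · have h1 : ContMDiff 𝓘(ℂ, E × ℂ × ℂ) 𝓘(ℂ, E × ℂ) ω
        (fun p : E × ℂ × ℂ => ((p.1, p.2.2) : E × ℂ)) := by
      rw [contMDiff_iff_contDiff]
      fun_prop
    exact (hf.hol b').comp h1.contMDiffOn (fun p hp => ⟨hp.1, mem_univ _⟩)

/-- Some family has a surjective two-point differential somewhere. -/
theorem exists_family [CompactSpace X] [T2Space X] (pe : ProjEmbedding n X N)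
    (hP : PolyCurves pe) (hrc : IsRationallyConnected n X) :
    ∃ (m : ℕ) (V : Set (Fin m → ℂ)) (f : (Fin m → ℂ) → Bool → ℂ → X), IsOpen V ∧ Convex ℝ V ∧
      IsFam n V f ∧ ∃ p ∈ V ×ˢ (univ : Set ℂ) ×ˢ (univ : Set ℂ),
        Function.Surjective (mfderiv 𝓘(ℂ, (Fin m → ℂ) × ℂ × ℂ) ((mI n).prod (mI n))
          (tp f false false) p) := by
  obtain ⟨O, hO, ⟨p₀, hp₀⟩, hcur⟩ := S1.exists_open_pairs hrc
  have : Nonempty X := ⟨p₀.1⟩
  -- the countable cover of `Sd`
  have hcov : ∀ d : ℕ, ∃ (m : ℕ → ℕ) (V : ∀ k, Set (Fin (m k) → ℂ))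
      (γ : ∀ k, (Fin (m k) → ℂ) → Cf N d),
      (∀ k, IsOpen (V k)) ∧ (∀ k, Convex ℝ (V k)) ∧ (∀ k, AnalyticOnNhd ℂ (γ k) (V k)) ∧
      (∀ k, γ k '' V k ⊆ Sd pe d) ∧ Sd pe d ⊆ ⋃ k, γ k '' V k :=
    fun d => (LZ.anCov_of_local (fun q hq => Sd_local pe d q hq)).enum
  choose m V γ hVo hVc hγ hγS hSγ using hcov
  by_contra hcon
  push Not at hcon
  have hnot : ∀ d k, ∀ p ∈ V d k ×ˢ (univ : Set ℂ) ×ˢ (univ : Set ℂ),
      ¬ Function.Surjective (mfderiv 𝓘(ℂ, (Fin (m d k) → ℂ) × ℂ × ℂ) ((mI n).prod (mI n))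
          (tp (fun s b z => cv pe (γ d k s) b z) false false) p) := by
    intro d k
    exact hcon (m d k) (V d k) _ (hVo d k) (hVc d k)
      (isFam_of_analytic pe (hVo d k) (hγ d k) (fun s hs => hγS d k ⟨s, hs, rfl⟩))
  -- the chart at `p₀`
  set O' := O ∩ (chartAt (ModelProd (Model n) (Model n)) p₀).source with hO'
  have hO'o : IsOpen O' := hO.inter (chartAt (ModelProd (Model n) (Model n)) p₀).open_source
  have hO's : O' ⊆ (extChartAt ((mI n).prod (mI n)) p₀).source := by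
    intro x hx
    rw [extChartAt_source]
    exact hx.2
  have hφO : IsOpen (extChartAt ((mI n).prod (mI n)) p₀ '' O') := by
    rw [PartialEquiv.image_eq_target_inter_inv_preimage _ hO's]
    exact (continuousOn_extChartAt_symm p₀).isOpen_inter_preimage (isOpen_extChartAt_target p₀) hO'o
  have hφne : (extChartAt ((mI n).prod (mI n)) p₀ '' O').Nonempty :=
    ⟨_, p₀, ⟨hp₀, mem_chart_source _ _⟩, rfl⟩
  have hnull : ∀ d k, (Measure.addHaar : Measure (Model n × Model n))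
      ((fun p => extChartAt ((mI n).prod (mI n)) p₀
          (tp (fun s b z => cv pe (γ d k s) b z) false false p)) ''
        ((V d k ×ˢ (univ : Set ℂ) ×ˢ (univ : Set ℂ)) ∩
          (tp (fun s b z => cv pe (γ d k s) b z) false false) ⁻¹'
            (chartAt (ModelProd (Model n) (Model n)) p₀).source)) = 0 := by
    intro d k
    have hfam := isFam_of_analytic pe (hVo d k) (hγ d k) (fun s hs => hγS d k ⟨s, hs, rfl⟩)
    obtain ⟨h1, h2, h3⟩ := SD.local_form ((hVo d k).prod (isOpen_univ.prod isOpen_univ))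
      (tp_hol hfam false false) p₀
    apply null_image _ h1 h2
    intro x hx hs
    exact hnot d k x hx.1 ((h3 x hx).1 hs)
  have hsub : extChartAt ((mI n).prod (mI n)) p₀ '' O' ⊆ ⋃ d, ⋃ k,
      ((fun p => extChartAt ((mI n).prod (mI n)) p₀
          (tp (fun s b z => cv pe (γ d k s) b z) false false p)) ''
        ((V d k ×ˢ (univ : Set ℂ) ×ˢ (univ : Set ℂ)) ∩
          (tp (fun s b z => cv pe (γ d k s) b z) false false) ⁻¹'
            (chartAt (ModelProd (Model n) (Model n)) p₀).source)) := by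
    rintro _ ⟨p, hp, rfl⟩
    obtain ⟨g₀, g₁, h0, h1, h01, z, z', hpz⟩ := hcur p hp.1
    obtain ⟨d, q, hq, hqz⟩ := exists_Sd hP h0 h1 h01
    obtain ⟨k, s, hs, hsq⟩ := mem_iUnion.1 (hSγ d hq)
    have htp : tp (fun s b z => cv pe (γ d k s) b z) false false (s, z, z') = p := by
      simp only [tp]
      rw [hsq, hqz, hqz, hpz]
    refine mem_iUnion.2 ⟨d, mem_iUnion.2 ⟨k, (s, z, z'), ⟨⟨hs, mem_univ _, mem_univ _⟩, ?_⟩, ?_⟩⟩
    · rw [mem_preimage, htp]
      exact hp.2
    · simp only []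
      rw [htp]
  have hpos := hφO.measure_pos (Measure.addHaar : Measure (Model n × Model n)) hφne
  have hzero : (Measure.addHaar : Measure (Model n × Model n))
      (extChartAt ((mI n).prod (mI n)) p₀ '' O') = 0 :=
    measure_mono_null hsub (measure_iUnion_null fun d => measure_iUnion_null fun k => hnull d k)
  exact hpos.ne' hzero

/-- change of chart of `ℙ¹` -/
noncomputable def iv (b : Bool) (z : ℂ) : ℂ := if b then z⁻¹ else z

theorem iv_iv (b : Bool) (z : ℂ) : iv b (iv b z) = z := by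
  cases b <;> simp [iv]

theorem iv_ne (b : Bool) {z : ℂ} (hz : z ≠ 0) : iv b z ≠ 0 := by
  cases b <;> simpa [iv] using hz

theorem iv_diff (b : Bool) {z : ℂ} (hz : z ≠ 0) : DifferentiableAt ℂ (iv b) z := by
  cases b
  · have : iv false = fun z => z := by funext z; simp [iv]
    rw [this]
    exact differentiableAt_id
  · have : iv true = fun z => z⁻¹ := by funext z; simp [iv]
    rw [this]
    exact differentiableAt_inv hz

/-- change of charts on `E × ℙ¹ × ℙ¹` -/
noncomputable def iot {E : Type*} (b b' : Bool) (p : E × ℂ × ℂ) : E × ℂ × ℂ :=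
  (p.1, iv b p.2.1, iv b' p.2.2)

theorem iot_iot {E : Type*} (b b' : Bool) (p : E × ℂ × ℂ) : iot b b' (iot b b' p) = p := by
  simp [iot, iv_iv]

theorem iot_diff {E : Type*} [NormedAddCommGroup E] [NormedSpace ℂ E] (b b' : Bool)
    {p : E × ℂ × ℂ} (h1 : p.2.1 ≠ 0) (h2 : p.2.2 ≠ 0) : DifferentiableAt ℂ (iot b b') p := by
  unfold iot
  have f1 : DifferentiableAt ℂ (fun p : E × ℂ × ℂ => p.2.1) p := by fun_prop
  have f2 : DifferentiableAt ℂ (fun p : E × ℂ × ℂ => p.2.2) p := by fun_prop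
  have e1 : DifferentiableAt ℂ (fun p : E × ℂ × ℂ => iv b p.2.1) p :=
    DifferentiableAt.comp (g := iv b) (f := fun p : E × ℂ × ℂ => p.2.1) p (iv_diff b h1) f1
  have e2 : DifferentiableAt ℂ (fun p : E × ℂ × ℂ => iv b' p.2.2) p :=
    DifferentiableAt.comp (g := iv b') (f := fun p : E × ℂ × ℂ => p.2.2) p (iv_diff b' h2) f2
  exact differentiableAt_fst.prodMk (e1.prodMk e2)

theorem iot_surj {E : Type*} [NormedAddCommGroup E] [NormedSpace ℂ E] (b b' : Bool)
    {p : E × ℂ × ℂ} (h1 : p.2.1 ≠ 0) (h2 : p.2.2 ≠ 0) :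
    Function.Surjective (fderiv ℂ (iot b b') p) := by
  have hq : iot b b' (iot b b' p) = p := iot_iot b b' p
  have hd1 : DifferentiableAt ℂ (iot b b' : E × ℂ × ℂ → E × ℂ × ℂ) (iot b b' p) :=
    iot_diff b b' (iv_ne b h1) (iv_ne b' h2)
  have hd2 : DifferentiableAt ℂ (iot b b' : E × ℂ × ℂ → E × ℂ × ℂ) (iot b b' (iot b b' p)) := by
    rw [hq]; exact iot_diff b b' h1 h2
  have hcomp := fderiv_comp (iot b b' p) hd2 hd1
  have hid : (iot b b' : E × ℂ × ℂ → E × ℂ × ℂ) ∘ iot b b' = id := by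
    funext x; exact iot_iot b b' x
  rw [hid, fderiv_id, hq] at hcomp
  intro v
  refine ⟨fderiv ℂ (iot b b') (iot b b' p) v, ?_⟩
  have := congrArg (fun A => A v) hcomp
  simpa using this.symm

omit [IsManifold (mI n) ω X] in
theorem tp_iot {E : Type*} [NormedAddCommGroup E] [NormedSpace ℂ E] {W : Set E}
    {f : E → Bool → ℂ → X} (hf : IsFam n W f) (b b' : Bool) {p : E × ℂ × ℂ} (hp : p.1 ∈ W)
    (h1 : p.2.1 ≠ 0) (h2 : p.2.2 ≠ 0) :
    tp f b b' p = tp f false false (iot b b' p) := by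
  have key : ∀ (b : Bool) (z : ℂ), z ≠ 0 → f p.1 b z = f p.1 false (iv b z) := by
    intro b z hz
    cases b
    · simp [iv]
    · have := hf.glue p.1 hp false z hz
      simpa [iv] using this
  simp only [tp, iot]
  rw [key b _ h1, key b' _ h2]

/-- the two-point differential is surjective on a dense set, in all pairs of charts, as soon as it
is surjective at one point -/
theorem dense_twopoint {E : Type*} [NormedAddCommGroup E] [NormedSpace ℂ E] {W : Set E}
    (hW : IsOpen W) (hWc : IsPreconnected W) {f : E → Bool → ℂ → X} (hf : IsFam n W f)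
    {p₀ : E × ℂ × ℂ} (hp₀ : p₀ ∈ W ×ˢ (univ : Set ℂ) ×ˢ (univ : Set ℂ))
    (hs : Function.Surjective (mfderiv 𝓘(ℂ, E × ℂ × ℂ) ((mI n).prod (mI n))
      (tp f false false) p₀)) (b b' : Bool) (U : Set (E × ℂ × ℂ)) (hU : IsOpen U)
    (hUne : U.Nonempty) (hUW : U ⊆ W ×ˢ (univ : Set ℂ) ×ˢ (univ : Set ℂ)) :
    ∃ p ∈ U, Function.Surjective (mfderiv 𝓘(ℂ, E × ℂ × ℂ) ((mI n).prod (mI n))
      (tp f b b') p) := by
  have hWo : IsOpen (W ×ˢ (univ : Set ℂ) ×ˢ (univ : Set ℂ)) :=
    hW.prod (isOpen_univ.prod isOpen_univ)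
  have hWoc : IsPreconnected (W ×ˢ (univ : Set ℂ) ×ˢ (univ : Set ℂ)) :=
    hWc.prod (isPreconnected_univ.prod isPreconnected_univ)
  set Ω : Set (E × ℂ × ℂ) := (univ : Set E) ×ˢ ({0}ᶜ : Set ℂ) ×ˢ ({0}ᶜ : Set ℂ) with hΩ
  have hΩo : IsOpen Ω := isOpen_univ.prod (isOpen_compl_singleton.prod isOpen_compl_singleton)
  have hΩd : Dense Ω := dense_univ.prod ((dense_compl_singleton 0).prod (dense_compl_singleton 0))
  obtain ⟨x, hx1, hx2⟩ := hΩd.inter_open_nonempty U hU hUne
  have hcont : ContinuousOn (iot b b') Ω := fun p hp =>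
    (iot_diff b b' (by simpa using hp.2.1) (by simpa using hp.2.2)).continuousAt.continuousWithinAt
  have hU' : IsOpen (Ω ∩ iot b b' ⁻¹' (U ∩ Ω)) := hcont.isOpen_inter_preimage hΩo (hU.inter hΩo)
  have hmaps : ∀ p ∈ Ω, iot b b' p ∈ Ω := by
    intro p hp
    exact ⟨mem_univ _, iv_ne b (by simpa using hp.2.1), iv_ne b' (by simpa using hp.2.2)⟩
  obtain ⟨p, hp, hps⟩ := SD.exists_surj hWo hWoc (tp_hol hf false false) hp₀ hs _ hU'
    ⟨iot b b' x, hmaps x hx2, by rw [mem_preimage, iot_iot]; exact ⟨hx1, hx2⟩⟩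
    (fun p hp => ⟨(hUW hp.2.1).1, mem_univ _, mem_univ _⟩)
  refine ⟨iot b b' p, hp.2.1, ?_⟩
  have hp1 : p.2.1 ≠ 0 := by simpa using hp.1.2.1
  have hp2 : p.2.2 ≠ 0 := by simpa using hp.1.2.2
  have hpW : p.1 ∈ W := (hUW hp.2.1).1
  have hev : tp f b b' =ᶠ[𝓝 (iot b b' p)] (tp f false false) ∘ (iot b b') := by
    filter_upwards [hU.mem_nhds hp.2.1, hΩo.mem_nhds (hmaps p hp.1)] with y hy1 hy2
    exact tp_iot hf b b' (hUW hy1).1 (by simpa using hy2.2.1) (by simpa using hy2.2.2)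
  rw [hev.mfderiv_eq]
  have hd1 : MDifferentiableAt 𝓘(ℂ, E × ℂ × ℂ) ((mI n).prod (mI n)) (tp f false false)
      (iot b b' (iot b b' p)) := by
    rw [iot_iot]
    exact ((tp_hol hf false false).contMDiffAt
      (hWo.mem_nhds ⟨hpW, mem_univ _, mem_univ _⟩)).mdifferentiableAt (by simp)
  have hd2 : MDifferentiableAt 𝓘(ℂ, E × ℂ × ℂ) 𝓘(ℂ, E × ℂ × ℂ)
      (iot b b' : E × ℂ × ℂ → E × ℂ × ℂ) (iot b b' p) :=
    (iot_diff b b' (iv_ne b hp1) (iv_ne b' hp2)).mdifferentiableAt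
  rw [mfderiv_comp (iot b b' p) hd1 hd2, mfderiv_eq_fderiv]
  have h1 : Function.Surjective (fderiv ℂ (iot b b') (iot b b' p)) :=
    iot_surj b b' (iv_ne b hp1) (iv_ne b' hp2)
  have h2 : Function.Surjective (mfderiv 𝓘(ℂ, E × ℂ × ℂ) ((mI n).prod (mI n))
      (tp f false false) (iot b b' (iot b b' p))) := by
    rw [iot_iot]; exact hps
  exact h2.comp h1

omit [IsManifold (mI n) ω X] in
/-- affine reparametrisation of the parameter space -/
theorem isFam_affine {E : Type*} [NormedAddCommGroup E] [NormedSpace ℂ E] {W : Set E}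
    {f : E → Bool → ℂ → X} (hf : IsFam n W f) {s₁ : E} {r : ℝ} (hr : 0 < r)
    (hb : ball s₁ r ⊆ W) :
    IsFam n (ball (0 : E) 1) (fun s => f (s₁ + (r : ℂ) • s)) := by
  have hmem : ∀ s ∈ ball (0 : E) 1, s₁ + (r : ℂ) • s ∈ W := by
    intro s hs
    apply hb
    rw [mem_ball_zero_iff] at hs
    rw [mem_ball, dist_eq_norm, add_sub_cancel_left, norm_smul, Complex.norm_real,
      Real.norm_eq_abs, abs_of_pos hr]
    nlinarith
  constructor
  · intro b
    have h1 : ContMDiff 𝓘(ℂ, E × ℂ) 𝓘(ℂ, E × ℂ) ω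
        (fun p : E × ℂ => ((s₁ + (r : ℂ) • p.1, p.2) : E × ℂ)) := by
      rw [contMDiff_iff_contDiff]
      fun_prop
    exact (hf.hol b).comp h1.contMDiffOn (fun p hp => ⟨hmem p.1 hp.1, mem_univ _⟩)
  · intro s hs b z hz
    exact hf.glue _ (hmem s hs) b z hz

omit [IsManifold (mI n) ω X] in
theorem surj_affine {E : Type*} [NormedAddCommGroup E] [NormedSpace ℂ E] {W : Set E}
    (hW : IsOpen W) {f : E → Bool → ℂ → X} (hf : IsFam n W f) {s₁ : E} {r : ℝ} (hr : 0 < r)
    (hs₁ : s₁ ∈ W) {z z' : ℂ}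
    (hs : Function.Surjective (mfderiv 𝓘(ℂ, E × ℂ × ℂ) ((mI n).prod (mI n))
      (tp f false false) (s₁, z, z'))) :
    Function.Surjective (mfderiv 𝓘(ℂ, E × ℂ × ℂ) ((mI n).prod (mI n))
      (tp (fun s => f (s₁ + (r : ℂ) • s)) false false) (0, z, z')) := by
  have hr' : (r : ℂ) ≠ 0 := by exact_mod_cast hr.ne'
  let A : E × ℂ × ℂ → E × ℂ × ℂ := fun p => (s₁ + (r : ℂ) • p.1, p.2.1, p.2.2)
  let B : E × ℂ × ℂ → E × ℂ × ℂ := fun p => ((r : ℂ)⁻¹ • (p.1 - s₁), p.2.1, p.2.2)
  have hA : Differentiable ℂ A := by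
    intro p
    simp only [A]
    fun_prop
  have hB : Differentiable ℂ B := by
    intro p
    simp only [B]
    fun_prop
  have hAB : A ∘ B = id := by
    funext p
    simp only [A, B, Function.comp, smul_smul, mul_inv_cancel₀ hr', one_smul, id]
    simp
  have hB0 : B (s₁, z, z') = (0, z, z') := by simp [B]
  have hA0 : A (0, z, z') = (s₁, z, z') := by simp [A]
  have hsA : Function.Surjective (fderiv ℂ A (0, z, z')) := by
    have hcomp := fderiv_comp (s₁, z, z') (hA (B (s₁, z, z'))) (hB (s₁, z, z'))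
    rw [hAB, fderiv_id, hB0] at hcomp
    intro v
    refine ⟨fderiv ℂ B (s₁, z, z') v, ?_⟩
    have := congrArg (fun L => L v) hcomp
    simpa using this.symm
  have he : tp (fun s => f (s₁ + (r : ℂ) • s)) false false = tp f false false ∘ A := rfl
  have hd1 : MDifferentiableAt 𝓘(ℂ, E × ℂ × ℂ) ((mI n).prod (mI n)) (tp f false false)
      (A (0, z, z')) := by
    rw [hA0]
    exact ((tp_hol hf false false).contMDiffAt
      ((hW.prod (isOpen_univ.prod isOpen_univ)).mem_nhds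
        ⟨hs₁, mem_univ _, mem_univ _⟩)).mdifferentiableAt (by simp)
  rw [he, mfderiv_comp (0, z, z') hd1 (hA _).mdifferentiableAt, mfderiv_eq_fderiv]
  have h2 : Function.Surjective (mfderiv 𝓘(ℂ, E × ℂ × ℂ) ((mI n).prod (mI n))
      (tp f false false) (A (0, z, z'))) := by
    rw [hA0]; exact hs
  exact h2.comp hsA

end

end Crest.Agent.R266.S1

namespace Crest.Agent.R266.F404

open Crest.Agent.R266.S1

/-- **Step 1 of S0404**: a projective rationally connected manifold has a holomorphic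
family of rational curves whose two-point differential is surjective on a dense set (in all pairs of
charts of `ℙ¹`). -/
theorem one_holds (n : ℕ) (X : Type) [TopologicalSpace X] [T2Space X] [SecondCountableTopology X]
    [CompactSpace X] [ConnectedSpace X] [ChartedSpace (Model n) X] [IsManifold (mI n) ω X] :
    St_one n X := by
  rintro ⟨N, ⟨pe⟩⟩ hrc
  obtain ⟨m, W, f, hWo, hWc, hf, ⟨s₁, z, z'⟩, hp, hs⟩ :=
    exists_family pe (fun g₀ g₁ h0 h1 h01 => P1.p1_poly_onX pe g₀ g₁ h0 h1 h01) hrc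
  obtain ⟨r, hr, hball⟩ := Metric.isOpen_iff.1 hWo s₁ hp.1
  have hf' := isFam_affine hf hr hball
  have hs' := surj_affine hWo hf hr hp.1 hs
  refine ⟨m, _, hf', fun b b' U hU hUne hUW => ?_⟩
  exact dense_twopoint isOpen_ball (convex_ball _ _).isPreconnected hf'
    (p₀ := (0, z, z')) ⟨mem_ball_self one_pos, mem_univ _, mem_univ _⟩ hs' b b' U hU hUne hUW

end Crest.Agent.R266.F404
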