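import Mathlib
import Crest.Prelude.Def_TangentSplitting

/-!
Row 266 (S0404/S0405): chart layer (helper35).
-/

set_option autoImplicit false

open Set Function Filter VectorField
open scoped Manifold ContDiff Topology
open Crest.AlgGeometry.HolSplit

namespace Crest.Agent.R266

noncomputable section

/-! ### projections depending on a point of a normed space -/

section Local

variable {E : Type*} [NormedAddCommGroup E] [NormedSpace ℂ E]

/-- The integrability tensor of the image of `P` vanishes at `y`. -/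
def T1 (P : E → E →L[ℂ] E) (y : E) : Prop :=
  ∀ u v, P y u = u → P y v = v → fderiv ℂ P y u v = fderiv ℂ P y v u

/-- The integrability tensor of the kernel of `P` vanishes at `y`. -/
def T2 (P : E → E →L[ℂ] E) (y : E) : Prop :=
  ∀ u v, P y u = 0 → P y v = 0 → fderiv ℂ P y u v = fderiv ℂ P y v u

lemma fderiv_apply_field {P : E → E →L[ℂ] E} {y : E} (hP : DifferentiableAt ℂ P y)
    {W : E → E} (hW : DifferentiableAt ℂ W y) (v : E) :
    fderiv ℂ (fun z => P z (W z)) y v = fderiv ℂ P y v (W y) + P y (fderiv ℂ W y v) := by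
  rw [fderiv_clm_apply hP hW]
  simp [add_comm]

lemma bracket_image {P : E → E →L[ℂ] E} {y : E} (hP : DifferentiableAt ℂ P y)
    {V W : E → E} (hV : DifferentiableAt ℂ V y) (hW : DifferentiableAt ℂ W y)
    (h1 : ∀ᶠ z in 𝓝 y, P z (V z) = V z) (h2 : ∀ᶠ z in 𝓝 y, P z (W z) = W z) :
    lieBracket ℂ V W y - P y (lieBracket ℂ V W y) =
      fderiv ℂ P y (V y) (W y) - fderiv ℂ P y (W y) (V y) := by
  have e1 : fderiv ℂ (fun z => P z (V z)) y = fderiv ℂ V y := Filter.EventuallyEq.fderiv_eq h1
  have e2 : fderiv ℂ (fun z => P z (W z)) y = fderiv ℂ W y := Filter.EventuallyEq.fderiv_eq h2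
  have f1 := fderiv_apply_field hP hV (W y)
  have f2 := fderiv_apply_field hP hW (V y)
  rw [e1] at f1
  rw [e2] at f2
  rw [lieBracket_eq]
  simp only [map_sub]
  have g1 := sub_eq_of_eq_add f1
  have g2 := sub_eq_of_eq_add f2
  rw [← g1, ← g2]
  abel

lemma bracket_kernel {P : E → E →L[ℂ] E} {y : E} (hP : DifferentiableAt ℂ P y)
    {V W : E → E} (hV : DifferentiableAt ℂ V y) (hW : DifferentiableAt ℂ W y)
    (h1 : ∀ᶠ z in 𝓝 y, P z (V z) = 0) (h2 : ∀ᶠ z in 𝓝 y, P z (W z) = 0) :
    P y (lieBracket ℂ V W y) = fderiv ℂ P y (W y) (V y) - fderiv ℂ P y (V y) (W y) := by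
  have e1 : fderiv ℂ (fun z => P z (V z)) y = 0 := by
    rw [Filter.EventuallyEq.fderiv_eq (f₁ := fun z => P z (V z)) (f := fun _ => (0 : E)) h1]
    simp
  have e2 : fderiv ℂ (fun z => P z (W z)) y = 0 := by
    rw [Filter.EventuallyEq.fderiv_eq (f₁ := fun z => P z (W z)) (f := fun _ => (0 : E)) h2]
    simp
  have f1 := fderiv_apply_field hP hV (W y)
  have f2 := fderiv_apply_field hP hW (V y)
  rw [e1] at f1
  rw [e2] at f2
  simp only [zero_apply] at f1 f2
  rw [lieBracket_eq]
  simp only [map_sub]
  have g1 := eq_neg_of_add_eq_zero_right f1.symm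
  have g2 := eq_neg_of_add_eq_zero_right f2.symm
  rw [g1, g2]
  abel

/-- idempotency of `P` near `y` gives the standard identities for the derivative -/
lemma fderiv_idem {P : E → E →L[ℂ] E} {y : E} (hP : DifferentiableAt ℂ P y)
    (hid : ∀ᶠ z in 𝓝 y, ∀ v, P z (P z v) = P z v) (u v : E) :
    fderiv ℂ P y u (P y v) + P y (fderiv ℂ P y u v) = fderiv ℂ P y u v := by
  have hPv : DifferentiableAt ℂ (fun z => P z v) y := hP.clm_apply (differentiableAt_const v)
  have e1 : fderiv ℂ (fun z => P z (P z v)) y = fderiv ℂ (fun z => P z v) y :=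
    Filter.EventuallyEq.fderiv_eq (hid.mono fun z hz => hz v)
  have f1 := fderiv_apply_field hP hPv u
  have f2 := fderiv_apply_field hP (differentiableAt_const v) u
  rw [e1] at f1
  simp only [fderiv_fun_const, Pi.zero_apply, zero_apply, map_zero, add_zero] at f2
  rw [f2] at f1
  exact f1.symm


end Local

variable {n : ℕ} {X : Type*} [TopologicalSpace X] [ChartedSpace (Model n) X]
  [IsManifold (mI n) ω X]

/-- coordinate change of tangent vectors, from the chart at `x` to the chart at `y`, at `z`. -/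
abbrev tcc (x y z : X) : Model n →L[ℂ] Model n := tangentCoordChange (mI n) x y z

/-- the projection at `x`, as an endomorphism of the model space (the tangent space at `x` in the
chart at `x`). -/
def pr (S : Splitting n X) (x : X) : Model n →L[ℂ] Model n := S.proj x

lemma pr_idem (S : Splitting n X) (x : X) (v : Model n) : pr S x (pr S x v) = pr S x v :=
  S.idem x v

/-- the projection of the splitting in the chart at `x₀`. -/
def Pc (S : Splitting n X) (x₀ : X) (y : Model n) : Model n →L[ℂ] Model n :=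
  (tcc ((chartAt (Model n) x₀).symm y) x₀ ((chartAt (Model n) x₀).symm y)).comp
    ((pr S ((chartAt (Model n) x₀).symm y)).comp
      (tcc x₀ ((chartAt (Model n) x₀).symm y) ((chartAt (Model n) x₀).symm y)))

/-- a vector field in the chart at `x₀`. -/
def Vc (x₀ : X) (V : (x : X) → TangentSpace (mI n) x) (y : Model n) : Model n :=
  tcc ((chartAt (Model n) x₀).symm y) x₀ ((chartAt (Model n) x₀).symm y)
    (V ((chartAt (Model n) x₀).symm y))

lemma tcc_self {x z : X} (h : z ∈ (chartAt (Model n) x).source) (v : Model n) :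
    tcc x x z v = v :=
  tangentCoordChange_self (I := mI n) (by simpa [extChartAt_source] using h)

lemma tcc_comp {w x y z : X} (hw : z ∈ (chartAt (Model n) w).source)
    (hx : z ∈ (chartAt (Model n) x).source) (hy : z ∈ (chartAt (Model n) y).source) (v : Model n) :
    tcc x y z (tcc w x z v) = tcc w y z v :=
  tangentCoordChange_comp (I := mI n) (by
    simp only [extChartAt_source]; exact ⟨⟨hw, hx⟩, hy⟩)

lemma tcc_cancel {x z : X} (hx : z ∈ (chartAt (Model n) x).source) (v : Model n) :
    tcc z x z (tcc x z z v) = v := by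
  rw [tcc_comp hx (mem_chart_source _ z) hx, tcc_self hx]

lemma tcc_cancel' {x z : X} (hx : z ∈ (chartAt (Model n) x).source) (v : Model n) :
    tcc x z z (tcc z x z v) = v := by
  rw [tcc_comp (mem_chart_source _ z) hx (mem_chart_source _ z), tcc_self (mem_chart_source _ z)]

lemma Pc_apply (S : Splitting n X) (x₀ : X) (y : Model n) (v : Model n) :
    Pc S x₀ y v = tcc ((chartAt (Model n) x₀).symm y) x₀ ((chartAt (Model n) x₀).symm y)
      (pr S ((chartAt (Model n) x₀).symm y)
        (tcc x₀ ((chartAt (Model n) x₀).symm y) ((chartAt (Model n) x₀).symm y) v)) := rfl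

omit [IsManifold (mI n) ω X] in
lemma symm_mem {x₀ : X} {y : Model n} (hy : y ∈ (chartAt (Model n) x₀).target) :
    (chartAt (Model n) x₀).symm y ∈ (chartAt (Model n) x₀).source :=
  (chartAt (Model n) x₀).map_target hy

/-- idempotent -/
lemma Pc_idem (S : Splitting n X) {x₀ : X} {y : Model n}
    (hy : y ∈ (chartAt (Model n) x₀).target) (v : Model n) :
    Pc S x₀ y (Pc S x₀ y v) = Pc S x₀ y v := by
  simp only [Pc_apply]
  rw [tcc_cancel' (symm_mem hy), pr_idem]

/-- `Pc` of a vector of the tangent space at a point, moved to the chart. -/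
lemma Pc_tcc (S : Splitting n X) {x₀ : X} {y : Model n}
    (hy : y ∈ (chartAt (Model n) x₀).target) (v : Model n) :
    Pc S x₀ y (tcc ((chartAt (Model n) x₀).symm y) x₀ ((chartAt (Model n) x₀).symm y) v) =
      tcc ((chartAt (Model n) x₀).symm y) x₀ ((chartAt (Model n) x₀).symm y)
        (pr S ((chartAt (Model n) x₀).symm y) v) := by
  rw [Pc_apply, tcc_cancel' (symm_mem hy)]


lemma holField_iff {x₀ : X} {U : Set X} (hU : IsOpen U) (hUs : U ⊆ (chartAt (Model n) x₀).source)
    (V : (x : X) → TangentSpace (mI n) x) :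
    IsHolVectorFieldOn U V ↔
      ContMDiffOn (mI n) 𝓘(ℂ, Model n) ω (fun x => tcc x x₀ x (V x)) U := by
  have := (trivializationAt (Model n) (TangentSpace (mI n)) x₀).contMDiffOn_section_iff
    (IB := mI n) (n := ω) (s := V) hU (by simpa using hUs)
  exact this

lemma Vc_contDiffOn {x₀ : X} {U : Set X} (hU : IsOpen U)
    {V : (x : X) → TangentSpace (mI n) x} (hV : IsHolVectorFieldOn U V) :
    ContDiffOn ℂ ω (Vc x₀ V)
      ((chartAt (Model n) x₀).target ∩ (chartAt (Model n) x₀).symm ⁻¹' U) := by
  have hV' : IsHolVectorFieldOn (U ∩ (chartAt (Model n) x₀).source) V :=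
    ContMDiffOn.mono hV inter_subset_left
  rw [holField_iff (hU.inter (chartAt (Model n) x₀).open_source) inter_subset_right] at hV'
  have hs : ContMDiffOn (mI n) (mI n) ω (chartAt (Model n) x₀).symm
      ((chartAt (Model n) x₀).target ∩ (chartAt (Model n) x₀).symm ⁻¹' U) :=
    (contMDiffOn_chart_symm (I := mI n) (n := ω) (x := x₀)).mono inter_subset_left
  have := hV'.comp hs (by
    intro y hy
    exact ⟨hy.2, symm_mem hy.1⟩)
  rw [contMDiffOn_iff_contDiffOn] at this
  exact this

lemma holField_of_Vc {x₀ : X} {U : Set X} (hU : IsOpen U) (hUs : U ⊆ (chartAt (Model n) x₀).source)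
    {V : (x : X) → TangentSpace (mI n) x}
    (hV : ContDiffOn ℂ ω (Vc x₀ V)
      ((chartAt (Model n) x₀).target ∩ (chartAt (Model n) x₀).symm ⁻¹' U)) :
    IsHolVectorFieldOn U V := by
  rw [holField_iff hU hUs]
  have hs : ContMDiffOn (mI n) (mI n) ω (chartAt (Model n) x₀) U :=
    (contMDiffOn_chart (I := mI n) (n := ω) (x := x₀)).mono hUs
  have h1 := (contMDiffOn_iff_contDiffOn.2 hV).comp hs (by
    intro x hx
    refine ⟨(chartAt (Model n) x₀).map_source (hUs hx), ?_⟩
    simpa [(chartAt (Model n) x₀).left_inv (hUs hx)] using hx)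
  refine h1.congr ?_
  intro x hx
  simp only [comp_apply, Vc]
  rw [(chartAt (Model n) x₀).left_inv (hUs hx)]

/-- the vector field which is constant in the chart at `x₀`. -/
def cfield (x₀ : X) (v : Model n) (x : X) : TangentSpace (mI n) x := tcc x₀ x x v

lemma Vc_cfield {x₀ : X} {y : Model n} (hy : y ∈ (chartAt (Model n) x₀).target) (v : Model n) :
    Vc x₀ (cfield x₀ v) y = v := tcc_cancel (symm_mem hy) v

lemma cfield_hol (x₀ : X) (v : Model n) :
    IsHolVectorFieldOn (chartAt (Model n) x₀).source (cfield (n := n) x₀ v) := by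
  refine holField_of_Vc (x₀ := x₀) (chartAt (Model n) x₀).open_source subset_rfl ?_
  refine (contDiffOn_const (c := v)).congr ?_
  intro y hy
  exact Vc_cfield hy.1 v

lemma Pc_contDiffOn (S : Splitting n X) (x₀ : X) :
    ContDiffOn ℂ ω (Pc S x₀) (chartAt (Model n) x₀).target := by
  rw [contDiffOn_clm_apply]
  intro v
  have h1 := S.holomorphic _ (chartAt (Model n) x₀).open_source _ (cfield_hol x₀ v)
  have h2 := Vc_contDiffOn (x₀ := x₀) (chartAt (Model n) x₀).open_source h1
  refine (h2.mono ?_).congr ?_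
  · intro y hy
    exact ⟨hy, symm_mem hy⟩
  · intro y hy
    rfl

/-! ### derivatives of charts -/

lemma mfderiv_extChart {x₀ x : X} (hx : x ∈ (chartAt (Model n) x₀).source) :
    (mfderiv (mI n) 𝓘(ℂ, Model n) (extChartAt (mI n) x₀) x : Model n →L[ℂ] Model n)
      = tcc x x₀ x := by
  rw [← TangentBundle.continuousLinearMapAt_trivializationAt hx]
  exact TangentBundle.continuousLinearMapAt_trivializationAt_eq_core hx

lemma inverse_mfderivWithin_symm {x₀ : X} {y : Model n}
    (hy : y ∈ (chartAt (Model n) x₀).target) :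
    (mfderivWithin 𝓘(ℂ, Model n) (mI n) (extChartAt (mI n) x₀).symm (range (mI n)) y :
      Model n →L[ℂ] Model n).inverse =
      tcc ((chartAt (Model n) x₀).symm y) x₀ ((chartAt (Model n) x₀).symm y) := by
  have hy' : y ∈ (extChartAt (mI n) x₀).target := by simpa [extChartAt_target] using hy
  have h1 := mfderivWithin_extChartAt_symm_comp_mfderiv_extChartAt (I := mI n) hy'
  have h2 := mfderiv_extChartAt_comp_mfderivWithin_extChartAt_symm (I := mI n) hy'
  have h3 := ContinuousLinearMap.inverse_eq h1 h2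
  have h4 := mfderiv_extChart (x₀ := x₀) (symm_mem hy)
  exact h3.trans h4

lemma mpullback_eq_Vc {x₀ : X} (V : (x : X) → TangentSpace (mI n) x) {y : Model n}
    (hy : y ∈ (chartAt (Model n) x₀).target) :
    mpullbackWithin 𝓘(ℂ, Model n) (mI n) (extChartAt (mI n) x₀).symm V (range (mI n)) y
      = Vc x₀ V y := by
  rw [mpullbackWithin_apply]
  exact congrArg (fun L : Model n →L[ℂ] Model n => L (V ((chartAt (Model n) x₀).symm y)))
    (inverse_mfderivWithin_symm hy)


/-- the bracket of vector fields in any chart. -/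
lemma mlieBracket_chart {x₀ : X} {y : Model n} (hy : y ∈ (chartAt (Model n) x₀).target)
    {V W : (x : X) → TangentSpace (mI n) x}
    (hV : MDifferentiableAt (mI n) (mI n).tangent
      (fun x => (Bundle.TotalSpace.mk' (Model n) x (V x) : TangentBundle (mI n) X))
      ((chartAt (Model n) x₀).symm y))
    (hW : MDifferentiableAt (mI n) (mI n).tangent
      (fun x => (Bundle.TotalSpace.mk' (Model n) x (W x) : TangentBundle (mI n) X))
      ((chartAt (Model n) x₀).symm y)) :
    tcc ((chartAt (Model n) x₀).symm y) x₀ ((chartAt (Model n) x₀).symm y)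
      (mlieBracket (mI n) V W ((chartAt (Model n) x₀).symm y)) =
      lieBracket ℂ (Vc x₀ V) (Vc x₀ W) y := by
  have hy' : y ∈ (extChartAt (mI n) x₀).target := by simpa [extChartAt_target] using hy
  have h1 : ContMDiffAt 𝓘(ℂ, Model n) (mI n) ω (chartAt (Model n) x₀).symm y :=
    (contMDiffOn_chart_symm (I := mI n) (n := ω) (x := x₀)).contMDiffAt
      ((chartAt (Model n) x₀).open_target.mem_nhds hy)
  have : IsManifold (mI n) (minSmoothness ℂ 2) X := IsManifold.of_le (n := ω) le_top
  have : IsManifold 𝓘(ℂ, Model n) (minSmoothness ℂ 2) (Model n) := IsManifold.of_le (n := ω) le_top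
  have key := mpullback_mlieBracket (I := 𝓘(ℂ, Model n)) (I' := mI n) (n := ω)
    (f := (chartAt (Model n) x₀).symm) (V := V) (W := W) (x₀ := y) hV hW h1 le_top
  have hpb : ∀ V : (x : X) → TangentSpace (mI n) x, ∀ z ∈ (chartAt (Model n) x₀).target,
      mpullback 𝓘(ℂ, Model n) (mI n) (chartAt (Model n) x₀).symm V z = Vc x₀ V z := by
    intro V z hz
    have := mpullback_eq_Vc V hz
    simpa [mpullbackWithin, mpullback, extChartAt] using! this
  have hev : ∀ V : (x : X) → TangentSpace (mI n) x,
      mpullback 𝓘(ℂ, Model n) (mI n) (chartAt (Model n) x₀).symm V =ᶠ[𝓝 y] Vc x₀ V := by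
    intro V
    filter_upwards [(chartAt (Model n) x₀).open_target.mem_nhds hy] with z hz
    exact hpb V z hz
  have h2 := hpb (mlieBracket (mI n) V W) y hy
  have h3 := key
  rw [h2] at h3
  refine h3.trans ?_
  have hw : ∀ V W : (z : Model n) → TangentSpace 𝓘(ℂ, Model n) z,
      mlieBracket 𝓘(ℂ, Model n) V W y = lieBracket ℂ (V : Model n → Model n) W y := by
    intro V W
    have e1 := congrFun (mlieBracketWithin_univ (I := 𝓘(ℂ, Model n)) (V := V) (W := W)).symm y
    have e2 := congrFun (mlieBracketWithin_eq_lieBracketWithin (V := V) (W := W)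
      (s := (Set.univ : Set (Model n)))) y
    exact e1.trans (e2.trans (congrFun (lieBracketWithin_univ (V := V) (W := W)) y))
  exact (hw _ _).trans ((hev V).lieBracket_vectorField_eq (hev W))

end

end Crest.Agent.R266
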