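import Crest.Agent.R266.StepThreeDefs
import Crest.Agent.R266.Chart
import Crest.Agent.R266.SurjDense
import Crest.Agent.R266.PdAn
import Crest.Agent.R266.A.St4Defs

-- ▼ part R266/StepThreeA
section

/-!
R266 / StepThreeA (helper338): gluing of two discs to `P¹`, and the rational curves obtained by
restricting the doubling `F_s(z₁,z₂)` to lines `z₂ = α z₁ + β` near the diagonal.
-/

set_option autoImplicit false

open scoped Manifold ContDiff Topology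
open Set Metric Filter
open Crest.AlgGeometry.HolSplit
open Crest.Agent.R266

namespace Crest.Agent.R266.St3

variable {n : ℕ} {X : Type*} [TopologicalSpace X] [ChartedSpace (Model n) X]
variable {E : Type*} [NormedAddCommGroup E] [NormedSpace ℂ E]

/-- gluing of two maps of the disc of radius `3/2` to a map of `P¹` -/
noncomputable def glueP1 (A : Bool → ℂ → X) : Bool → ℂ → X :=
  fun b z => if ‖z‖ < 3 / 2 then A b z else A (!b) z⁻¹

omit [TopologicalSpace X] [ChartedSpace (Model n) X] in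
lemma glueP1_glue (A : Bool → ℂ → X)
    (hA : ∀ b (z : ℂ), 2 / 3 < ‖z‖ → ‖z‖ < 3 / 2 → A (!b) z⁻¹ = A b z) (b : Bool) (z : ℂ)
    (hz : z ≠ 0) : glueP1 A (!b) z = glueP1 A b z⁻¹ := by
  have hz' : 0 < ‖z‖ := norm_pos_iff.2 hz
  unfold glueP1
  rw [norm_inv, inv_inv, Bool.not_not]
  by_cases h1 : ‖z‖ < 3 / 2
  · rw [if_pos h1]
    by_cases h2 : ‖z‖⁻¹ < 3 / 2
    · rw [if_pos h2]
      have h3 : 2 / 3 < ‖z‖ := by
        rw [inv_lt_comm₀ hz' (by norm_num)] at h2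
        linarith [show (3 / 2 : ℝ)⁻¹ = 2 / 3 by norm_num]
      have := hA (!b) z h3 h1
      rw [Bool.not_not] at this
      exact this.symm
    · rw [if_neg h2]
  · rw [if_neg h1]
    have h2 : ‖z‖⁻¹ < 3 / 2 := by
      rw [inv_lt_comm₀ hz' (by norm_num)]
      rw [not_lt] at h1
      have : (3 / 2 : ℝ)⁻¹ = 2 / 3 := by norm_num
      rw [this]; linarith
    rw [if_pos h2]

lemma glueP1_hol (A : Bool → ℂ → X)
    (hs : ∀ b, ContMDiffOn 𝓘(ℂ, ℂ) (mI n) ω (A b) (ball 0 (3 / 2)))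
    (hA : ∀ b (z : ℂ), 2 / 3 < ‖z‖ → ‖z‖ < 3 / 2 → A (!b) z⁻¹ = A b z) (b : Bool) :
    ContMDiff 𝓘(ℂ, ℂ) (mI n) ω (glueP1 A b) := by
  intro z
  by_cases h1 : ‖z‖ < 3 / 2
  · have hmem : ball (0 : ℂ) (3 / 2) ∈ 𝓝 z := isOpen_ball.mem_nhds (by simpa using h1)
    refine ((hs b).contMDiffAt hmem).congr_of_eventuallyEq ?_
    filter_upwards [hmem] with w hw
    have : ‖w‖ < 3 / 2 := by simpa using hw
    simp only [glueP1, if_pos this]
  · rw [not_lt] at h1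
    have hz0 : z ≠ 0 := by
      rintro rfl
      norm_num at h1
    have hz' : 0 < ‖z‖ := norm_pos_iff.2 hz0
    have hzi : ‖z⁻¹‖ < 3 / 2 := by
      rw [norm_inv, inv_lt_comm₀ hz' (by norm_num)]
      have : (3 / 2 : ℝ)⁻¹ = 2 / 3 := by norm_num
      rw [this]; linarith
    have hmem : ball (0 : ℂ) (3 / 2) ∈ 𝓝 z⁻¹ := isOpen_ball.mem_nhds (by simpa using hzi)
    have h2 : ContMDiffAt 𝓘(ℂ, ℂ) (mI n) ω (fun w => A (!b) w⁻¹) z := by
      have h3 : ContMDiffAt 𝓘(ℂ, ℂ) 𝓘(ℂ, ℂ) ω (fun w : ℂ => w⁻¹) z := by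
        rw [contMDiffAt_iff_contDiffAt]
        exact contDiffAt_inv ℂ hz0
      exact ContMDiffAt.comp z (g := A (!b)) ((hs (!b)).contMDiffAt hmem) h3
    refine h2.congr_of_eventuallyEq ?_
    have h4 : ∀ᶠ w : ℂ in 𝓝 z, 2 / 3 < ‖w‖ :=
      (continuous_norm.continuousAt).eventually_const_lt (by linarith)
    filter_upwards [h4] with w hw
    by_cases h5 : ‖w‖ < 3 / 2
    · simp only [glueP1, if_pos h5]
      exact (hA b w hw h5).symm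
    · simp only [glueP1, if_neg h5]

/-- the two discs of the curve along the line `z₂ = α z₁ + β` -/
noncomputable def lineA (F : Bool → E × ℂ × ℂ → X) (s : E) (α β : ℂ) : Bool → ℂ → X
  | false, z => F false (s, z, α * z + β)
  | true, u => F true (s, u, u / (α + β * u))

/-- estimates -/
lemma line_est {δ : ℝ} (hδ : 0 < δ) : ∃ ε > 0, ∀ α β z : ℂ, ‖α - 1‖ < ε → ‖β‖ < ε → ‖z‖ < 3 / 2 →
    ‖α * z + β‖ < 2 ∧ ‖z - (α * z + β)‖ < δ ∧ α + β * z ≠ 0 ∧ ‖z / (α + β * z)‖ < 2 ∧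
      ‖z - z / (α + β * z)‖ < δ := by
  refine ⟨min (1 / 20) (δ / 10), by positivity, fun α β z hα hβ hz => ?_⟩
  have hα1 : ‖α - 1‖ < 1 / 20 := hα.trans_le (min_le_left _ _)
  have hα2 : ‖α - 1‖ < δ / 10 := hα.trans_le (min_le_right _ _)
  have hβ1 : ‖β‖ < 1 / 20 := hβ.trans_le (min_le_left _ _)
  have hβ2 : ‖β‖ < δ / 10 := hβ.trans_le (min_le_right _ _)
  have n1 : ‖(α - 1) * z‖ ≤ ‖α - 1‖ * (3 / 2) := by
    rw [norm_mul]; exact mul_le_mul_of_nonneg_left hz.le (norm_nonneg _)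
  have n2 : ‖β * z‖ ≤ ‖β‖ * (3 / 2) := by
    rw [norm_mul]; exact mul_le_mul_of_nonneg_left hz.le (norm_nonneg _)
  have hd : ‖z - (α * z + β)‖ ≤ ‖(α - 1) * z‖ + ‖β‖ := by
    have : z - (α * z + β) = -((α - 1) * z + β) := by ring
    rw [this, norm_neg]
    exact norm_add_le _ _
  have hw : ‖1 - (α + β * z)‖ ≤ ‖α - 1‖ + ‖β * z‖ := by
    have : 1 - (α + β * z) = -((α - 1) + β * z) := by ring
    rw [this, norm_neg]
    exact norm_add_le _ _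
  have hw3 : 4 / 5 < ‖α + β * z‖ := by
    have h1 : ‖(1 : ℂ)‖ ≤ ‖1 - (α + β * z)‖ + ‖α + β * z‖ := by
      have := norm_add_le (1 - (α + β * z)) (α + β * z)
      simpa using this
    rw [norm_one] at h1
    linarith
  have hw0 : α + β * z ≠ 0 := by
    intro h
    rw [h, norm_zero] at hw3
    linarith
  have hq : ‖z - z / (α + β * z)‖ ≤ (3 / 2) * (‖1 - (α + β * z)‖ * (5 / 4)) := by
    have h1 : z - z / (α + β * z) = z * (-(1 - (α + β * z)) / (α + β * z)) := by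
      generalize α + β * z = w at hw0 ⊢
      field_simp
      ring
    rw [h1, norm_mul, norm_div, norm_neg]
    refine mul_le_mul hz.le ?_ (by positivity) (by norm_num)
    rw [div_eq_mul_inv]
    refine mul_le_mul_of_nonneg_left ?_ (norm_nonneg _)
    rw [inv_le_comm₀ (by linarith) (by norm_num)]
    linarith [show (5 / 4 : ℝ)⁻¹ = 4 / 5 by norm_num]
  refine ⟨?_, by linarith, hw0, ?_, by linarith⟩
  · have h1 : α * z + β = z - (z - (α * z + β)) := by ring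
    rw [h1]
    have h2 := norm_sub_le z (z - (α * z + β))
    linarith
  · have h1 : z / (α + β * z) = z - (z - z / (α + β * z)) := by ring
    rw [h1]
    have h2 := norm_sub_le z (z - z / (α + β * z))
    linarith

omit [NormedSpace ℂ E] in
lemma line_mem {s₀ s : E} {r δ : ℝ} {z w : ℂ} (hs : ‖s - s₀‖ < r) (hz : ‖z‖ < 3 / 2)
    (hw : ‖w‖ < 2) (h : ‖z - w‖ < δ) : (s, z, w) ∈ Dg s₀ r δ :=
  ⟨hs, by simpa using hz.trans (by norm_num), hw, h⟩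

variable [IsManifold (mI n) ω X]

lemma lineA_glue {S : Splitting n X} {f : E → Bool → ℂ → X} {s₀ : E} {r δ : ℝ}
    {F : Bool → E × ℂ × ℂ → X} (hD : Dbl S f s₀ r δ F) {s : E} (hs : ‖s - s₀‖ < r) {α β : ℂ}
    (hest : ∀ z : ℂ, ‖z‖ < 3 / 2 →
    ‖α * z + β‖ < 2 ∧ ‖z - (α * z + β)‖ < δ ∧ α + β * z ≠ 0 ∧ ‖z / (α + β * z)‖ < 2 ∧
      ‖z - z / (α + β * z)‖ < δ) (b : Bool) (z : ℂ) (h1 : 2 / 3 < ‖z‖) (h2 : ‖z‖ < 3 / 2) :
    lineA F s α β (!b) z⁻¹ = lineA F s α β b z := by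
  have hz0 : z ≠ 0 := by
    rintro rfl
    norm_num at h1
  have hz' : 0 < ‖z‖ := norm_pos_iff.2 hz0
  have hzi : ‖z⁻¹‖ < 3 / 2 := by
    rw [norm_inv, inv_lt_comm₀ hz' (by norm_num)]
    have : (3 / 2 : ℝ)⁻¹ = 2 / 3 := by norm_num
    rw [this]; exact h1
  obtain ⟨a1, a2, a3, a4, a5⟩ := hest z h2
  obtain ⟨b1, b2, b3, b4, b5⟩ := hest z⁻¹ hzi
  cases b
  · -- b = false
    simp only [Bool.not_false, lineA]
    have e1 : z⁻¹ / (α + β * z⁻¹) = (α * z + β)⁻¹ := by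
      field_simp
    have e2 : α * z + β ≠ 0 := by
      intro h
      apply b3
      have : α + β * z⁻¹ = (α * z + β) / z := by field_simp
      rw [this, h, zero_div]
    rw [e1] at b4 b5 ⊢
    have := hD.glue false s z⁻¹ (α * z + β)⁻¹ (inv_ne_zero hz0) (inv_ne_zero e2)
      (line_mem hs hzi b4 b5) (by rw [inv_inv, inv_inv]; exact line_mem hs h2 a1 a2)
    rw [inv_inv, inv_inv] at this
    exact this
  · simp only [Bool.not_true, lineA]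
    have e1 : α * z⁻¹ + β = (z / (α + β * z))⁻¹ := by
      field_simp
    have e2 : α * z⁻¹ + β ≠ 0 := by
      rw [e1]
      exact inv_ne_zero (div_ne_zero hz0 a3)
    have e3 : (α * z⁻¹ + β)⁻¹ = z / (α + β * z) := by rw [e1, inv_inv]
    have := hD.glue true s z⁻¹ (α * z⁻¹ + β) (inv_ne_zero hz0) e2
      (line_mem hs hzi b1 b2) (by rw [inv_inv, e3]; exact line_mem hs h2 a4 a5)
    rw [inv_inv, e3] at this
    exact this

lemma lineA_hol {S : Splitting n X} {f : E → Bool → ℂ → X} {s₀ : E} {r δ : ℝ}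
    {F : Bool → E × ℂ × ℂ → X} (hD : Dbl S f s₀ r δ F) {s : E} (hs : ‖s - s₀‖ < r) {α β : ℂ}
    (hest : ∀ z : ℂ, ‖z‖ < 3 / 2 →
    ‖α * z + β‖ < 2 ∧ ‖z - (α * z + β)‖ < δ ∧ α + β * z ≠ 0 ∧ ‖z / (α + β * z)‖ < 2 ∧
      ‖z - z / (α + β * z)‖ < δ) (b : Bool) :
    ContMDiffOn 𝓘(ℂ, ℂ) (mI n) ω (lineA F s α β b) (ball 0 (3 / 2)) := by
  cases b
  · have h1 : ContMDiffOn 𝓘(ℂ, ℂ) 𝓘(ℂ, E × ℂ × ℂ) ω (fun z : ℂ => (s, z, α * z + β))
        (ball 0 (3 / 2)) := by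
      rw [contMDiffOn_iff_contDiffOn]
      fun_prop
    refine (hD.hol false).comp h1 ?_
    intro z hz
    have hz' : ‖z‖ < 3 / 2 := by simpa using hz
    obtain ⟨a1, a2, a3, a4, a5⟩ := hest z hz'
    exact line_mem hs hz' a1 a2
  · have h1 : ContMDiffOn 𝓘(ℂ, ℂ) 𝓘(ℂ, E × ℂ × ℂ) ω (fun z : ℂ => (s, z, z / (α + β * z)))
        (ball 0 (3 / 2)) := by
      rw [contMDiffOn_iff_contDiffOn]
      refine contDiffOn_const.prodMk (contDiffOn_id.prodMk (ContDiffOn.div contDiffOn_id ?_ ?_))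
      · fun_prop
      · intro z hz
        exact (hest z (by simpa using hz)).2.2.1
    refine (hD.hol true).comp h1 ?_
    intro z hz
    have hz' : ‖z‖ < 3 / 2 := by simpa using hz
    obtain ⟨a1, a2, a3, a4, a5⟩ := hest z hz'
    exact line_mem hs hz' a4 a5

/-- (T1) the restriction of the doubling to a line close to the diagonal extends to a rational
curve. -/
theorem exists_line_curve {S : Splitting n X} {f : E → Bool → ℂ → X} {s₀ : E} {r δ : ℝ}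
    (hδ : 0 < δ) {F : Bool → E × ℂ × ℂ → X} (hD : Dbl S f s₀ r δ F) :
    ∃ ε > 0, ∀ s : E, ‖s - s₀‖ < r → ∀ α β : ℂ, ‖α - 1‖ < ε → ‖β‖ < ε →
      (∀ z : ℂ, ‖z‖ < 3 / 2 → (s, z, α * z + β) ∈ Dg s₀ r δ) ∧
      ∃ h : Bool → ℂ → X, (∀ b, ContMDiff 𝓘(ℂ, ℂ) (mI n) ω (h b)) ∧
        (∀ b (z : ℂ), z ≠ 0 → h (!b) z = h b z⁻¹) ∧
        ∀ z : ℂ, ‖z‖ < 3 / 2 → h false z = F false (s, z, α * z + β) := by
  obtain ⟨ε, hε, hest⟩ := line_est hδ
  refine ⟨ε, hε, fun s hs α β hα hβ => ?_⟩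
  have hest' := fun z => hest α β z hα hβ
  refine ⟨fun z hz => line_mem hs hz (hest' z hz).1 (hest' z hz).2.1, glueP1 (lineA F s α β),
    glueP1_hol _ (lineA_hol hD hs hest') (lineA_glue hD hs hest'),
    glueP1_glue _ (lineA_glue hD hs hest'), fun z hz => ?_⟩
  simp only [glueP1, if_pos hz, lineA]

end Crest.Agent.R266.St3
private theorem rz_9b50e89729 : type_of% @_root_.Crest.Agent.R266.St3.lineA.eq_1 := @_root_.Crest.Agent.R266.St3.lineA.eq_1 -- L86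
end

-- ▼ part R266/StepThreeB
section

/-!
R266 / StepThreeB (helper338): derivatives in charts, identity theorem for tangency of curves to
the summands of the splitting, swapped splitting.
-/

set_option autoImplicit false

open scoped Manifold ContDiff Topology
open Set Metric Filter
open Crest.AlgGeometry.HolSplit

namespace Crest.Agent.R266.St3

section deriv

variable {n : ℕ} {X : Type*} [TopologicalSpace X] [ChartedSpace (Model n) X]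
  [IsManifold (mI n) ω X]
variable {G : Type*} [NormedAddCommGroup G] [NormedSpace ℂ G]

/-- the differential of a map into `X`, read in the chart at `x₀` -/
lemma tcc_mfderiv {f : G → X} {z : G} (hf : MDifferentiableAt 𝓘(ℂ, G) (mI n) f z) {x₀ : X}
    (hx : f z ∈ (chartAt (Model n) x₀).source) (v : G) :
    tcc (f z) x₀ (f z) (mfderiv 𝓘(ℂ, G) (mI n) f z v) =
      fderiv ℂ (fun w => chartAt (Model n) x₀ (f w)) z v := by
  have h1 : MDifferentiableAt (mI n) 𝓘(ℂ, Model n) (extChartAt (mI n) x₀) (f z) :=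
    mdifferentiableAt_extChartAt hx
  have h2 := mfderiv_comp z h1 hf
  have h3 : (extChartAt (mI n) x₀ ∘ f) = fun w => chartAt (Model n) x₀ (f w) := by
    funext w
    simp [extChartAt]
  rw [h3, mfderiv_eq_fderiv] at h2
  have h4 := congrArg (fun T : G →L[ℂ] Model n => T v) h2
  refine Eq.trans ?_ h4.symm
  exact (congrArg (fun L : Model n →L[ℂ] Model n => L (mfderiv 𝓘(ℂ, G) (mI n) f z v))
    (mfderiv_extChart hx)).symm

/-- a map into `X` which is holomorphic at `z` is analytic in charts -/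
lemma analyticAt_chart {f : G → X} {z : G} (hf : ContMDiffAt 𝓘(ℂ, G) (mI n) ω f z) {x₀ : X}
    (hx : f z ∈ (chartAt (Model n) x₀).source) :
    AnalyticAt ℂ (fun w => chartAt (Model n) x₀ (f w)) z := by
  have h1 : ContMDiffAt (mI n) (mI n) ω (chartAt (Model n) x₀) (f z) :=
    (contMDiffOn_chart (I := mI n) (n := ω) (x := x₀)).contMDiffAt
      ((chartAt (Model n) x₀).open_source.mem_nhds hx)
  have h2 : ContMDiffAt 𝓘(ℂ, G) (mI n) ω (fun w => chartAt (Model n) x₀ (f w)) z := h1.comp z hf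
  exact (contMDiffAt_iff_contDiffAt.1 h2).analyticAt

lemma pr_eq (S : Splitting n X) {x₀ x : X} (hx : x ∈ (chartAt (Model n) x₀).source)
    (v : Model n) : tcc x x₀ x (pr S x v) = Pc S x₀ (chartAt (Model n) x₀ x) (tcc x x₀ x v) := by
  have h := Pc_tcc S ((chartAt (Model n) x₀).map_source hx) v
  rw [(chartAt (Model n) x₀).left_inv hx] at h
  exact h.symm

lemma tcc_injective {x₀ x : X} (hx : x ∈ (chartAt (Model n) x₀).source) {u v : Model n}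
    (h : tcc x x₀ x u = tcc x x₀ x v) : u = v := by
  have := congrArg (tcc x₀ x x) h
  rwa [tcc_cancel' hx, tcc_cancel' hx] at this

lemma Pc_analyticAt (S : Splitting n X) {x₀ : X} {y : Model n}
    (hy : y ∈ (chartAt (Model n) x₀).target) : AnalyticAt ℂ (Pc S x₀) y :=
  ((Pc_contDiffOn S x₀).contDiffAt ((chartAt (Model n) x₀).open_target.mem_nhds hy)).analyticAt

/-- **identity theorem for tangency** (`E₁`) -/
theorem tan1_of_open (S : Splitting n X) {c : ℂ → X} (hc : ContMDiff 𝓘(ℂ, ℂ) (mI n) ω c)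
    {z₀ : ℂ} (h : ∃ᶠ z in 𝓝[≠] z₀, S.proj (c z) (mfderiv 𝓘(ℂ, ℂ) (mI n) c z (1 : ℂ)) =
      mfderiv 𝓘(ℂ, ℂ) (mI n) c z (1 : ℂ)) : Tan1 S c := by
  set A : Set ℂ := {z | ∀ᶠ w in 𝓝 z, S.proj (c w) (mfderiv 𝓘(ℂ, ℂ) (mI n) c w (1 : ℂ)) =
      mfderiv 𝓘(ℂ, ℂ) (mI n) c w (1 : ℂ)} with hA
  have key : ∀ z₁ : ℂ, (∃ᶠ z in 𝓝[≠] z₁,
      S.proj (c z) (mfderiv 𝓘(ℂ, ℂ) (mI n) c z (1 : ℂ)) =
      mfderiv 𝓘(ℂ, ℂ) (mI n) c z (1 : ℂ)) → z₁ ∈ A := by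
    intro z₁ hf
    set x₀ := c z₁ with hx₀
    set u : ℂ → Model n := fun w => chartAt (Model n) x₀ (c w) with hu
    have hxs : c z₁ ∈ (chartAt (Model n) x₀).source := mem_chart_source _ _
    have hua : AnalyticAt ℂ u z₁ := analyticAt_chart (hc z₁) hxs
    have hP : AnalyticAt ℂ (fun w => Pc S x₀ (u w)) z₁ := by
      have h1 : AnalyticAt ℂ (Pc S x₀) (u z₁) :=
        Pc_analyticAt S ((chartAt (Model n) x₀).map_source hxs)
      exact h1.comp hua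
    have hd : AnalyticAt ℂ (deriv u) z₁ := hua.deriv
    have hh : AnalyticAt ℂ (fun w => Pc S x₀ (u w) (deriv u w) - deriv u w) z₁ := by
      have h1 : ContDiffAt ℂ ω (fun w => Pc S x₀ (u w) (deriv u w)) z₁ :=
        hP.contDiffAt.clm_apply hd.contDiffAt
      exact h1.analyticAt.sub hd
    have hev : ∀ᶠ w in 𝓝 z₁, c w ∈ (chartAt (Model n) x₀).source :=
      (hc z₁).continuousAt.eventually ((chartAt (Model n) x₀).open_source.mem_nhds hxs)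
    have hiff : ∀ᶠ w in 𝓝 z₁, (S.proj (c w) (mfderiv 𝓘(ℂ, ℂ) (mI n) c w (1 : ℂ)) =
        mfderiv 𝓘(ℂ, ℂ) (mI n) c w (1 : ℂ) ↔ Pc S x₀ (u w) (deriv u w) - deriv u w = 0) := by
      filter_upwards [hev] with w hw
      have hm : MDifferentiableAt 𝓘(ℂ, ℂ) (mI n) c w := (hc w).mdifferentiableAt (by simp)
      have e1 := tcc_mfderiv hm hw (1 : ℂ)
      rw [fderiv_apply_one_eq_deriv] at e1
      have e2 := pr_eq S hw (mfderiv 𝓘(ℂ, ℂ) (mI n) c w (1 : ℂ))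
      rw [e1] at e2
      rw [sub_eq_zero]
      constructor
      · intro h1
        have h2 : pr S (c w) (mfderiv 𝓘(ℂ, ℂ) (mI n) c w (1 : ℂ)) =
          mfderiv 𝓘(ℂ, ℂ) (mI n) c w (1 : ℂ) := h1
        rw [h2, e1] at e2
        exact e2.symm
      · intro h1
        apply tcc_injective hw
        exact e2.trans (h1.trans e1.symm)
    rcases hh.eventually_eq_zero_or_eventually_ne_zero with h0 | h0
    · filter_upwards [hiff, h0] with w h1 h2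
      exact h1.2 h2
    · exfalso
      apply hf
      have hiff' := hiff.filter_mono (nhdsWithin_le_nhds (s := {z₁}ᶜ))
      filter_upwards [hiff', h0] with w h1 h2 h3
      exact h2 (h1.1 h3)
  have hopen : IsOpen A := isOpen_iff_eventually.2 fun z hz => hz.eventually_nhds
  have hclosed : IsClosed A := by
    rw [isClosed_iff_frequently]
    intro z hz
    apply key
    by_contra hcon
    rw [Filter.not_frequently] at hcon
    -- near `z` (except possibly `z`) no tangency, but `z` is a limit of interior points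
    have h2 : ∃ᶠ w in 𝓝 z, w ∈ A := hz
    rw [eventually_nhdsWithin_iff, _root_.eventually_nhds_iff] at hcon
    obtain ⟨t, ht, hto, hzt⟩ := hcon
    obtain ⟨w, hwA, hwt⟩ := (h2.and_eventually (hto.mem_nhds hzt)).exists
    have h3 : ∀ᶠ y in 𝓝 w, y ∈ t ∧ S.proj (c y) (mfderiv 𝓘(ℂ, ℂ) (mI n) c y (1 : ℂ)) =
      mfderiv 𝓘(ℂ, ℂ) (mI n) c y (1 : ℂ) := Filter.Eventually.and (hto.mem_nhds hwt) hwA
    have h4 : ∀ᶠ y in 𝓝[≠] w, y ∈ t ∧ S.proj (c y) (mfderiv 𝓘(ℂ, ℂ) (mI n) c y (1 : ℂ)) =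
      mfderiv 𝓘(ℂ, ℂ) (mI n) c y (1 : ℂ) := h3.filter_mono nhdsWithin_le_nhds
    by_cases hwz : w = z
    · subst hwz
      obtain ⟨y, hy, hyne⟩ := (h4.and self_mem_nhdsWithin).exists
      exact ht y hy.1 hyne hy.2
    · exact ht w hwt hwz h3.self_of_nhds.2
  have huniv : A = univ := IsClopen.eq_univ ⟨hclosed, hopen⟩ ⟨z₀, key z₀ h⟩
  intro z
  have hz : z ∈ A := by rw [huniv]; exact mem_univ z
  exact hz.self_of_nhds

/-- tangency passes to the other chart of `P¹` -/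
theorem tan1_other (S : Splitting n X) {c c' : ℂ → X} (hc : ContMDiff 𝓘(ℂ, ℂ) (mI n) ω c)
    (hc' : ContMDiff 𝓘(ℂ, ℂ) (mI n) ω c') (hg : ∀ z : ℂ, z ≠ 0 → c' z = c z⁻¹)
    (h : Tan1 S c) : Tan1 S c' := by
  apply tan1_of_open S hc' (z₀ := 1)
  apply Filter.Eventually.frequently
  have h1 : ∀ᶠ z : ℂ in 𝓝 1, z ≠ 0 := continuousAt_id.eventually_ne one_ne_zero
  refine (h1.eventually_nhds.filter_mono nhdsWithin_le_nhds).mono ?_
  intro z hz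
  have hz0 : z ≠ 0 := hz.self_of_nhds
  have hev : c' =ᶠ[𝓝 z] c ∘ (fun w : ℂ => w⁻¹) := by
    filter_upwards [hz] with w hw
    exact hg w hw
  have hinv : HasDerivAt (fun w : ℂ => w⁻¹) (-(z ^ 2)⁻¹) z := hasDerivAt_inv hz0
  have hmi : HasMFDerivAt 𝓘(ℂ, ℂ) 𝓘(ℂ, ℂ) (fun w : ℂ => w⁻¹) z
      (ContinuousLinearMap.toSpanSingleton ℂ (-(z ^ 2)⁻¹)) :=
    hinv.hasFDerivAt.hasMFDerivAt
  have hcm : HasMFDerivAt 𝓘(ℂ, ℂ) (mI n) c z⁻¹ (mfderiv 𝓘(ℂ, ℂ) (mI n) c z⁻¹) :=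
    ((hc z⁻¹).mdifferentiableAt (by simp)).hasMFDerivAt
  have hcomp := HasMFDerivAt.comp z hcm hmi
  have e1 : mfderiv 𝓘(ℂ, ℂ) (mI n) c' z = (mfderiv 𝓘(ℂ, ℂ) (mI n) c z⁻¹).comp
      (ContinuousLinearMap.toSpanSingleton ℂ (-(z ^ 2)⁻¹)) := by
    rw [hev.mfderiv_eq]
    exact hcomp.mfderiv
  have e2 : (mfderiv 𝓘(ℂ, ℂ) (mI n) c' z (1 : ℂ) : Model n) =
      (-(z ^ 2)⁻¹ : ℂ) • (mfderiv 𝓘(ℂ, ℂ) (mI n) c z⁻¹ (1 : ℂ) : Model n) := by
    have e3 := congrArg (fun T : ℂ →L[ℂ] Model n => T 1) e1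
    refine e3.trans ?_
    have e4 : (ContinuousLinearMap.toSpanSingleton ℂ (-(z ^ 2)⁻¹ : ℂ)) (1 : ℂ) =
      (-(z ^ 2)⁻¹ : ℂ) • (1 : ℂ) := by simp
    refine (congrArg (fun v : ℂ => (mfderiv 𝓘(ℂ, ℂ) (mI n) c z⁻¹ : ℂ →L[ℂ] Model n) v) e4).trans ?_
    exact map_smul (mfderiv 𝓘(ℂ, ℂ) (mI n) c z⁻¹ : ℂ →L[ℂ] Model n) _ _
  have e5 : pr S (c z⁻¹) (mfderiv 𝓘(ℂ, ℂ) (mI n) c z⁻¹ (1 : ℂ)) =
    mfderiv 𝓘(ℂ, ℂ) (mI n) c z⁻¹ (1 : ℂ) := h z⁻¹
  have e6 : pr S (c' z) = pr S (c z⁻¹) := by rw [hg z hz0]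
  have e7 : pr S (c' z) (mfderiv 𝓘(ℂ, ℂ) (mI n) c' z (1 : ℂ)) =
      mfderiv 𝓘(ℂ, ℂ) (mI n) c' z (1 : ℂ) := by
    rw [e6, e2]
    refine (map_smul (pr S (c z⁻¹)) _ _).trans ?_
    rw [e5]
    rfl
  exact e7

end deriv

end Crest.Agent.R266.St3
end

-- ▼ part R266/StepThreeC
section

/-!
R266 / StepThreeC (helper338): Step 3 of S0404, from the doubling `F_s(z₁,z₂)` near the diagonal to
the families of rational curves tangent to `E₁`.
-/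

set_option autoImplicit false

open scoped Manifold ContDiff Topology
open Set Metric Filter
open Crest.AlgGeometry.HolSplit
open Crest.Agent.R266.Rat Crest.Agent.R266.Emb

namespace Crest.Agent.R266.St3

section
variable {n N : ℕ} {X : Type} [TopologicalSpace X] [ChartedSpace (Model n) X]
  [IsManifold (mI n) ω X]
variable {E : Type} [NormedAddCommGroup E] [NormedSpace ℂ E]

/-- input P1POLY: a holomorphic map `P¹ → X ⊆ P^N` is polynomial -/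
def St_P1 (pe : ProjEmbedding n X N) : Prop :=
  ∀ h : Bool → ℂ → X, (∀ b, ContMDiff 𝓘(ℂ, ℂ) (mI n) ω (h b)) →
    (∀ b (z : ℂ), z ≠ 0 → h (!b) z = h b z⁻¹) →
    ∃ (d : ℕ) (q : Fin (N + 1) → Fin (d + 1) → ℂ), ∀ z, OnX pe (pev q z) (h false z)

/-- input RAT -/
def St_Rat (E : Type) [NormedAddCommGroup E] [NormedSpace ℂ E] (N : ℕ) : Prop :=
  ∀ (G : E × ℂ × ℂ → (Fin (N + 1) → ℂ)) (U : Set (E × ℂ × ℂ)), IsOpen U →
    AnalyticOnNhd ℂ G U → (∀ u ∈ U, G u ≠ 0) → ∀ (s₀ : E) (z₀ : ℂ), (s₀, z₀, z₀) ∈ U →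
    (∀ᶠ p : E × ℂ × ℂ in 𝓝 (s₀, 1, 0),
      ∃ k, DegLE k (fun z => G (p.1, z, p.2.1 * z + p.2.2)) z₀) →
    ∀ V : Set (E × ℂ), V ∈ 𝓝 (s₀, z₀) →
    ∃ r > 0, ∃ W : Set (E × ℂ), IsOpen W ∧ W.Nonempty ∧ W ⊆ V ∧ W ⊆ ball s₀ r ×ˢ ball z₀ r ∧
      ball s₀ r ×ˢ ball z₀ r ×ˢ ball z₀ r ⊆ U ∧
      ∃ (d : ℕ) (q : E × ℂ → Fin (N + 1) → Fin (d + 1) → ℂ), AnalyticOnNhd ℂ q W ∧
        (∀ w ∈ W, ∀ z, pev (q w) z ≠ 0) ∧ (∀ w ∈ W, ∃ i, q w i (Fin.last d) ≠ 0) ∧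
        ∀ w ∈ W, ∀ z ∈ ball z₀ r, Par (pev (q w) z) (G (w.1, z, w.2))

omit [NormedSpace ℂ E] in
lemma isOpen_Dg (s₀ : E) (r δ : ℝ) : IsOpen (Dg s₀ r δ) := by
  have h1 : IsOpen {p : E × ℂ × ℂ | ‖p.1 - s₀‖ < r} := isOpen_lt (by fun_prop) continuous_const
  have h2 : IsOpen {p : E × ℂ × ℂ | ‖p.2.1‖ < 2} := isOpen_lt (by fun_prop) continuous_const
  have h3 : IsOpen {p : E × ℂ × ℂ | ‖p.2.2‖ < 2} := isOpen_lt (by fun_prop) continuous_const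
  have h4 : IsOpen {p : E × ℂ × ℂ | ‖p.2.1 - p.2.2‖ < δ} :=
    isOpen_lt (by fun_prop) continuous_const
  exact h1.inter (h2.inter (h3.inter h4))

omit [NormedSpace ℂ E] in
lemma diag_mem {s₀ s : E} {r δ : ℝ} (hδ : 0 < δ) {z : ℂ} (hs : ‖s - s₀‖ < r) (hz : ‖z‖ < 2) :
    (s, z, z) ∈ Dg s₀ r δ := ⟨hs, hz, hz, by simpa using hδ⟩

/-- the line condition for RAT -/
lemma line_deg {S : Splitting n X} {pe : ProjEmbedding n X N} (hP1 : St_P1 pe)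
    {f : E → Bool → ℂ → X} {s₀ : E} {r δ : ℝ} (hδ : 0 < δ) {F : Bool → E × ℂ × ℂ → X}
    (hD : Dbl S f s₀ r δ F) {s₁ : E} {z₁ : ℂ} (hs₁ : ‖s₁ - s₀‖ < r) (hz₁ : ‖z₁‖ < 1)
    {p : X} {U : Set (E × ℂ × ℂ)} (hU : IsOpen U) (hUn : ∀ u ∈ U, F false u ∈ pe.nbhd p)
    (hmem : (s₁, z₁, z₁) ∈ U) :
    ∀ᶠ a : E × ℂ × ℂ in 𝓝 (s₁, 1, 0),
      ∃ k, DegLE k (fun z => pe.coords p (F false (a.1, z, a.2.1 * z + a.2.2))) z₁ := by
  obtain ⟨ε, hε, hcurve⟩ := exists_line_curve hδ hD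
  have c1 : ∀ᶠ a : E × ℂ × ℂ in 𝓝 (s₁, 1, 0), ‖a.1 - s₀‖ < r :=
    (isOpen_lt (by fun_prop) continuous_const : IsOpen {a : E × ℂ × ℂ | ‖a.1 - s₀‖ < r}).mem_nhds hs₁
  have c2 : ∀ᶠ a : E × ℂ × ℂ in 𝓝 (s₁, 1, 0), ‖a.2.1 - 1‖ < ε :=
    (isOpen_lt (by fun_prop) continuous_const : IsOpen {a : E × ℂ × ℂ | ‖a.2.1 - 1‖ < ε}).mem_nhds
      (by simpa using hε)
  have c3 : ∀ᶠ a : E × ℂ × ℂ in 𝓝 (s₁, 1, 0), ‖a.2.2‖ < ε :=
    (isOpen_lt (by fun_prop) continuous_const : IsOpen {a : E × ℂ × ℂ | ‖a.2.2‖ < ε}).mem_nhds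
      (by simpa using hε)
  have hcont : Continuous (fun b : (E × ℂ × ℂ) × ℂ =>
      ((b.1.1, b.2, b.1.2.1 * b.2 + b.1.2.2) : E × ℂ × ℂ)) := by fun_prop
  have c4 : ∀ᶠ a : E × ℂ × ℂ in 𝓝 (s₁, 1, 0), (a.1, z₁, a.2.1 * z₁ + a.2.2) ∈ U := by
    have h1 : Continuous (fun a : E × ℂ × ℂ => ((a.1, z₁, a.2.1 * z₁ + a.2.2) : E × ℂ × ℂ)) := by
      fun_prop
    have h2 : ((s₁, z₁, (1 : ℂ) * z₁ + 0) : E × ℂ × ℂ) ∈ U := by simpa using hmem
    exact h1.continuousAt.eventually (hU.mem_nhds h2)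
  filter_upwards [c1, c2, c3, c4] with a h1 h2 h3 h4
  obtain ⟨hDg, h, hh, hg, heq⟩ := hcurve a.1 h1 a.2.1 a.2.2 h2 h3
  obtain ⟨d, q, hq⟩ := hP1 h hh hg
  refine ⟨d, q, ?_, ?_⟩
  · rintro rfl
    apply (hq 0).1
    funext i
    simp [pev]
  · have e1 : ∀ᶠ z : ℂ in 𝓝 z₁, ‖z‖ < 3 / 2 :=
      (isOpen_lt continuous_norm continuous_const : IsOpen {z : ℂ | ‖z‖ < 3 / 2}).mem_nhds
        (by simpa using hz₁.trans (by norm_num))
    have e2 : ∀ᶠ z : ℂ in 𝓝 z₁, (a.1, z, a.2.1 * z + a.2.2) ∈ U := by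
      have h5 : Continuous (fun z : ℂ => ((a.1, z, a.2.1 * z + a.2.2) : E × ℂ × ℂ)) := by
        fun_prop
      exact h5.continuousAt.eventually (hU.mem_nhds h4)
    filter_upwards [e1, e2] with z hz1 hz2
    have h6 := hq z
    rw [heq z hz1] at h6
    exact ((onX_iff_wedge pe (hUn _ hz2)).1 h6).2

variable [CompactSpace X]

/-- a polynomial family which lies on `X` over an open set of `z` lies in `Pd` -/
lemma mem_Pd_of_open {pe : ProjEmbedding n X N} {d : ℕ} {q : Fin (N + 1) → Fin (d + 1) → ℂ}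
    (h0 : ∀ z, pev q z ≠ 0) (htop : ∃ i, q i (Fin.last d) ≠ 0) {z₁ : ℂ} {r : ℝ} (hr : 0 < r)
    (h : ∀ z ∈ ball z₁ r, ∃ x, OnX pe (pev q z) x) : q ∈ Pd pe d := by
  have han : ∀ b, AnalyticOnNhd ℂ (fun z : ℂ => pev (cb b q) z) univ := by
    intro b z _
    have h1 := analyticAt_pev b (q, z)
    have h2 : AnalyticAt ℂ (fun z : ℂ => ((q, z) : Cf N d × ℂ)) z :=
      analyticAt_const.prod analyticAt_id
    exact h1.comp_of_eq h2 rfl
  have hall : ∀ z, ∃ x, OnX pe (pev q z) x := by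
    intro z
    refine onX_ident (pe := pe) (q := fun z : ℂ => pev q z) (W := univ) (V := ball z₁ r)
      isOpen_univ isPreconnected_univ (han false) (fun z _ => h0 z) isOpen_ball ?_ ?_ z (mem_univ z)
    · exact ⟨z₁, mem_ball_self hr, mem_univ _⟩
    · intro w hw
      exact h w hw.1
  have hrev : ∀ z, pev (revc q) z ≠ 0 := by
    intro z
    by_cases hz : z = 0
    · rw [hz, pev_revc_zero]
      intro h1
      obtain ⟨i, hi⟩ := htop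
      exact hi (congrFun h1 i)
    · rw [pev_revc q hz]
      exact smul_ne_zero (pow_ne_zero _ hz) (h0 _)
  refine ⟨hall, ?_⟩
  have h1 := onX_ident (pe := pe) (q := fun z : ℂ => pev (revc q) z) (W := univ) (V := {0}ᶜ)
      isOpen_univ isPreconnected_univ (han true) (fun z _ => hrev z) isOpen_compl_singleton
      ⟨1, by simp, mem_univ _⟩ ?_ 0 (mem_univ _)
  · simp only [pev_revc_zero] at h1
    exact h1
  · intro w hw
    have hw0 : w ≠ 0 := hw.1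
    rw [pev_revc q hw0]
    obtain ⟨x, hx⟩ := hall w⁻¹
    exact ⟨x, hx.smul (pow_ne_zero _ hw0)⟩

end

end Crest.Agent.R266.St3
end

-- ▼ part R266/StepThreeD

/-!
R266 / StepThreeD (helper338): Step 3 of S0404, main theorem.
-/

set_option autoImplicit false

open scoped Manifold ContDiff Topology
open Set Metric Filter
open Crest.AlgGeometry.HolSplit
open Crest.Agent.R266.Rat Crest.Agent.R266.Emb Crest.Agent.R266.St4

namespace Crest.Agent.R266.St3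

section
variable {n N : ℕ} {X : Type} [TopologicalSpace X] [ChartedSpace (Model n) X]
  [IsManifold (mI n) ω X]
variable {E : Type} [NormedAddCommGroup E] [NormedSpace ℂ E]

omit [IsManifold (mI n) ω X] in
/-- derivative of `F ∘ L + const` for an affine map of parameters -/
lemma mfderiv_comp_affine {G G' : Type} [NormedAddCommGroup G] [NormedSpace ℂ G]
    [NormedAddCommGroup G'] [NormedSpace ℂ G'] {F : G' → X} {h : G → G'} {L : G →L[ℂ] G'} {z : G}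
    {y : G'} (hh : HasFDerivAt h L z) (hy : h z = y)
    (hF : MDifferentiableAt 𝓘(ℂ, G') (mI n) F y) {c : G → X}
    (hc : c =ᶠ[𝓝 z] F ∘ h) (v : G) :
    (mfderiv 𝓘(ℂ, G) (mI n) c z v : Model n) = mfderiv 𝓘(ℂ, G') (mI n) F y (L v) := by
  subst hy
  have h1 : HasMFDerivAt 𝓘(ℂ, G) 𝓘(ℂ, G') h z L := hh.hasMFDerivAt
  have h2 := (HasMFDerivAt.comp z hF.hasMFDerivAt h1).mfderiv
  have h3 : mfderiv 𝓘(ℂ, G) (mI n) c z = mfderiv 𝓘(ℂ, G) (mI n) (F ∘ h) z := hc.mfderiv_eq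
  have h4 : mfderiv 𝓘(ℂ, G) (mI n) c z = (mfderiv 𝓘(ℂ, G') (mI n) F (h z)).comp L := h3.trans h2
  exact congrArg (fun T : G →L[ℂ] Model n => T v) h4

variable [CompactSpace X]

/-- **Step 3** of S0404 (`E₁`-version). -/
theorem step_three_core (S : Splitting n X) (pe : ProjEmbedding n X N) (hP1 : St_P1 pe)
    (hRat : St_Rat E N) {f : E → Bool → ℂ → X} {s₀ : E} {r δ : ℝ} (hδ : 0 < δ)
    {F : Bool → E × ℂ × ℂ → X} (hD : Dbl S f s₀ r δ F) {V : Set (E × ℂ)} (hV : IsOpen V)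
    (hVne : V.Nonempty) (hVs : V ⊆ ball s₀ r ×ˢ ball 0 1)
    (hsub : ∀ O : Set (E × ℂ), IsOpen O → O.Nonempty → O ⊆ V →
      ∃ p ∈ O, Function.Surjective (dfam n f false p)) :
    ∃ (W : Set (E × ℂ)) (g : E × ℂ → Bool → ℂ → X), W ⊆ V ∧ W.Nonempty ∧ Fam n W g ∧
      (∀ w ∈ W, ∀ b z, (vel n (g w b) z : TangentSpace (mI n) (g w b z)) ∈ E₁ S (g w b z)) ∧
      (∀ w ∈ W, g w false w.2 = f w.1 false w.2) ∧
      (∀ w ∈ W, vel n (g w false) w.2 = pr S (f w.1 false w.2) (vel n (f w.1 false) w.2)) := by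
  obtain ⟨⟨s₁, z₁⟩, hv₁⟩ := hVne
  obtain ⟨hs₁, hz₁⟩ := hVs hv₁
  have hs₁' : ‖s₁ - s₀‖ < r := by simpa [dist_eq_norm] using hs₁
  have hz₁' : ‖z₁‖ < 1 := by simpa using hz₁
  have : Nonempty X := ⟨F false (s₁, z₁, z₁)⟩
  set p := F false (s₁, z₁, z₁) with hp
  set U : Set (E × ℂ × ℂ) := Dg s₀ r δ ∩ F false ⁻¹' (pe.nbhd p) with hUdef
  have hU : IsOpen U := (hD.hol false).continuousOn.isOpen_inter_preimage (isOpen_Dg s₀ r δ)
    (pe.isOpen_nbhd p)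
  have hUn : ∀ u ∈ U, F false u ∈ pe.nbhd p := fun u hu => hu.2
  have hmem : (s₁, z₁, z₁) ∈ U :=
    ⟨diag_mem hδ hs₁' (hz₁'.trans (by norm_num)), pe.mem_nbhd p⟩
  set G : E × ℂ × ℂ → (Fin (N + 1) → ℂ) := fun u => pe.coords p (F false u) with hG
  have hGan : AnalyticOnNhd ℂ G U := by
    intro u hu
    have h1 : ContMDiffAt 𝓘(ℂ, E × ℂ × ℂ) (mI n) ω (F false) u :=
      (hD.hol false).contMDiffAt ((isOpen_Dg s₀ r δ).mem_nhds hu.1)
    have h2 : ContMDiffAt (mI n) 𝓘(ℂ, Fin (N + 1) → ℂ) ω (pe.coords p) (F false u) :=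
      (pe.holomorphic p).contMDiffAt ((pe.isOpen_nbhd p).mem_nhds hu.2)
    have h3 : ContMDiffAt 𝓘(ℂ, E × ℂ × ℂ) 𝓘(ℂ, Fin (N + 1) → ℂ) ω G u := h2.comp u h1
    exact (contMDiffAt_iff_contDiffAt.1 h3).analyticAt
  have hG0 : ∀ u ∈ U, G u ≠ 0 := fun u hu => pe.ne_zero p _ hu.2
  obtain ⟨r', hr', W₀, hW₀, hW₀ne, hW₀V, hW₀b, hbU, d, q, hq, hq0, hqt, hpar⟩ :=
    hRat G U hU hGan hG0 s₁ z₁ hmem (line_deg hP1 hδ hD hs₁' hz₁' hU hUn hmem) V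
      (hV.mem_nhds hv₁)
  -- shrink to a ball
  obtain ⟨w₀, hw₀⟩ := hW₀ne
  obtain ⟨ρ, hρ, hρb⟩ := Metric.isOpen_iff.1 hW₀ w₀ hw₀
  set W : Set (E × ℂ) := ball w₀ ρ with hW
  have hWW₀ : W ⊆ W₀ := hρb
  have hWo : IsOpen W := isOpen_ball
  have hWc : IsPreconnected W := (convex_ball w₀ ρ).isPreconnected
  -- membership
  have hwU : ∀ w ∈ W, ∀ z ∈ ball z₁ r', (w.1, z, w.2) ∈ U := by
    intro w hw z hz
    have h1 := hW₀b (hWW₀ hw)
    exact hbU ⟨h1.1, hz, h1.2⟩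
  have honF : ∀ w ∈ W, ∀ z ∈ ball z₁ r', OnX pe (pev (q w) z) (F false (w.1, z, w.2)) := by
    intro w hw z hz
    rw [onX_iff_wedge pe (hUn _ (hwU w hw z hz))]
    exact ⟨hq0 w (hWW₀ hw) z, hpar w (hWW₀ hw) z hz⟩
  have hPd : ∀ w ∈ W, q w ∈ Pd pe d := fun w hw =>
    mem_Pd_of_open (hq0 w (hWW₀ hw)) (hqt w (hWW₀ hw)) hr'
      (fun z hz => ⟨_, honF w hw z hz⟩)
  obtain ⟨g, hg1, hg2, hg3⟩ := exists_fam (pe := pe) hWo (hq.mono hWW₀) hPd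
  have hgF : ∀ w ∈ W, ∀ z ∈ ball z₁ r', g w false z = F false (w.1, z, w.2) := by
    intro w hw z hz
    exact (hg2 w hw false z).unique (honF w hw z hz)
  have hw2 : ∀ w ∈ W, w.2 ∈ ball z₁ r' := fun w hw => (hW₀b (hWW₀ hw)).2
  have hcurve : ∀ w ∈ W, ∀ b, ContMDiff 𝓘(ℂ, ℂ) (mI n) ω (g w b) := by
    intro w hw b z
    have h1 : ContMDiffAt 𝓘(ℂ, (E × ℂ) × ℂ) (mI n) ω (fun p : (E × ℂ) × ℂ => g p.1 b p.2) (w, z) :=
      (hg1 b).contMDiffAt ((hWo.prod isOpen_univ).mem_nhds ⟨hw, mem_univ _⟩)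
    have h2 : ContMDiffAt 𝓘(ℂ, ℂ) 𝓘(ℂ, (E × ℂ) × ℂ) ω (fun z : ℂ => (w, z)) z := by
      rw [contMDiffAt_iff_contDiffAt]
      fun_prop
    exact h1.comp z h2
  -- derivative of F
  have hFd : ∀ w ∈ W, ∀ z ∈ ball z₁ r', MDifferentiableAt 𝓘(ℂ, E × ℂ × ℂ) (mI n) (F false)
      (w.1, z, w.2) := by
    intro w hw z hz
    exact ((hD.hol false).contMDiffAt ((isOpen_Dg s₀ r δ).mem_nhds
      (hwU w hw z hz).1)).mdifferentiableAt (by simp)
  have hvel : ∀ w ∈ W, ∀ z ∈ ball z₁ r', vel n (g w false) z =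
      (mfderiv 𝓘(ℂ, E × ℂ × ℂ) (mI n) (F false) (w.1, z, w.2) ((0, 1, 0) : E × ℂ × ℂ) : Model n) := by
    intro w hw z hz
    have h1 : HasFDerivAt (fun t : ℂ => ((w.1, t, w.2) : E × ℂ × ℂ))
        ((0 : ℂ →L[ℂ] E).prod ((ContinuousLinearMap.id ℂ ℂ).prod (0 : ℂ →L[ℂ] ℂ))) z :=
      (hasFDerivAt_const _ _).prodMk ((hasFDerivAt_id z).prodMk (hasFDerivAt_const _ _))
    have h2 : g w false =ᶠ[𝓝 z] F false ∘ (fun t : ℂ => ((w.1, t, w.2) : E × ℂ × ℂ)) := by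
      filter_upwards [isOpen_ball.mem_nhds hz] with t ht
      exact hgF w hw t ht
    have h3 := mfderiv_comp_affine h1 rfl (hFd w hw z hz) h2 1
    exact h3
  have hpt : ∀ w ∈ W, ∀ z ∈ ball z₁ r', S.proj (g w false z)
      (mfderiv 𝓘(ℂ, ℂ) (mI n) (g w false) z (1 : ℂ)) =
      mfderiv 𝓘(ℂ, ℂ) (mI n) (g w false) z (1 : ℂ) := by
    intro w hw z hz
    have h1 := hD.tan1 false _ (hwU w hw z hz).1
    have h2 : pr S (F false (w.1, z, w.2)) (vel n (g w false) z) = vel n (g w false) z := by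
      rw [hvel w hw z hz]
      exact h1
    rw [← hgF w hw z hz] at h2
    exact h2
  have htan : ∀ w ∈ W, Tan1 S (g w false) := by
    intro w hw
    apply tan1_of_open S (hcurve w hw false) (z₀ := w.2)
    apply Filter.Eventually.frequently
    refine Filter.Eventually.filter_mono nhdsWithin_le_nhds ?_
    filter_upwards [isOpen_ball.mem_nhds (hw2 w hw)] with z hz
    exact hpt w hw z hz
  have htan' : ∀ w ∈ W, ∀ b, Tan1 S (g w b) := by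
    intro w hw b
    cases b
    · exact htan w hw
    · refine tan1_other S (hcurve w hw false) (hcurve w hw true) ?_ (htan w hw)
      intro z hz
      exact hg3 w hw false z hz
  have hbase : ∀ w ∈ W, g w false w.2 = f w.1 false w.2 := by
    intro w hw
    rw [hgF w hw w.2 (hw2 w hw)]
    have h1 := hVs (hW₀V (hWW₀ hw))
    have h2 : ‖w.1 - s₀‖ < r := by simpa [dist_eq_norm] using h1.1
    have h3 : ‖w.2‖ < 1 := by simpa using h1.2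
    exact hD.diag false w.1 w.2 h2 (h3.trans (by norm_num))
  -- `f` is `F` on the diagonal
  have hfF : ∀ w ∈ W, (fun p : E × ℂ => f p.1 false p.2) =ᶠ[𝓝 w]
      F false ∘ (fun p : E × ℂ => ((p.1, p.2, p.2) : E × ℂ × ℂ)) := by
    intro w hw
    have h1 := hV.mem_nhds (hW₀V (hWW₀ hw))
    filter_upwards [h1] with p hp
    obtain ⟨h2, h3⟩ := hVs hp
    have h2 : ‖p.1 - s₀‖ < r := by simpa [dist_eq_norm] using h2
    have h3 : ‖p.2‖ < 1 := by simpa using h3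
    exact (hD.diag false p.1 p.2 h2 (h3.trans (by norm_num))).symm
  have hvbase : ∀ w ∈ W, vel n (g w false) w.2 =
      pr S (f w.1 false w.2) (vel n (f w.1 false) w.2) := by
    intro w hw
    have h1 : HasFDerivAt (fun t : ℂ => ((w.1, t, t) : E × ℂ × ℂ))
        ((0 : ℂ →L[ℂ] E).prod ((ContinuousLinearMap.id ℂ ℂ).prod (ContinuousLinearMap.id ℂ ℂ)))
        w.2 :=
      (hasFDerivAt_const _ _).prodMk ((hasFDerivAt_id _).prodMk (hasFDerivAt_id _))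
    have h2 : f w.1 false =ᶠ[𝓝 w.2] F false ∘ (fun t : ℂ => ((w.1, t, t) : E × ℂ × ℂ)) := by
      have hc : ContinuousAt (fun t : ℂ => (w.1, t)) w.2 := by fun_prop
      exact hc.eventually (hfF w hw)
    have h3 := mfderiv_comp_affine h1 rfl (hFd w hw w.2 (hw2 w hw)) h2 1
    have h4 : vel n (f w.1 false) w.2 =
        (mfderiv 𝓘(ℂ, E × ℂ × ℂ) (mI n) (F false) (w.1, w.2, w.2) ((0, 1, 1) : E × ℂ × ℂ) : Model n) :=
      h3
    have h5 : (mfderiv 𝓘(ℂ, E × ℂ × ℂ) (mI n) (F false) (w.1, w.2, w.2)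
        ((0, 1, 1) : E × ℂ × ℂ) : Model n) =
        (mfderiv 𝓘(ℂ, E × ℂ × ℂ) (mI n) (F false) (w.1, w.2, w.2) ((0, 1, 0) : E × ℂ × ℂ) : Model n) +
        (mfderiv 𝓘(ℂ, E × ℂ × ℂ) (mI n) (F false) (w.1, w.2, w.2) ((0, 0, 1) : E × ℂ × ℂ) : Model n) := by
      have h6 : ((0, 1, 1) : E × ℂ × ℂ) = (0, 1, 0) + (0, 0, 1) := by simp
      have h7 := map_add (mfderiv 𝓘(ℂ, E × ℂ × ℂ) (mI n) (F false) (w.1, w.2, w.2) :
        E × ℂ × ℂ →L[ℂ] Model n) ((0, 1, 0) : E × ℂ × ℂ) (0, 0, 1)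
      rw [← h6] at h7
      exact h7
    have hz := hwU w hw w.2 (hw2 w hw)
    have h8 : pr S (F false (w.1, w.2, w.2)) (mfderiv 𝓘(ℂ, E × ℂ × ℂ) (mI n) (F false)
        (w.1, w.2, w.2) ((0, 1, 0) : E × ℂ × ℂ)) =
        mfderiv 𝓘(ℂ, E × ℂ × ℂ) (mI n) (F false) (w.1, w.2, w.2) ((0, 1, 0) : E × ℂ × ℂ) :=
      hD.tan1 false _ hz.1
    have h9 : pr S (F false (w.1, w.2, w.2)) (mfderiv 𝓘(ℂ, E × ℂ × ℂ) (mI n) (F false)
        (w.1, w.2, w.2) ((0, 0, 1) : E × ℂ × ℂ)) = 0 := hD.tan2 false _ hz.1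
    have h10 : pr S (f w.1 false w.2) = pr S (F false (w.1, w.2, w.2)) := by
      rw [← hbase w hw, hgF w hw w.2 (hw2 w hw)]
    rw [hvel w hw w.2 (hw2 w hw), h10, h4, h5]
    refine Eq.symm ((map_add (pr S (F false (w.1, w.2, w.2))) _ _).trans ?_)
    exact (congrArg₂ (fun a b : Model n => a + b) h8 h9).trans (add_zero _)
  -- a submersive point
  obtain ⟨a, haW, hasurj⟩ := hsub W hWo ⟨w₀, mem_ball_self hρ⟩ (hWW₀.trans hW₀V)
  have hFsurj : Function.Surjective (fun v : E × ℂ × ℂ =>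
      (mfderiv 𝓘(ℂ, E × ℂ × ℂ) (mI n) (F false) (a.1, a.2, a.2) v : Model n)) := by
    intro y
    obtain ⟨u, hu⟩ := hasurj y
    have h1 : HasFDerivAt (fun p : E × ℂ => ((p.1, p.2, p.2) : E × ℂ × ℂ))
        ((ContinuousLinearMap.fst ℂ E ℂ).prod ((ContinuousLinearMap.snd ℂ E ℂ).prod
          (ContinuousLinearMap.snd ℂ E ℂ))) a :=
      hasFDerivAt_fst.prodMk (hasFDerivAt_snd.prodMk hasFDerivAt_snd)
    have h2 := mfderiv_comp_affine h1 rfl (hFd a haW a.2 (hw2 a haW)) (hfF a haW) u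
    exact ⟨_, h2.symm.trans hu⟩
  have hgsurj : Function.Surjective
      (mfderiv 𝓘(ℂ, (E × ℂ) × ℂ) (mI n) (fun q : (E × ℂ) × ℂ => g q.1 false q.2) (a, a.2)) := by
    intro y
    obtain ⟨v, hv⟩ := hFsurj y
    have h1 : HasFDerivAt (fun p : (E × ℂ) × ℂ => ((p.1.1, p.2, p.1.2) : E × ℂ × ℂ))
        (((ContinuousLinearMap.fst ℂ E ℂ).comp (ContinuousLinearMap.fst ℂ (E × ℂ) ℂ)).prod
          ((ContinuousLinearMap.snd ℂ (E × ℂ) ℂ).prod
          ((ContinuousLinearMap.snd ℂ E ℂ).comp (ContinuousLinearMap.fst ℂ (E × ℂ) ℂ)))) (a, a.2) :=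
      (hasFDerivAt_fst.comp (a, a.2) hasFDerivAt_fst).prodMk
        (hasFDerivAt_snd.prodMk (hasFDerivAt_snd.comp (a, a.2) hasFDerivAt_fst))
    have h2 : (fun q : (E × ℂ) × ℂ => g q.1 false q.2) =ᶠ[𝓝 (a, a.2)]
        F false ∘ (fun p : (E × ℂ) × ℂ => ((p.1.1, p.2, p.1.2) : E × ℂ × ℂ)) := by
      filter_upwards [(hWo.prod isOpen_ball).mem_nhds
        (⟨haW, hw2 a haW⟩ : (a, a.2) ∈ W ×ˢ ball z₁ r')] with x hx
      exact hgF x.1 hx.1 x.2 hx.2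
    have h3 := mfderiv_comp_affine h1 rfl (hFd a haW a.2 (hw2 a haW)) h2 ((v.1, v.2.2), v.2.1)
    exact ⟨((v.1, v.2.2), v.2.1), h3.trans hv⟩
  have hWuo : IsOpen (W ×ˢ (univ : Set ℂ)) := hWo.prod isOpen_univ
  have hWuc : IsPreconnected (W ×ˢ (univ : Set ℂ)) := hWc.prod isPreconnected_univ
  have hdenseF := SD.exists_surj hWuo hWuc (hg1 false) (p := (a, a.2)) ⟨haW, mem_univ _⟩ hgsurj
  -- submersive point in the other chart
  obtain ⟨b, hbO, hbs⟩ := hdenseF (W ×ˢ {z : ℂ | z ≠ 0}) (hWo.prod isOpen_ne)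
    ⟨(w₀, 1), mem_ball_self hρ, one_ne_zero⟩ (prod_mono subset_rfl (subset_univ _))
  have hbz : b.2 ≠ 0 := hbO.2
  have htsurj : Function.Surjective
      (mfderiv 𝓘(ℂ, (E × ℂ) × ℂ) (mI n) (fun q : (E × ℂ) × ℂ => g q.1 true q.2) (b.1, b.2⁻¹)) := by
    intro y
    obtain ⟨v, hv⟩ := hbs y
    have hi : HasFDerivAt (fun p : (E × ℂ) × ℂ => p.2⁻¹)
        ((-(b.2⁻¹ ^ 2)⁻¹ : ℂ) • ContinuousLinearMap.snd ℂ (E × ℂ) ℂ) (b.1, b.2⁻¹) := by
      have h0 : HasDerivAt (fun x : ℂ => x⁻¹) (-(b.2⁻¹ ^ 2)⁻¹) (b.2⁻¹) :=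
        hasDerivAt_inv (inv_ne_zero hbz)
      exact h0.comp_hasFDerivAt (b.1, b.2⁻¹) (hasFDerivAt_snd (𝕜 := ℂ) (p := (b.1, b.2⁻¹)))
    have h1 : HasFDerivAt (fun p : (E × ℂ) × ℂ => ((p.1, p.2⁻¹) : (E × ℂ) × ℂ))
        ((ContinuousLinearMap.fst ℂ (E × ℂ) ℂ).prod
          ((-(b.2⁻¹ ^ 2)⁻¹ : ℂ) • ContinuousLinearMap.snd ℂ (E × ℂ) ℂ)) (b.1, b.2⁻¹) :=
      hasFDerivAt_fst.prodMk hi
    have h2 : (fun q : (E × ℂ) × ℂ => g q.1 true q.2) =ᶠ[𝓝 (b.1, b.2⁻¹)]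
        (fun q : (E × ℂ) × ℂ => g q.1 false q.2) ∘
          (fun p : (E × ℂ) × ℂ => ((p.1, p.2⁻¹) : (E × ℂ) × ℂ)) := by
      filter_upwards [(hWo.prod isOpen_ne).mem_nhds
        (⟨hbO.1, inv_ne_zero hbz⟩ : (b.1, b.2⁻¹) ∈ W ×ˢ {z : ℂ | z ≠ 0})] with x hx
      exact hg3 x.1 hx.1 false x.2 hx.2
    have h4 : ((b.1, b.2⁻¹).1, (b.1, b.2⁻¹).2⁻¹) = b := by simp
    have hmd : MDifferentiableAt 𝓘(ℂ, (E × ℂ) × ℂ) (mI n)
        (fun q : (E × ℂ) × ℂ => g q.1 false q.2) b := by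
      exact ((hg1 false).contMDiffAt (hWuo.mem_nhds ⟨hbO.1, mem_univ _⟩)).mdifferentiableAt
        (by simp)
    have h3 := mfderiv_comp_affine h1 h4 hmd h2 (v.1, (-(b.2⁻¹ ^ 2)⁻¹)⁻¹ * v.2)
    have hne : (-(b.2⁻¹ ^ 2)⁻¹ : ℂ) ≠ 0 := by
      simpa using hbz
    have h5 : ((ContinuousLinearMap.fst ℂ (E × ℂ) ℂ).prod
          ((-(b.2⁻¹ ^ 2)⁻¹ : ℂ) • ContinuousLinearMap.snd ℂ (E × ℂ) ℂ))
          (v.1, (-(b.2⁻¹ ^ 2)⁻¹)⁻¹ * v.2) = v := by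
      apply Prod.ext
      · rfl
      · show (-(b.2⁻¹ ^ 2)⁻¹ : ℂ) • ((-(b.2⁻¹ ^ 2)⁻¹)⁻¹ * v.2) = v.2
        rw [smul_eq_mul, ← mul_assoc, mul_inv_cancel₀ hne, one_mul]
    refine ⟨(v.1, (-(b.2⁻¹ ^ 2)⁻¹)⁻¹ * v.2), h3.trans ?_⟩
    exact (congrArg (fun t : (E × ℂ) × ℂ => (mfderiv 𝓘(ℂ, (E × ℂ) × ℂ) (mI n)
      (fun q : (E × ℂ) × ℂ => g q.1 false q.2) b :
      (E × ℂ) × ℂ →L[ℂ] Model n) t) h5).trans hv
  have hdenseT := SD.exists_surj hWuo hWuc (hg1 true) (p := (b.1, b.2⁻¹)) ⟨hbO.1, mem_univ _⟩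
    htsurj
  refine ⟨W, g, hWW₀.trans hW₀V, ⟨w₀, mem_ball_self hρ⟩, ?_, ?_, hbase, hvbase⟩
  · refine ⟨hWo, hg1, hg3, ?_⟩
    intro b O hO hOne hOW
    cases b
    · exact hdenseF O hO hOne hOW
    · exact hdenseT O hO hOne hOW
  · intro w hw b z
    exact ⟨_, htan' w hw b z⟩

end

end Crest.Agent.R266.St3
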