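import Crest.Agent.R266.GouA
import Crest.Agent.R266.Osgood
import Crest.Agent.R266.Chart
import Crest.Agent.R266.StepThreeDefs
import Crest.Agent.R266.SCV
import Crest.Agent.R266.A.Iface404

-- ▼ part R266/GouB
section

/-! Row 266, S0404 Step 2 (Goursat problem), part B: the integral operator, contraction,
existence and uniqueness of its fixed point. -/

set_option autoImplicit false
set_option linter.unusedSectionVars false
set_option linter.unusedVariables false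
open Set Filter Topology Metric MeasureTheory
open scoped ContDiff Interval

noncomputable section
namespace Crest.Agent.R266.Goursat

variable {S E : Type*} [NormedAddCommGroup S] [NormedSpace ℂ S]
  [NormedAddCommGroup E] [NormedSpace ℂ E]

/-- projections of `S × ℂ × ℂ` -/
def pi1 : (S × ℂ × ℂ) →L[ℂ] ℂ :=
  (ContinuousLinearMap.fst ℂ ℂ ℂ).comp (ContinuousLinearMap.snd ℂ S (ℂ × ℂ))
def pi2 : (S × ℂ × ℂ) →L[ℂ] ℂ :=
  (ContinuousLinearMap.snd ℂ ℂ ℂ).comp (ContinuousLinearMap.snd ℂ S (ℂ × ℂ))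
def piS : (S × ℂ × ℂ) →L[ℂ] S := ContinuousLinearMap.fst ℂ S (ℂ × ℂ)

@[simp] lemma pi1_apply (p : S × ℂ × ℂ) : pi1 p = p.2.1 := rfl
@[simp] lemma pi2_apply (p : S × ℂ × ℂ) : pi2 p = p.2.2 := rfl
@[simp] lemma piS_apply (p : S × ℂ × ℂ) : piS p = p.1 := rfl

/-- segment from the diagonal in the direction of the first variable -/
def L1 (θ : ℝ) : (S × ℂ × ℂ) →L[ℂ] (S × ℂ × ℂ) :=
  piS.prod ((pi2 + (θ : ℂ) • (pi1 - pi2)).prod pi2)

/-- segment from the diagonal in the direction of the second variable -/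
def L2 (θ : ℝ) : (S × ℂ × ℂ) →L[ℂ] (S × ℂ × ℂ) :=
  piS.prod (pi1.prod (pi1 + (θ : ℂ) • (pi2 - pi1)))

@[simp] lemma L1_apply (θ : ℝ) (p : S × ℂ × ℂ) :
    L1 θ p = (p.1, p.2.2 + (θ : ℂ) * (p.2.1 - p.2.2), p.2.2) := by simp [L1]

@[simp] lemma L2_apply (θ : ℝ) (p : S × ℂ × ℂ) :
    L2 θ p = (p.1, p.2.1, p.2.1 + (θ : ℂ) * (p.2.2 - p.2.1)) := by simp [L2]

lemma continuous_L1 : Continuous (L1 (S := S)) := by
  have h : (fun θ : ℝ => L1 (S := S) θ) = fun θ : ℝ => L1 0 + (θ : ℂ) • (L1 1 - L1 0) := by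
    ext θ p <;> simp
  show Continuous (fun θ : ℝ => L1 (S := S) θ)
  rw [h]
  fun_prop

lemma continuous_L2 : Continuous (L2 (S := S)) := by
  have h : (fun θ : ℝ => L2 (S := S) θ) = fun θ : ℝ => L2 0 + (θ : ℂ) • (L2 1 - L2 0) := by
    ext θ p <;> simp
  show Continuous (fun θ : ℝ => L2 (S := S) θ)
  rw [h]
  fun_prop

lemma norm_seg_le {a b : ℂ} {θ : ℝ} (hθ : θ ∈ Icc (0:ℝ) 1) :
    ‖b + (θ : ℂ) * (a - b)‖ ≤ max ‖a‖ ‖b‖ := by
  have e : b + (θ : ℂ) * (a - b) = ((1 - θ : ℝ) : ℂ) * b + (θ : ℂ) * a := by push_cast; ring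
  rw [e]
  calc ‖((1 - θ : ℝ) : ℂ) * b + (θ : ℂ) * a‖ ≤ ‖((1 - θ : ℝ) : ℂ) * b‖ + ‖(θ : ℂ) * a‖ :=
        norm_add_le _ _
    _ = (1 - θ) * ‖b‖ + θ * ‖a‖ := by
        rw [norm_mul, norm_mul, Complex.norm_real, Complex.norm_real, Real.norm_of_nonneg,
          Real.norm_of_nonneg hθ.1]
        linarith [hθ.2]
    _ ≤ (1 - θ) * max ‖a‖ ‖b‖ + θ * max ‖a‖ ‖b‖ := by
        have h1 := hθ.1
        have h2 : 0 ≤ 1 - θ := by linarith [hθ.2]
        gcongr
        · exact le_max_right _ _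
        · exact le_max_left _ _
    _ = max ‖a‖ ‖b‖ := by ring

lemma norm_L1_le {θ : ℝ} (hθ : θ ∈ Icc (0:ℝ) 1) : ‖L1 (S := S) θ‖ ≤ 1 := by
  refine ContinuousLinearMap.opNorm_le_bound _ zero_le_one fun p => ?_
  rw [one_mul, L1_apply]
  simp only [Prod.norm_def]
  refine max_le (le_max_left _ _) (max_le ?_ ?_)
  · exact (norm_seg_le hθ).trans (le_max_right _ _)
  · exact (le_max_right _ _).trans (le_max_right _ _)

lemma norm_L2_le {θ : ℝ} (hθ : θ ∈ Icc (0:ℝ) 1) : ‖L2 (S := S) θ‖ ≤ 1 := by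
  refine ContinuousLinearMap.opNorm_le_bound _ zero_le_one fun p => ?_
  rw [one_mul, L2_apply]
  simp only [Prod.norm_def]
  refine max_le (le_max_left _ _) (max_le ?_ ?_)
  · exact (le_max_left _ _).trans (le_max_right _ _)
  · refine (norm_seg_le hθ).trans ?_
    rw [max_comm]
    exact le_max_right _ _

lemma L1_center (s0 : S) (z0 : ℂ) (θ : ℝ) : L1 θ (s0, z0, z0) = (s0, z0, z0) := by simp
lemma L2_center (s0 : S) (z0 : ℂ) (θ : ℝ) : L2 θ (s0, z0, z0) = (s0, z0, z0) := by simp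

lemma map_ball {c : S × ℂ × ℂ} {r : ℝ} {L : (S × ℂ × ℂ) →L[ℂ] (S × ℂ × ℂ)} (h1 : ‖L‖ ≤ 1)
    (hc : L c = c) {p : S × ℂ × ℂ} (hp : p ∈ ball c r) : L p ∈ ball c r := by
  rw [mem_ball, dist_eq_norm] at *
  nth_rewrite 1 [← hc]
  rw [← map_sub]
  calc ‖L (p - c)‖ ≤ ‖L‖ * ‖p - c‖ := ContinuousLinearMap.le_opNorm _ _
    _ ≤ 1 * ‖p - c‖ := by gcongr
    _ < r := by rw [one_mul]; exact hp

/-- The data of the Goursat problem. -/
structure Data (S E : Type*) where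
  f : S × ℂ → E
  α : S × ℂ → E
  β : S × ℂ → E
  N : E × E × E → E

/-- The integral operator. -/
def T (d : Data S E) (u : S × ℂ × ℂ → E × E × E) (p : S × ℂ × ℂ) : E × E × E :=
  (d.f (p.1, p.2.2) + (p.2.1 - p.2.2) • ∫ θ in (0:ℝ)..1, (u (L1 θ p)).2.1,
   d.α (p.1, p.2.1) + (p.2.2 - p.2.1) • ∫ θ in (0:ℝ)..1, d.N (u (L2 θ p)),
   d.β (p.1, p.2.2) + (p.2.1 - p.2.2) • ∫ θ in (0:ℝ)..1, d.N (u (L1 θ p)))

/-- Smallness conditions. -/
structure Small (d : Data S E) (s0 : S) (z0 : ℂ) (r : ℝ) (u0 : E × E × E) (ρ K M : ℝ) : Prop where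
  hr : 0 < r
  hρ : 0 < ρ
  hK : 0 ≤ K
  hM : 0 ≤ M
  lip : ∀ v ∈ closedBall u0 ρ, ∀ w ∈ closedBall u0 ρ, ‖d.N v - d.N w‖ ≤ K * ‖v - w‖
  bd : ∀ v ∈ closedBall u0 ρ, ‖d.N v‖ ≤ M
  data : ∀ p ∈ ball (s0, z0, z0) r,
    ‖((d.f (p.1, p.2.2), d.α (p.1, p.2.1), d.β (p.1, p.2.2)) : E × E × E) - u0‖ ≤ ρ / 2
  small1 : 2 * r * M ≤ ρ / 2
  small2 : 2 * r * (‖u0‖ + ρ) ≤ ρ / 2
  small3 : 2 * r * K ≤ 1 / 2
  small4 : 2 * r ≤ 1 / 2

section est
variable {d : Data S E} {s0 : S} {z0 : ℂ} {r : ℝ} {u0 : E × E × E} {ρ K M : ℝ}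

lemma sub_le_of_mem {p : S × ℂ × ℂ} (hp : p ∈ ball (s0, z0, z0) r) :
    ‖p.2.1 - p.2.2‖ ≤ 2 * r := by
  rw [mem_ball, Prod.dist_eq, max_lt_iff, Prod.dist_eq, max_lt_iff] at hp
  have h1 := hp.2.1
  have h2 := hp.2.2
  simp only [dist_eq_norm] at h1 h2
  calc ‖p.2.1 - p.2.2‖ = ‖(p.2.1 - z0) - (p.2.2 - z0)‖ := by congr 1; ring
    _ ≤ ‖p.2.1 - z0‖ + ‖p.2.2 - z0‖ := norm_sub_le _ _
    _ ≤ r + r := by linarith
    _ = 2 * r := by ring

lemma norm_int_le {V : Type*} [NormedAddCommGroup V] [NormedSpace ℝ V] {g : ℝ → V} {C : ℝ}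
    (h : ∀ θ ∈ Icc (0:ℝ) 1, ‖g θ‖ ≤ C) : ‖∫ θ in (0:ℝ)..1, g θ‖ ≤ C := by
  have := intervalIntegral.norm_integral_le_of_norm_le_const (a := (0:ℝ)) (b := 1) (f := g) (C := C)
    (fun θ hθ => h θ (by rw [uIoc_of_le zero_le_one] at hθ; exact Ioc_subset_Icc_self hθ))
  simpa using this

lemma T_mem (H : Small d s0 z0 r u0 ρ K M) {u : S × ℂ × ℂ → E × E × E}
    (hu : ∀ p ∈ ball (s0, z0, z0) r, u p ∈ closedBall u0 ρ) :
    ∀ p ∈ ball (s0, z0, z0) r, T d u p ∈ closedBall u0 ρ := by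
  intro p hp
  have hsub := sub_le_of_mem hp
  have hsub' : ‖p.2.2 - p.2.1‖ ≤ 2 * r := by rw [norm_sub_rev]; exact hsub
  have hr := H.hr
  have hin1 : ∀ θ ∈ Icc (0:ℝ) 1, u (L1 θ p) ∈ closedBall u0 ρ := fun θ hθ =>
    hu _ (map_ball (norm_L1_le hθ) (L1_center s0 z0 θ) hp)
  have hin2 : ∀ θ ∈ Icc (0:ℝ) 1, u (L2 θ p) ∈ closedBall u0 ρ := fun θ hθ =>
    hu _ (map_ball (norm_L2_le hθ) (L2_center s0 z0 θ) hp)
  have hbd : ∀ v ∈ closedBall u0 ρ, ‖v‖ ≤ ‖u0‖ + ρ := by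
    intro v hv
    rw [mem_closedBall, dist_eq_norm] at hv
    calc ‖v‖ = ‖u0 + (v - u0)‖ := by congr 1; abel
      _ ≤ ‖u0‖ + ‖v - u0‖ := norm_add_le _ _
      _ ≤ ‖u0‖ + ρ := by gcongr
  have h1 : ‖(p.2.1 - p.2.2) • ∫ θ in (0:ℝ)..1, (u (L1 θ p)).2.1‖ ≤ ρ / 2 := by
    rw [norm_smul]
    have : ‖∫ θ in (0:ℝ)..1, (u (L1 θ p)).2.1‖ ≤ ‖u0‖ + ρ := by
      apply norm_int_le
      intro θ hθ
      exact ((norm_fst_le _).trans (norm_snd_le _)).trans (hbd _ (hin1 θ hθ))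
    calc _ ≤ (2 * r) * (‖u0‖ + ρ) := by gcongr
      _ ≤ ρ / 2 := H.small2
  have h2 : ‖(p.2.2 - p.2.1) • ∫ θ in (0:ℝ)..1, d.N (u (L2 θ p))‖ ≤ ρ / 2 := by
    rw [norm_smul]
    have : ‖∫ θ in (0:ℝ)..1, d.N (u (L2 θ p))‖ ≤ M :=
      norm_int_le fun θ hθ => H.bd _ (hin2 θ hθ)
    calc _ ≤ (2 * r) * M := by gcongr
      _ ≤ ρ / 2 := H.small1
  have h3 : ‖(p.2.1 - p.2.2) • ∫ θ in (0:ℝ)..1, d.N (u (L1 θ p))‖ ≤ ρ / 2 := by
    rw [norm_smul]
    have : ‖∫ θ in (0:ℝ)..1, d.N (u (L1 θ p))‖ ≤ M :=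
      norm_int_le fun θ hθ => H.bd _ (hin1 θ hθ)
    calc _ ≤ (2 * r) * M := by gcongr
      _ ≤ ρ / 2 := H.small1
  rw [mem_closedBall, dist_eq_norm]
  have e : T d u p - u0 =
      (((d.f (p.1, p.2.2), d.α (p.1, p.2.1), d.β (p.1, p.2.2)) : E × E × E) - u0) +
      ((p.2.1 - p.2.2) • ∫ θ in (0:ℝ)..1, (u (L1 θ p)).2.1,
       (p.2.2 - p.2.1) • ∫ θ in (0:ℝ)..1, d.N (u (L2 θ p)),
       (p.2.1 - p.2.2) • ∫ θ in (0:ℝ)..1, d.N (u (L1 θ p))) := by
    rw [T]
    ext <;> simp <;> abel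
  rw [e]
  calc _ ≤ _ := norm_add_le _ _
    _ ≤ ρ / 2 + ρ / 2 := by
        gcongr
        · exact H.data p hp
        · simp only [Prod.norm_def]
          exact max_le h1 (max_le h2 h3)
    _ = ρ := by ring

lemma T_contr (H : Small d s0 z0 r u0 ρ K M) {u u' : S × ℂ × ℂ → E × E × E}
    (hN : ContinuousOn d.N (closedBall u0 ρ))
    (hu : ∀ p ∈ ball (s0, z0, z0) r, u p ∈ closedBall u0 ρ)
    (hu' : ∀ p ∈ ball (s0, z0, z0) r, u' p ∈ closedBall u0 ρ)
    (hc : ContinuousOn u (ball (s0, z0, z0) r)) (hc' : ContinuousOn u' (ball (s0, z0, z0) r))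
    {δ : ℝ} (hδ : ∀ p ∈ ball (s0, z0, z0) r, ‖u p - u' p‖ ≤ δ) :
    ∀ p ∈ ball (s0, z0, z0) r, ‖T d u p - T d u' p‖ ≤ δ / 2 := by
  intro p hp
  have hδ0 : 0 ≤ δ := (norm_nonneg _).trans (hδ p hp)
  have hsub := sub_le_of_mem hp
  have hsub' : ‖p.2.2 - p.2.1‖ ≤ 2 * r := by rw [norm_sub_rev]; exact hsub
  have hr := H.hr
  have hK := H.hK
  have hm1 : ∀ θ ∈ Icc (0:ℝ) 1, L1 θ p ∈ ball (s0, z0, z0) r := fun θ hθ =>
    map_ball (norm_L1_le hθ) (L1_center s0 z0 θ) hp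
  have hm2 : ∀ θ ∈ Icc (0:ℝ) 1, L2 θ p ∈ ball (s0, z0, z0) r := fun θ hθ =>
    map_ball (norm_L2_le hθ) (L2_center s0 z0 θ) hp
  have cL1 : ContinuousOn (fun θ : ℝ => L1 θ p) (Icc (0:ℝ) 1) :=
    (continuous_L1.clm_apply continuous_const).continuousOn
  have cL2 : ContinuousOn (fun θ : ℝ => L2 θ p) (Icc (0:ℝ) 1) :=
    (continuous_L2.clm_apply continuous_const).continuousOn
  have I1 : ∀ v : S × ℂ × ℂ → E × E × E, (∀ p ∈ ball (s0, z0, z0) r, v p ∈ closedBall u0 ρ) →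
      ContinuousOn v (ball (s0, z0, z0) r) →
      IntervalIntegrable (fun θ : ℝ => (v (L1 θ p)).2.1) volume 0 1 ∧
      IntervalIntegrable (fun θ : ℝ => d.N (v (L2 θ p))) volume 0 1 ∧
      IntervalIntegrable (fun θ : ℝ => d.N (v (L1 θ p))) volume 0 1 := by
    intro v hv hvc
    have a1 : ContinuousOn (fun θ : ℝ => v (L1 θ p)) (Icc (0:ℝ) 1) := hvc.comp cL1 hm1
    have a2 : ContinuousOn (fun θ : ℝ => v (L2 θ p)) (Icc (0:ℝ) 1) := hvc.comp cL2 hm2
    refine ⟨?_, ?_, ?_⟩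
    · exact (a1.snd.fst).intervalIntegrable_of_Icc zero_le_one
    · exact (hN.comp a2 (fun θ hθ => hv _ (hm2 θ hθ))).intervalIntegrable_of_Icc zero_le_one
    · exact (hN.comp a1 (fun θ hθ => hv _ (hm1 θ hθ))).intervalIntegrable_of_Icc zero_le_one
  obtain ⟨i1, i2, i3⟩ := I1 u hu hc
  obtain ⟨j1, j2, j3⟩ := I1 u' hu' hc'
  have e : T d u p - T d u' p =
      ((p.2.1 - p.2.2) • ∫ θ in (0:ℝ)..1, ((u (L1 θ p)).2.1 - (u' (L1 θ p)).2.1),
       (p.2.2 - p.2.1) • ∫ θ in (0:ℝ)..1, (d.N (u (L2 θ p)) - d.N (u' (L2 θ p))),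
       (p.2.1 - p.2.2) • ∫ θ in (0:ℝ)..1, (d.N (u (L1 θ p)) - d.N (u' (L1 θ p)))) := by
    rw [intervalIntegral.integral_sub i1 j1, intervalIntegral.integral_sub i2 j2,
      intervalIntegral.integral_sub i3 j3]
    simp only [T, smul_sub]
    ext <;> simp
  rw [e]
  simp only [Prod.norm_def]
  refine max_le ?_ (max_le ?_ ?_)
  · rw [norm_smul]
    have : ‖∫ θ in (0:ℝ)..1, ((u (L1 θ p)).2.1 - (u' (L1 θ p)).2.1)‖ ≤ δ := by
      apply norm_int_le
      intro θ hθ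
      have h := hδ _ (hm1 θ hθ)
      exact ((norm_fst_le (u (L1 θ p) - u' (L1 θ p)).2).trans (norm_snd_le _)).trans h
    calc _ ≤ (2 * r) * δ := by gcongr
      _ ≤ (1 / 2) * δ := by gcongr; exact H.small4
      _ = δ / 2 := by ring
  · rw [norm_smul]
    have : ‖∫ θ in (0:ℝ)..1, (d.N (u (L2 θ p)) - d.N (u' (L2 θ p)))‖ ≤ K * δ := by
      apply norm_int_le
      intro θ hθ
      exact (H.lip _ (hu _ (hm2 θ hθ)) _ (hu' _ (hm2 θ hθ))).trans
        (by gcongr; exact hδ _ (hm2 θ hθ))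
    calc _ ≤ (2 * r) * (K * δ) := by gcongr
      _ = (2 * r * K) * δ := by ring
      _ ≤ (1 / 2) * δ := by gcongr; exact H.small3
      _ = δ / 2 := by ring
  · rw [norm_smul]
    have : ‖∫ θ in (0:ℝ)..1, (d.N (u (L1 θ p)) - d.N (u' (L1 θ p)))‖ ≤ K * δ := by
      apply norm_int_le
      intro θ hθ
      exact (H.lip _ (hu _ (hm1 θ hθ)) _ (hu' _ (hm1 θ hθ))).trans
        (by gcongr; exact hδ _ (hm1 θ hθ))
    calc _ ≤ (2 * r) * (K * δ) := by gcongr
      _ = (2 * r * K) * δ := by ring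
      _ ≤ (1 / 2) * δ := by gcongr; exact H.small3
      _ = δ / 2 := by ring

/-- Uniqueness of the fixed point. -/
lemma fix_unique (H : Small d s0 z0 r u0 ρ K M) {u u' : S × ℂ × ℂ → E × E × E}
    (hN : ContinuousOn d.N (closedBall u0 ρ))
    (hu : ∀ p ∈ ball (s0, z0, z0) r, u p ∈ closedBall u0 ρ)
    (hu' : ∀ p ∈ ball (s0, z0, z0) r, u' p ∈ closedBall u0 ρ)
    (hc : ContinuousOn u (ball (s0, z0, z0) r)) (hc' : ContinuousOn u' (ball (s0, z0, z0) r))
    (hf : ∀ p ∈ ball (s0, z0, z0) r, T d u p = u p)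
    (hf' : ∀ p ∈ ball (s0, z0, z0) r, T d u' p = u' p) :
    ∀ p ∈ ball (s0, z0, z0) r, u p = u' p := by
  have key : ∀ n : ℕ, ∀ p ∈ ball (s0, z0, z0) r, ‖u p - u' p‖ ≤ (2 * ρ) / 2 ^ n := by
    intro n
    induction n with
    | zero =>
      intro p hp
      have h1 := hu p hp
      have h2 := hu' p hp
      rw [mem_closedBall, dist_eq_norm] at h1 h2
      calc ‖u p - u' p‖ = ‖(u p - u0) - (u' p - u0)‖ := by congr 1; abel
        _ ≤ ‖u p - u0‖ + ‖u' p - u0‖ := norm_sub_le _ _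
        _ ≤ ρ + ρ := by linarith
        _ = 2 * ρ / 2 ^ 0 := by ring
    | succ n ih =>
      intro p hp
      have := T_contr H hN hu hu' hc hc' ih p hp
      rw [hf p hp, hf' p hp] at this
      calc _ ≤ _ := this
        _ = 2 * ρ / 2 ^ (n + 1) := by rw [pow_succ]; field_simp
  intro p hp
  have h0 : Tendsto (fun n : ℕ => (2 * ρ) / 2 ^ n) atTop (𝓝 0) := by
    have := (tendsto_pow_atTop_nhds_zero_of_lt_one (r := (1/2:ℝ)) (by norm_num) (by norm_num)).const_mul (2 * ρ)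
    simp only [mul_zero] at this
    refine this.congr fun n => ?_
    rw [one_div, inv_pow, div_eq_mul_inv]
  have : ‖u p - u' p‖ ≤ 0 := ge_of_tendsto' h0 (fun n => key n p hp)
  exact sub_eq_zero.1 (norm_le_zero_iff.1 this)

end est

end Crest.Agent.R266.Goursat
end
end

-- ▼ part R266/GouC
section

/-! Row 266, S0404 Step 2 (Goursat problem), part C: existence of a holomorphic fixed point. -/

set_option autoImplicit false
set_option linter.unusedSectionVars false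
set_option linter.unusedVariables false
open Set Filter Topology Metric MeasureTheory
open scoped ContDiff Interval

noncomputable section
namespace Crest.Agent.R266.Goursat

/-- Osgood -/
theorem osgood {E F : Type*} [NormedAddCommGroup E] [NormedSpace ℂ E] [FiniteDimensional ℂ E]
    [NormedAddCommGroup F] [NormedSpace ℂ F] [CompleteSpace F] {f : E → F} {U : Set E}
    (hU : IsOpen U) (hf : DifferentiableOn ℂ f U) : AnalyticOnNhd ℂ f U :=
  SCV.analyticOnNhd_of_differentiableOn hU hf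

variable {S E : Type*} [NormedAddCommGroup S] [NormedSpace ℂ S] [FiniteDimensional ℂ S]
  [NormedAddCommGroup E] [NormedSpace ℂ E] [CompleteSpace E]
variable {d : Data S E} {s0 : S} {z0 : ℂ} {r : ℝ} {u0 : E × E × E} {ρ K M : ℝ}

lemma norm_bd_of_mem {u0 v : E × E × E} {ρ : ℝ} (hv : v ∈ closedBall u0 ρ) : ‖v‖ ≤ ‖u0‖ + ρ := by
  rw [mem_closedBall, dist_eq_norm] at hv
  calc ‖v‖ = ‖u0 + (v - u0)‖ := by congr 1; abel
    _ ≤ ‖u0‖ + ‖v - u0‖ := norm_add_le _ _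
    _ ≤ ‖u0‖ + ρ := by gcongr

lemma T_diff (H : Small d s0 z0 r u0 ρ K M)
    (hf : DifferentiableOn ℂ d.f (ball (s0, z0) r)) (hα : DifferentiableOn ℂ d.α (ball (s0, z0) r))
    (hβ : DifferentiableOn ℂ d.β (ball (s0, z0) r))
    {O : Set (E × E × E)} (hO : IsOpen O) (hsub : closedBall u0 ρ ⊆ O)
    (hN : DifferentiableOn ℂ d.N O) {u : S × ℂ × ℂ → E × E × E}
    (hu : ∀ p ∈ ball (s0, z0, z0) r, u p ∈ closedBall u0 ρ)
    (hud : DifferentiableOn ℂ u (ball (s0, z0, z0) r)) :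
    DifferentiableOn ℂ (T d u) (ball (s0, z0, z0) r) := by
  have hNu : DifferentiableOn ℂ (fun p => d.N (u p)) (ball (s0, z0, z0) r) :=
    hN.comp hud (fun p hp => hsub (hu p hp))
  have c1 : ContDiffOn ℂ 1 (fun p => d.N (u p)) (ball (s0, z0, z0) r) :=
    ((osgood isOpen_ball hNu).contDiffOn isOpen_ball.uniqueDiffOn)
  have c2 : ContDiffOn ℂ 1 (fun p => (u p).2.1) (ball (s0, z0, z0) r) :=
    ((osgood isOpen_ball hud.snd.fst).contDiffOn isOpen_ball.uniqueDiffOn)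
  have i1 := differentiableOn_segment_integral (c := (s0, z0, z0)) (r := r) continuous_L1
    (fun θ hθ => norm_L1_le hθ) (fun θ _ => L1_center s0 z0 θ) c2
    (M := ‖u0‖ + ρ) (fun p hp => ((norm_fst_le _).trans (norm_snd_le _)).trans
      (norm_bd_of_mem (hu p hp)))
  have i2 := differentiableOn_segment_integral (c := (s0, z0, z0)) (r := r) continuous_L2
    (fun θ hθ => norm_L2_le hθ) (fun θ _ => L2_center s0 z0 θ) c1
    (M := M) (fun p hp => H.bd _ (hu p hp))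
  have i3 := differentiableOn_segment_integral (c := (s0, z0, z0)) (r := r) continuous_L1
    (fun θ hθ => norm_L1_le hθ) (fun θ _ => L1_center s0 z0 θ) c1
    (M := M) (fun p hp => H.bd _ (hu p hp))
  have m1 : MapsTo (fun p : S × ℂ × ℂ => (p.1, p.2.1)) (ball (s0, z0, z0) r) (ball (s0, z0) r) := by
    intro p hp
    rw [mem_ball, Prod.dist_eq, max_lt_iff, Prod.dist_eq, max_lt_iff] at hp
    rw [mem_ball, Prod.dist_eq, max_lt_iff]
    exact ⟨hp.1, hp.2.1⟩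
  have m2 : MapsTo (fun p : S × ℂ × ℂ => (p.1, p.2.2)) (ball (s0, z0, z0) r) (ball (s0, z0) r) := by
    intro p hp
    rw [mem_ball, Prod.dist_eq, max_lt_iff, Prod.dist_eq, max_lt_iff] at hp
    rw [mem_ball, Prod.dist_eq, max_lt_iff]
    exact ⟨hp.1, hp.2.2⟩
  have d1 : DifferentiableOn ℂ (fun p : S × ℂ × ℂ => (p.1, p.2.1)) (ball (s0, z0, z0) r) := by
    fun_prop
  have d2 : DifferentiableOn ℂ (fun p : S × ℂ × ℂ => (p.1, p.2.2)) (ball (s0, z0, z0) r) := by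
    fun_prop
  have d3 : DifferentiableOn ℂ (fun p : S × ℂ × ℂ => p.2.1 - p.2.2) (ball (s0, z0, z0) r) := by
    fun_prop
  have d4 : DifferentiableOn ℂ (fun p : S × ℂ × ℂ => p.2.2 - p.2.1) (ball (s0, z0, z0) r) := by
    fun_prop
  unfold T
  refine DifferentiableOn.prodMk ?_ (DifferentiableOn.prodMk ?_ ?_)
  · exact (hf.comp d2 m2).add (d3.smul i1)
  · exact (hα.comp d1 m1).add (d4.smul i2)
  · exact (hβ.comp d2 m2).add (d3.smul i3)

theorem exists_fix (H : Small d s0 z0 r u0 ρ K M)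
    (hf : DifferentiableOn ℂ d.f (ball (s0, z0) r)) (hα : DifferentiableOn ℂ d.α (ball (s0, z0) r))
    (hβ : DifferentiableOn ℂ d.β (ball (s0, z0) r))
    {O : Set (E × E × E)} (hO : IsOpen O) (hsub : closedBall u0 ρ ⊆ O)
    (hN : DifferentiableOn ℂ d.N O) :
    ∃ u : S × ℂ × ℂ → E × E × E, (∀ p ∈ ball (s0, z0, z0) r, u p ∈ closedBall u0 ρ) ∧
      DifferentiableOn ℂ u (ball (s0, z0, z0) r) ∧
      ∀ p ∈ ball (s0, z0, z0) r, T d u p = u p := by
  have hNc : ContinuousOn d.N (closedBall u0 ρ) := hN.continuousOn.mono hsub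
  set D := ball (s0, z0, z0) r with hD
  let U : ℕ → S × ℂ × ℂ → E × E × E := fun n => (T d)^[n] (fun _ => u0)
  have hUs : ∀ n, U (n + 1) = T d (U n) := fun n => Function.iterate_succ_apply' _ _ _
  have hmem : ∀ n, ∀ p ∈ D, U n p ∈ closedBall u0 ρ := by
    intro n
    induction n with
    | zero => intro p _; exact mem_closedBall_self H.hρ.le
    | succ n ih => rw [hUs]; exact T_mem H ih
  have hdiff : ∀ n, DifferentiableOn ℂ (U n) D := by
    intro n
    induction n with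
    | zero => exact differentiableOn_const _
    | succ n ih => rw [hUs]; exact T_diff H hf hα hβ hO hsub hN (hmem n) ih
  have hstep : ∀ n, ∀ p ∈ D, ‖U (n + 1) p - U n p‖ ≤ (2 * ρ) / 2 ^ n := by
    intro n
    induction n with
    | zero =>
      intro p hp
      have h1 := hmem 1 p hp
      have h2 := hmem 0 p hp
      rw [mem_closedBall, dist_eq_norm] at h1 h2
      calc ‖U (0 + 1) p - U 0 p‖ = ‖(U 1 p - u0) - (U 0 p - u0)‖ := by congr 1; abel
        _ ≤ ‖U 1 p - u0‖ + ‖U 0 p - u0‖ := norm_sub_le _ _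
        _ ≤ ρ + ρ := by linarith
        _ = 2 * ρ / 2 ^ 0 := by ring
    | succ n ih =>
      intro p hp
      have := T_contr H hNc (hmem (n+1)) (hmem n) (hdiff (n+1)).continuousOn (hdiff n).continuousOn
        ih p hp
      rw [← hUs, ← hUs] at this
      calc _ ≤ _ := this
        _ = 2 * ρ / 2 ^ (n + 1) := by rw [pow_succ]; field_simp
  have hstep' : ∀ p ∈ D, ∀ n, dist (U n p) (U (n + 1) p) ≤ (4 * ρ) / 2 / 2 ^ n := by
    intro p hp n
    rw [dist_comm, dist_eq_norm]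
    calc _ ≤ _ := hstep n p hp
      _ = (4 * ρ) / 2 / 2 ^ n := by ring
  have hlim : ∀ p ∈ D, ∃ l, Tendsto (fun n => U n p) atTop (𝓝 l) := fun p hp =>
    cauchySeq_tendsto_of_complete (cauchySeq_of_le_geometric_two (hstep' p hp))
  choose! u hu using hlim
  have hbd : ∀ n, ∀ p ∈ D, ‖U n p - u p‖ ≤ (4 * ρ) / 2 ^ n := by
    intro n p hp
    rw [← dist_eq_norm]
    exact dist_le_of_le_geometric_two_of_tendsto (hstep' p hp) (hu p hp) n
  have h0 : Tendsto (fun n : ℕ => (4 * ρ) / 2 ^ n) atTop (𝓝 0) := by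
    have := (tendsto_pow_atTop_nhds_zero_of_lt_one (r := (1/2:ℝ)) (by norm_num)
      (by norm_num)).const_mul (4 * ρ)
    simp only [mul_zero] at this
    refine this.congr fun n => ?_
    rw [one_div, inv_pow, div_eq_mul_inv]
  have humem : ∀ p ∈ D, u p ∈ closedBall u0 ρ := fun p hp =>
    isClosed_closedBall.mem_of_tendsto (hu p hp) (Eventually.of_forall fun n => hmem n p hp)
  have hudiff : DifferentiableOn ℂ u D :=
    differentiableOn_of_uniform_limit isOpen_ball hdiff h0 hbd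
  refine ⟨u, humem, hudiff, fun p hp => ?_⟩
  have hle : ∀ n, ‖T d u p - u p‖ ≤ (4 * ρ) / 2 ^ n := by
    intro n
    have h1 := T_contr H hNc humem (hmem n) hudiff.continuousOn (hdiff n).continuousOn
      (δ := (4 * ρ) / 2 ^ n) (fun p hp => by rw [norm_sub_rev]; exact hbd n p hp) p hp
    rw [← hUs] at h1
    have h2 := hbd (n + 1) p hp
    calc ‖T d u p - u p‖ = ‖(T d u p - U (n + 1) p) + (U (n + 1) p - u p)‖ := by congr 1; abel
      _ ≤ ‖T d u p - U (n + 1) p‖ + ‖U (n + 1) p - u p‖ := norm_add_le _ _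
      _ ≤ (4 * ρ) / 2 ^ n / 2 + (4 * ρ) / 2 ^ (n + 1) := add_le_add h1 h2
      _ = (4 * ρ) / 2 ^ n := by rw [pow_succ]; field_simp; ring
  have : ‖T d u p - u p‖ ≤ 0 := ge_of_tendsto' h0 hle
  exact sub_eq_zero.1 (norm_le_zero_iff.1 this)

end Crest.Agent.R266.Goursat
end
end

-- ▼ part R266/GouD
section

/-! Row 266, S0404 Step 2 (Goursat problem), part D: the equations. -/

set_option autoImplicit false
set_option linter.unusedSectionVars false
set_option linter.unusedVariables false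
open Set Filter Topology Metric MeasureTheory
open scoped ContDiff Interval

noncomputable section
namespace Crest.Agent.R266.Goursat

variable {S E : Type*} [NormedAddCommGroup S] [NormedSpace ℂ S]
  [NormedAddCommGroup E] [NormedSpace ℂ E]

/-- The Goursat data attached to the projection field `P` and the diagonal values `f`. -/
def gd (P : E → E →L[ℂ] E) (f : S × ℂ → E) : Data S E where
  f := f
  α := fun q => P (f q) (fderiv ℂ f q (0, 1))
  β := fun q => fderiv ℂ f q (0, 1) - P (f q) (fderiv ℂ f q (0, 1))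
  N := fun v => fderiv ℂ P v.1 v.2.2 v.2.1 - fderiv ℂ P v.1 v.2.1 v.2.2

/-- the initial value -/
def uc (P : E → E →L[ℂ] E) (f : S × ℂ → E) (q : S × ℂ) : E × E × E :=
  (f q, (gd P f).α q, (gd P f).β q)

lemma hasDerivAt_slice1 {V : Type*} [NormedAddCommGroup V] [NormedSpace ℂ V]
    {G : S × ℂ × ℂ → V} {p : S × ℂ × ℂ} (h : DifferentiableAt ℂ G p) :
    HasDerivAt (fun z => G (p.1, z, p.2.2)) (fderiv ℂ G p (0, 1, 0)) p.2.1 := by
  have h1 : HasDerivAt (fun z : ℂ => ((p.1, z, p.2.2) : S × ℂ × ℂ)) (0, 1, 0) p.2.1 :=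
    (hasDerivAt_const _ _).prodMk ((hasDerivAt_id _).prodMk (hasDerivAt_const _ _))
  have h2 : HasFDerivAt G (fderiv ℂ G p) (p.1, p.2.1, p.2.2) := h.hasFDerivAt
  exact h2.comp_hasDerivAt _ h1

lemma hasDerivAt_slice2 {V : Type*} [NormedAddCommGroup V] [NormedSpace ℂ V]
    {G : S × ℂ × ℂ → V} {p : S × ℂ × ℂ} (h : DifferentiableAt ℂ G p) :
    HasDerivAt (fun z => G (p.1, p.2.1, z)) (fderiv ℂ G p (0, 0, 1)) p.2.2 := by
  have h1 : HasDerivAt (fun z : ℂ => ((p.1, p.2.1, z) : S × ℂ × ℂ)) (0, 0, 1) p.2.2 :=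
    (hasDerivAt_const _ _).prodMk ((hasDerivAt_const _ _).prodMk (hasDerivAt_id _))
  have h2 : HasFDerivAt G (fderiv ℂ G p) (p.1, p.2.1, p.2.2) := h.hasFDerivAt
  exact h2.comp_hasDerivAt _ h1

lemma hasDerivAt_diag {V : Type*} [NormedAddCommGroup V] [NormedSpace ℂ V]
    {G : S × ℂ × ℂ → V} {s : S} {z : ℂ} (h : DifferentiableAt ℂ G (s, z, z)) :
    HasDerivAt (fun z => G (s, z, z))
      (fderiv ℂ G (s, z, z) (0, 1, 0) + fderiv ℂ G (s, z, z) (0, 0, 1)) z := by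
  have h1 : HasDerivAt (fun z : ℂ => ((s, z, z) : S × ℂ × ℂ)) (0, 1, 1) z :=
    (hasDerivAt_const _ _).prodMk ((hasDerivAt_id _).prodMk (hasDerivAt_id _))
  have h2 := h.hasFDerivAt.comp_hasDerivAt _ h1
  have e : ((0, 1, 1) : S × ℂ × ℂ) = (0, 1, 0) + (0, 0, 1) := by simp
  rw [e, map_add] at h2
  exact h2

lemma mem_D {s0 : S} {z0 : ℂ} {r : ℝ} {s : S} {z1 z2 : ℂ} :
    (s, z1, z2) ∈ ball (s0, z0, z0) r ↔ s ∈ ball s0 r ∧ z1 ∈ ball z0 r ∧ z2 ∈ ball z0 r := by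
  rw [mem_ball, Prod.dist_eq, max_lt_iff, Prod.dist_eq, max_lt_iff]
  rfl

lemma mem_B {s0 : S} {z0 : ℂ} {r : ℝ} {s : S} {z : ℂ} :
    (s, z) ∈ ball (s0, z0) r ↔ s ∈ ball s0 r ∧ z ∈ ball z0 r := by
  rw [mem_ball, Prod.dist_eq, max_lt_iff]
  rfl

/-- symmetric second derivatives -/
lemma mixed_symm {V : Type*} [NormedAddCommGroup V] [NormedSpace ℂ V] [CompleteSpace V]
    {G : S × ℂ × ℂ → V} {p : S × ℂ × ℂ} (h : AnalyticAt ℂ G p) :
    fderiv ℂ (fun q => fderiv ℂ G q (0, 0, 1)) p (0, 1, 0) =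
      fderiv ℂ (fun q => fderiv ℂ G q (0, 1, 0)) p (0, 0, 1) := by
  have hd : DifferentiableAt ℂ (fderiv ℂ G) p := h.fderiv.differentiableAt
  have e1 : ∀ v w : S × ℂ × ℂ, fderiv ℂ (fun q => fderiv ℂ G q v) p w
      = fderiv ℂ (fderiv ℂ G) p w v := by
    intro v w
    have := (hd.hasFDerivAt.clm_apply (hasFDerivAt_const v p)).fderiv
    rw [this]
    simp
  rw [e1, e1]
  have hs : IsSymmSndFDerivAt ℂ G p := by
    apply ContDiffAt.isSymmSndFDerivAt (n := ω)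
    · exact h.contDiffAt
    · simp
  exact hs (0, 1, 0) (0, 0, 1)

section fix
variable [FiniteDimensional ℂ S] [CompleteSpace E]
variable {P : E → E →L[ℂ] E} {f : S × ℂ → E} {s0 : S} {z0 : ℂ} {r : ℝ} {U : Set E}
  {u : S × ℂ × ℂ → E × E × E}

/-- Package of what a holomorphic fixed point satisfies. -/
structure Sol (P : E → E →L[ℂ] E) (f : S × ℂ → E) (s0 : S) (z0 : ℂ) (r : ℝ)
    (u : S × ℂ × ℂ → E × E × E) : Prop where
  d1F : ∀ p ∈ ball (s0, z0, z0) r, fderiv ℂ (fun q => (u q).1) p (0, 1, 0) = (u p).2.1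
  d2a : ∀ p ∈ ball (s0, z0, z0) r, fderiv ℂ (fun q => (u q).2.1) p (0, 0, 1) = (gd P f).N (u p)
  d1b : ∀ p ∈ ball (s0, z0, z0) r, fderiv ℂ (fun q => (u q).2.2) p (0, 1, 0) = (gd P f).N (u p)
  diagF : ∀ s z, (s, z) ∈ ball (s0, z0) r → (u (s, z, z)).1 = f (s, z)
  diaga : ∀ s z, (s, z) ∈ ball (s0, z0) r → (u (s, z, z)).2.1 = (gd P f).α (s, z)
  diagb : ∀ s z, (s, z) ∈ ball (s0, z0) r → (u (s, z, z)).2.2 = (gd P f).β (s, z)

omit [FiniteDimensional ℂ S] in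
lemma sol_of_fix (hud : DifferentiableOn ℂ u (ball (s0, z0, z0) r))
    (hNu : DifferentiableOn ℂ (fun p => (gd P f).N (u p)) (ball (s0, z0, z0) r))
    (hfix : ∀ p ∈ ball (s0, z0, z0) r, T (gd P f) u p = u p) : Sol P f s0 z0 r u := by
  have hdat : ∀ p ∈ ball (s0, z0, z0) r, DifferentiableAt ℂ u p := fun p hp =>
    (hud p hp).differentiableAt (isOpen_ball.mem_nhds hp)
  have hNat : ∀ p ∈ ball (s0, z0, z0) r, DifferentiableAt ℂ (fun p => (gd P f).N (u p)) p :=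
    fun p hp => (hNu p hp).differentiableAt (isOpen_ball.mem_nhds hp)
  -- slices
  have sl1 : ∀ {V : Type _} [NormedAddCommGroup V] [NormedSpace ℂ V] (G : S × ℂ × ℂ → V)
      (hG : ∀ p ∈ ball (s0, z0, z0) r, DifferentiableAt ℂ G p) (s : S) (z2 : ℂ),
      s ∈ ball s0 r → z2 ∈ ball z0 r → DifferentiableOn ℂ (fun z => G (s, z, z2)) (ball z0 r) := by
    intro V _ _ G hG s z2 hs hz2 z hz
    have := hasDerivAt_slice1 (hG (s, z, z2) (mem_D.2 ⟨hs, hz, hz2⟩))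
    exact this.differentiableAt.differentiableWithinAt
  have sl2 : ∀ {V : Type _} [NormedAddCommGroup V] [NormedSpace ℂ V] (G : S × ℂ × ℂ → V)
      (hG : ∀ p ∈ ball (s0, z0, z0) r, DifferentiableAt ℂ G p) (s : S) (z1 : ℂ),
      s ∈ ball s0 r → z1 ∈ ball z0 r → DifferentiableOn ℂ (fun z => G (s, z1, z)) (ball z0 r) := by
    intro V _ _ G hG s z1 hs hz1 z hz
    have := hasDerivAt_slice2 (hG (s, z1, z) (mem_D.2 ⟨hs, hz1, hz⟩))
    exact this.differentiableAt.differentiableWithinAt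
  refine ⟨?_, ?_, ?_, ?_, ?_, ?_⟩
  · rintro ⟨s, z1, z2⟩ hp
    obtain ⟨hs, hz1, hz2⟩ := mem_D.1 hp
    have h1 := hasDerivAt_segment_primitive
      (sl1 (fun p => (u p).2.1) (fun p hp => (hdat p hp).snd.fst) s z2 hs hz2) hz2 hz1
    have h2 := h1.const_add (f (s, z2))
    have h3 : (fun z => f (s, z2) + (z - z2) • ∫ θ in (0:ℝ)..1,
        (u (s, z2 + (θ:ℂ) * (z - z2), z2)).2.1) =ᶠ[𝓝 z1] fun z => (u (s, z, z2)).1 := by
      filter_upwards [isOpen_ball.mem_nhds hz1] with z hz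
      have := congrArg Prod.fst (hfix (s, z, z2) (mem_D.2 ⟨hs, hz, hz2⟩))
      rw [← this]
      simp [T, gd]
    have h4 := h2.congr_of_eventuallyEq h3.symm
    have h5 := hasDerivAt_slice1 (G := fun q => (u q).1) (hdat _ hp).fst
    exact h5.unique h4
  · rintro ⟨s, z1, z2⟩ hp
    obtain ⟨hs, hz1, hz2⟩ := mem_D.1 hp
    have h1 := hasDerivAt_segment_primitive
      (sl2 (fun p => (gd P f).N (u p)) hNat s z1 hs hz1) hz1 hz2
    have h2 := h1.const_add ((gd P f).α (s, z1))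
    have h3 : (fun z => (gd P f).α (s, z1) + (z - z1) • ∫ θ in (0:ℝ)..1,
        (gd P f).N (u (s, z1, z1 + (θ:ℂ) * (z - z1)))) =ᶠ[𝓝 z2] fun z => (u (s, z1, z)).2.1 := by
      filter_upwards [isOpen_ball.mem_nhds hz2] with z hz
      have : _ = _ := congrArg (fun v : E × E × E => v.2.1) (hfix (s, z1, z) (mem_D.2 ⟨hs, hz1, hz⟩))
      rw [← this]
      simp [T]
    have h4 := h2.congr_of_eventuallyEq h3.symm
    have h5 := hasDerivAt_slice2 (G := fun q => (u q).2.1) (hdat _ hp).snd.fst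
    exact h5.unique h4
  · rintro ⟨s, z1, z2⟩ hp
    obtain ⟨hs, hz1, hz2⟩ := mem_D.1 hp
    have h1 := hasDerivAt_segment_primitive
      (sl1 (fun p => (gd P f).N (u p)) hNat s z2 hs hz2) hz2 hz1
    have h2 := h1.const_add ((gd P f).β (s, z2))
    have h3 : (fun z => (gd P f).β (s, z2) + (z - z2) • ∫ θ in (0:ℝ)..1,
        (gd P f).N (u (s, z2 + (θ:ℂ) * (z - z2), z2))) =ᶠ[𝓝 z1] fun z => (u (s, z, z2)).2.2 := by
      filter_upwards [isOpen_ball.mem_nhds hz1] with z hz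
      have : _ = _ := congrArg (fun v : E × E × E => v.2.2) (hfix (s, z, z2) (mem_D.2 ⟨hs, hz, hz2⟩))
      rw [← this]
      simp [T]
    have h4 := h2.congr_of_eventuallyEq h3.symm
    have h5 := hasDerivAt_slice1 (G := fun q => (u q).2.2) (hdat _ hp).snd.snd
    exact h5.unique h4
  · intro s z hsz
    obtain ⟨hs, hz⟩ := mem_B.1 hsz
    have := congrArg Prod.fst (hfix (s, z, z) (mem_D.2 ⟨hs, hz, hz⟩))
    rw [← this]; simp [T, gd]
  · intro s z hsz
    obtain ⟨hs, hz⟩ := mem_B.1 hsz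
    have : _ = _ := congrArg (fun v : E × E × E => v.2.1) (hfix (s, z, z) (mem_D.2 ⟨hs, hz, hz⟩))
    rw [← this]; simp [T]
  · intro s z hsz
    obtain ⟨hs, hz⟩ := mem_B.1 hsz
    have : _ = _ := congrArg (fun v : E × E × E => v.2.2) (hfix (s, z, z) (mem_D.2 ⟨hs, hz, hz⟩))
    rw [← this]; simp [T]

/-- `∂₂F = b`. -/
lemma Sol.d2F (H : Sol P f s0 z0 r u) (hud : DifferentiableOn ℂ u (ball (s0, z0, z0) r))
    (hf : DifferentiableOn ℂ f (ball (s0, z0) r)) :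
    ∀ p ∈ ball (s0, z0, z0) r, fderiv ℂ (fun q => (u q).1) p (0, 0, 1) = (u p).2.2 := by
  have hua : AnalyticOnNhd ℂ u (ball (s0, z0, z0) r) := osgood isOpen_ball hud
  have hFa : ∀ p ∈ ball (s0, z0, z0) r, AnalyticAt ℂ (fun q => (u q).1) p := fun p hp =>
    ((ContinuousLinearMap.fst ℂ E (E × E)).analyticAt _).comp (hua p hp)
  have hdat : ∀ p ∈ ball (s0, z0, z0) r, DifferentiableAt ℂ u p := fun p hp =>
    (hua p hp).differentiableAt
  -- e has zero derivative in the first variable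
  set e : S × ℂ × ℂ → E := fun q => fderiv ℂ (fun q => (u q).1) q (0, 0, 1) - (u q).2.2 with he
  have hG2 : ∀ p ∈ ball (s0, z0, z0) r,
      DifferentiableAt ℂ (fun q => fderiv ℂ (fun q => (u q).1) q (0, 0, 1)) p := by
    intro p hp
    have := (hFa p hp).fderiv.differentiableAt
    exact this.clm_apply (differentiableAt_const _)
  have hed : ∀ p ∈ ball (s0, z0, z0) r, DifferentiableAt ℂ e p := fun p hp =>
    (hG2 p hp).sub (hdat p hp).snd.snd
  have he1 : ∀ p ∈ ball (s0, z0, z0) r, fderiv ℂ e p (0, 1, 0) = 0 := by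
    intro p hp
    have h1 : fderiv ℂ e p = fderiv ℂ (fun q => fderiv ℂ (fun q => (u q).1) q (0, 0, 1)) p
        - fderiv ℂ (fun q => (u q).2.2) p := by
      rw [he]
      exact fderiv_sub (hG2 p hp) (hdat p hp).snd.snd
    rw [h1, _root_.sub_apply, mixed_symm (hFa p hp), H.d1b p hp]
    have h2 : (fun q => fderiv ℂ (fun q => (u q).1) q (0, 1, 0)) =ᶠ[𝓝 p] fun q => (u q).2.1 :=
      eventually_of_mem (isOpen_ball.mem_nhds hp) (fun q hq => H.d1F q hq)
    rw [h2.fderiv_eq, H.d2a p hp, sub_self]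
  rintro ⟨s, z1, z2⟩ hp
  obtain ⟨hs, hz1, hz2⟩ := mem_D.1 hp
  have hconst : e (s, z1, z2) = e (s, z2, z2) := by
    have := segment_integral_eq (g := fun z => e (s, z, z2)) (g' := fun _ => 0) (z0 := z0) (r := r)
      (fun z hz => by
        have h1 := hasDerivAt_slice1 (hed (s, z, z2) (mem_D.2 ⟨hs, hz, hz2⟩))
        rw [he1 (s, z, z2) (mem_D.2 ⟨hs, hz, hz2⟩)] at h1
        exact h1) continuousOn_const hz2 hz1
    simpa using this
  have hdiag : e (s, z2, z2) = 0 := by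
    have hp2 : (s, z2, z2) ∈ ball (s0, z0, z0) r := mem_D.2 ⟨hs, hz2, hz2⟩
    have h1 := hasDerivAt_diag (G := fun q => (u q).1) (hdat _ hp2).fst
    have h2 : (fun z => (u (s, z, z)).1) =ᶠ[𝓝 z2] fun z => f (s, z) := by
      filter_upwards [isOpen_ball.mem_nhds hz2] with z hz
      exact H.diagF s z (mem_B.2 ⟨hs, hz⟩)
    have h3 := h1.congr_of_eventuallyEq h2.symm
    have hfd : HasFDerivAt f (fderiv ℂ f (s, z2)) (s, z2) :=
      ((hf (s, z2) (mem_B.2 ⟨hs, hz2⟩)).differentiableAt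
        (isOpen_ball.mem_nhds (mem_B.2 ⟨hs, hz2⟩))).hasFDerivAt
    have h4 : HasDerivAt (fun z => f (s, z)) (fderiv ℂ f (s, z2) (0, 1)) z2 := by
      have h5 : HasDerivAt (fun z : ℂ => ((s, z) : S × ℂ)) (0, 1) z2 :=
        (hasDerivAt_const _ _).prodMk (hasDerivAt_id _)
      exact hfd.comp_hasDerivAt _ h5
    have h6 := h3.unique h4
    rw [H.d1F _ hp2, H.diaga s z2 (mem_B.2 ⟨hs, hz2⟩)] at h6
    simp only [he]
    rw [H.diagb s z2 (mem_B.2 ⟨hs, hz2⟩)]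
    simp only [gd] at h6 ⊢
    rw [eq_sub_of_add_eq' h6]
    exact sub_self _
  rw [hdiag] at hconst
  exact sub_eq_zero.1 hconst

end fix

end Crest.Agent.R266.Goursat
end
end

-- ▼ part R266/GouE
section

/-! Row 266, S0404 Step 2 (Goursat problem), part E: propagation of the constraints, smallness. -/

set_option autoImplicit false
set_option linter.unusedSectionVars false
set_option linter.unusedVariables false
open Set Filter Topology Metric MeasureTheory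
open scoped ContDiff Interval

noncomputable section
namespace Crest.Agent.R266.Goursat

variable {S E : Type*} [NormedAddCommGroup S] [NormedSpace ℂ S] [FiniteDimensional ℂ S]
  [NormedAddCommGroup E] [NormedSpace ℂ E] [CompleteSpace E]
variable {P : E → E →L[ℂ] E} {f : S × ℂ → E} {s0 : S} {z0 : ℂ} {r : ℝ} {U : Set E}
  {u : S × ℂ × ℂ → E × E × E}

/-- derivative of the idempotency -/
lemma fderiv_idem (hU : IsOpen U) (hP : AnalyticOnNhd ℂ P U)
    (hid : ∀ x ∈ U, ∀ v, P x (P x v) = P x v) {x : E} (hx : x ∈ U) (v w : E) :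
    fderiv ℂ P x v (P x w) + P x (fderiv ℂ P x v w) = fderiv ℂ P x v w := by
  have hd : HasFDerivAt P (fderiv ℂ P x) x := (hP x hx).differentiableAt.hasFDerivAt
  have h1 : HasFDerivAt (fun y => P y w) ((fderiv ℂ P x).flip w) x := by
    have := hd.clm_apply (hasFDerivAt_const w x)
    simpa using this
  have h2 := hd.clm_apply h1
  have h3 : (fun y => P y (P y w)) =ᶠ[𝓝 x] fun y => P y w :=
    eventually_of_mem (hU.mem_nhds hx) (fun y hy => hid y hy w)
  have h4 := (h2.congr_of_eventuallyEq h3.symm).unique h1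
  have h5 := congrArg (fun L => L v) h4
  simp only [_root_.add_apply, ContinuousLinearMap.comp_apply, ContinuousLinearMap.flip_apply] at h5
  rw [add_comm]
  exact h5

lemma propagate (hU : IsOpen U) (hP : AnalyticOnNhd ℂ P U)
    (hid : ∀ x ∈ U, ∀ v, P x (P x v) = P x v)
    (H : Sol P f s0 z0 r u) (hud : DifferentiableOn ℂ u (ball (s0, z0, z0) r))
    (hf : DifferentiableOn ℂ f (ball (s0, z0) r))
    (huU : ∀ p ∈ ball (s0, z0, z0) r, (u p).1 ∈ U)
    {B C : ℝ} (hB : 0 ≤ B) (hC : 0 ≤ C) (hr : 0 < r)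
    (hbu : ∀ p ∈ ball (s0, z0, z0) r, ‖u p‖ ≤ B)
    (hbP : ∀ p ∈ ball (s0, z0, z0) r, ‖P (u p).1‖ ≤ C)
    (hbD : ∀ p ∈ ball (s0, z0, z0) r, ‖fderiv ℂ P (u p).1‖ ≤ C)
    (hsmall : 2 * r * (2 * (C * B)) ≤ 1 / 2) :
    ∀ p ∈ ball (s0, z0, z0) r, P (u p).1 (u p).2.1 = (u p).2.1 ∧ P (u p).1 (u p).2.2 = 0 := by
  set D := ball (s0, z0, z0) r with hD
  have hd2F := H.d2F hud hf
  have hdat : ∀ p ∈ D, DifferentiableAt ℂ u p := fun p hp =>
    (hud p hp).differentiableAt (isOpen_ball.mem_nhds hp)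
  set A : S × ℂ × ℂ → E := fun p => (u p).2.1 - P (u p).1 (u p).2.1 with hA
  set Bq : S × ℂ × ℂ → E := fun p => P (u p).1 (u p).2.2 with hBq
  set R : S × ℂ × ℂ → E := fun p =>
    fderiv ℂ P (u p).1 (u p).2.2 (A p) + fderiv ℂ P (u p).1 (u p).2.1 (Bq p) with hR
  -- derivative computations
  have hPu : ∀ p ∈ D, HasFDerivAt (fun q => P (u q).1)
      ((fderiv ℂ P (u p).1).comp (fderiv ℂ (fun q => (u q).1) p)) p := by
    intro p hp
    exact ((hP _ (huU p hp)).differentiableAt.hasFDerivAt).comp p ((hdat p hp).fst.hasFDerivAt)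
  have hAd : ∀ p ∈ D, DifferentiableAt ℂ A p := by
    intro p hp
    exact (hdat p hp).snd.fst.sub ((hPu p hp).differentiableAt.clm_apply (hdat p hp).snd.fst)
  have hBd : ∀ p ∈ D, DifferentiableAt ℂ Bq p := by
    intro p hp
    exact (hPu p hp).differentiableAt.clm_apply (hdat p hp).snd.snd
  have hA2 : ∀ p ∈ D, fderiv ℂ A p (0, 0, 1) = - R p := by
    intro p hp
    have h1 := (hdat p hp).snd.fst.hasFDerivAt
    have h2a : HasFDerivAt A _ p := h1.sub ((hPu p hp).clm_apply h1)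
    have h2 := h2a.fderiv
    have h3 : fderiv ℂ A p (0, 0, 1) = fderiv ℂ (fun q => (u q).2.1) p (0, 0, 1)
        - (P (u p).1 (fderiv ℂ (fun q => (u q).2.1) p (0, 0, 1))
          + fderiv ℂ P (u p).1 (fderiv ℂ (fun q => (u q).1) p (0, 0, 1)) (u p).2.1) := by
      have := congrArg (fun L => L (0, 0, 1)) h2
      simpa using this
    rw [h3, hd2F p hp, H.d2a p hp]
    simp only [gd, hR, hA, hBq]
    have e1 := fderiv_idem hU hP hid (huU p hp) (u p).2.2 (u p).2.1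
    have e2 := fderiv_idem hU hP hid (huU p hp) (u p).2.1 (u p).2.2
    rw [map_sub, map_sub]
    set Q1 := fderiv ℂ P (u p).1 (u p).2.2
    set Q2 := fderiv ℂ P (u p).1 (u p).2.1
    have e1' : Q1 (P (u p).1 (u p).2.1) = Q1 (u p).2.1 - P (u p).1 (Q1 (u p).2.1) :=
      eq_sub_of_add_eq e1
    have e2' : Q2 (P (u p).1 (u p).2.2) = Q2 (u p).2.2 - P (u p).1 (Q2 (u p).2.2) :=
      eq_sub_of_add_eq e2
    rw [e1', e2']
    abel
  have hB1 : ∀ p ∈ D, fderiv ℂ Bq p (0, 1, 0) = R p := by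
    intro p hp
    have h1 := (hdat p hp).snd.snd.hasFDerivAt
    have h2 := ((hPu p hp).clm_apply h1).fderiv
    have h3 : fderiv ℂ Bq p (0, 1, 0) = 
        (P (u p).1 (fderiv ℂ (fun q => (u q).2.2) p (0, 1, 0))
          + fderiv ℂ P (u p).1 (fderiv ℂ (fun q => (u q).1) p (0, 1, 0)) (u p).2.2) := by
      have := congrArg (fun L => L (0, 1, 0)) h2
      simpa using this
    rw [h3, H.d1F p hp, H.d1b p hp]
    simp only [gd, hR, hA, hBq]
    have e1 := fderiv_idem hU hP hid (huU p hp) (u p).2.2 (u p).2.1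
    have e2 := fderiv_idem hU hP hid (huU p hp) (u p).2.1 (u p).2.2
    rw [map_sub, map_sub]
    set Q1 := fderiv ℂ P (u p).1 (u p).2.2
    set Q2 := fderiv ℂ P (u p).1 (u p).2.1
    have e1' : Q1 (P (u p).1 (u p).2.1) = Q1 (u p).2.1 - P (u p).1 (Q1 (u p).2.1) :=
      eq_sub_of_add_eq e1
    have e2' : Q2 (P (u p).1 (u p).2.2) = Q2 (u p).2.2 - P (u p).1 (Q2 (u p).2.2) :=
      eq_sub_of_add_eq e2
    rw [e1', e2']
    abel
  have hRc : ContinuousOn R D := by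
    have c1 : ContinuousOn (fun p => fderiv ℂ P (u p).1) D := by
      have : ContinuousOn (fderiv ℂ P) U := fun x hx => (hP.fderiv x hx).continuousAt.continuousWithinAt
      exact this.comp hud.continuousOn.fst huU
    have cA : ContinuousOn A D := fun p hp => (hAd p hp).continuousAt.continuousWithinAt
    have cB : ContinuousOn Bq D := fun p hp => (hBd p hp).continuousAt.continuousWithinAt
    exact ((c1.clm_apply hud.continuousOn.snd.snd).clm_apply cA).add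
      ((c1.clm_apply hud.continuousOn.snd.fst).clm_apply cB)
  have hRb : ∀ p ∈ D, ∀ m, ‖A p‖ ≤ m → ‖Bq p‖ ≤ m → ‖R p‖ ≤ 2 * (C * B) * m := by
    intro p hp m h1 h2
    have hm : 0 ≤ m := (norm_nonneg _).trans h1
    have hu1 : ‖(u p).2.1‖ ≤ B := ((norm_fst_le _).trans (norm_snd_le _)).trans (hbu p hp)
    have hu2 : ‖(u p).2.2‖ ≤ B := ((norm_snd_le _).trans (norm_snd_le _)).trans (hbu p hp)
    calc ‖R p‖ ≤ ‖fderiv ℂ P (u p).1 (u p).2.2 (A p)‖ + ‖fderiv ℂ P (u p).1 (u p).2.1 (Bq p)‖ :=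
          norm_add_le _ _
      _ ≤ ‖fderiv ℂ P (u p).1‖ * ‖(u p).2.2‖ * ‖A p‖ + ‖fderiv ℂ P (u p).1‖ * ‖(u p).2.1‖ * ‖Bq p‖ := by
          gcongr
          · exact ContinuousLinearMap.le_opNorm₂ _ _ _
          · exact ContinuousLinearMap.le_opNorm₂ _ _ _
      _ ≤ C * B * m + C * B * m := by
          gcongr
          · exact hbD p hp
          · exact hbD p hp
      _ = 2 * (C * B) * m := by ring
  -- zero on the diagonal
  have hAdiag : ∀ s z, (s, z) ∈ ball (s0, z0) r → A (s, z, z) = 0 := by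
    intro s z hsz
    obtain ⟨hs, hz⟩ := mem_B.1 hsz
    have hp : (s, z, z) ∈ D := mem_D.2 ⟨hs, hz, hz⟩
    have hUf : f (s, z) ∈ U := by rw [← H.diagF s z hsz]; exact huU _ hp
    simp only [hA, H.diaga s z hsz, H.diagF s z hsz, gd]
    rw [hid _ hUf, sub_self]
  have hBdiag : ∀ s z, (s, z) ∈ ball (s0, z0) r → Bq (s, z, z) = 0 := by
    intro s z hsz
    obtain ⟨hs, hz⟩ := mem_B.1 hsz
    have hp : (s, z, z) ∈ D := mem_D.2 ⟨hs, hz, hz⟩
    have hUf : f (s, z) ∈ U := by rw [← H.diagF s z hsz]; exact huU _ hp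
    simp only [hBq, H.diagb s z hsz, H.diagF s z hsz, gd]
    rw [map_sub, hid _ hUf, sub_self]
  -- iteration
  have hA0 : ∀ p ∈ D, ‖A p‖ ≤ B + C * B := by
    intro p hp
    have hu1 : ‖(u p).2.1‖ ≤ B := ((norm_fst_le _).trans (norm_snd_le _)).trans (hbu p hp)
    calc ‖A p‖ ≤ ‖(u p).2.1‖ + ‖P (u p).1 (u p).2.1‖ := norm_sub_le _ _
      _ ≤ ‖(u p).2.1‖ + ‖P (u p).1‖ * ‖(u p).2.1‖ := by gcongr; exact ContinuousLinearMap.le_opNorm _ _
      _ ≤ B + C * B := by gcongr; exact hbP p hp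
  have hB0 : ∀ p ∈ D, ‖Bq p‖ ≤ B + C * B := by
    intro p hp
    have hu2 : ‖(u p).2.2‖ ≤ B := ((norm_snd_le _).trans (norm_snd_le _)).trans (hbu p hp)
    calc ‖Bq p‖ ≤ ‖P (u p).1‖ * ‖(u p).2.2‖ := ContinuousLinearMap.le_opNorm _ _
      _ ≤ C * B := by gcongr; exact hbP p hp
      _ ≤ B + C * B := by linarith
  have key : ∀ n : ℕ, ∀ p ∈ D, ‖A p‖ ≤ (B + C * B) / 2 ^ n ∧ ‖Bq p‖ ≤ (B + C * B) / 2 ^ n := by
    intro n
    induction n with
    | zero => intro p hp; simpa using ⟨hA0 p hp, hB0 p hp⟩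
    | succ n ih =>
      have hm0 : 0 ≤ (B + C * B) / 2 ^ n := by positivity
      have hRn : ∀ q ∈ D, ‖R q‖ ≤ 2 * (C * B) * ((B + C * B) / 2 ^ n) := fun q hq =>
        hRb q hq _ (ih q hq).1 (ih q hq).2
      rintro ⟨s, z1, z2⟩ hp
      obtain ⟨hs, hz1, hz2⟩ := mem_D.1 hp
      have hsub : ‖z1 - z2‖ ≤ 2 * r := sub_le_of_mem hp
      have hsub' : ‖z2 - z1‖ ≤ 2 * r := by rw [norm_sub_rev]; exact hsub
      have fin : (2 * r) * (2 * (C * B) * ((B + C * B) / 2 ^ n)) ≤ (B + C * B) / 2 ^ (n + 1) := by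
        calc (2 * r) * (2 * (C * B) * ((B + C * B) / 2 ^ n))
            = (2 * r * (2 * (C * B))) * ((B + C * B) / 2 ^ n) := by ring
          _ ≤ (1 / 2) * ((B + C * B) / 2 ^ n) := by gcongr
          _ = (B + C * B) / 2 ^ (n + 1) := by rw [pow_succ]; field_simp
      constructor
      · have h1 := segment_integral_eq (g := fun z => A (s, z1, z)) (g' := fun z => - R (s, z1, z))
          (z0 := z0) (r := r) (fun z hz => by
            have hq : (s, z1, z) ∈ D := mem_D.2 ⟨hs, hz1, hz⟩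
            have h1 := hasDerivAt_slice2 (hAd _ hq)
            rw [hA2 _ hq] at h1
            exact h1)
          ((hRc.comp (by fun_prop) (fun z hz => mem_D.2 ⟨hs, hz1, hz⟩)).neg) hz1 hz2
        rw [hAdiag s z1 (mem_B.2 ⟨hs, hz1⟩), zero_add] at h1
        rw [h1, norm_smul]
        refine le_trans ?_ fin
        gcongr
        apply norm_int_le
        intro θ hθ
        rw [norm_neg]
        apply hRn
        have := (convex_ball z0 r).add_smul_sub_mem hz1 hz2 hθ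
        exact mem_D.2 ⟨hs, hz1, by simpa using this⟩
      · have h1 := segment_integral_eq (g := fun z => Bq (s, z, z2)) (g' := fun z => R (s, z, z2))
          (z0 := z0) (r := r) (fun z hz => by
            have hq : (s, z, z2) ∈ D := mem_D.2 ⟨hs, hz, hz2⟩
            have h1 := hasDerivAt_slice1 (hBd _ hq)
            rw [hB1 _ hq] at h1
            exact h1)
          (hRc.comp (by fun_prop) (fun z hz => mem_D.2 ⟨hs, hz, hz2⟩)) hz2 hz1
        rw [hBdiag s z2 (mem_B.2 ⟨hs, hz2⟩), zero_add] at h1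
        rw [h1, norm_smul]
        refine le_trans ?_ fin
        gcongr
        apply norm_int_le
        intro θ hθ
        apply hRn
        have := (convex_ball z0 r).add_smul_sub_mem hz2 hz1 hθ
        exact mem_D.2 ⟨hs, by simpa using this, hz2⟩
  intro p hp
  have h0 : Tendsto (fun n : ℕ => (B + C * B) / 2 ^ n) atTop (𝓝 0) := by
    have := (tendsto_pow_atTop_nhds_zero_of_lt_one (r := (1/2:ℝ)) (by norm_num)
      (by norm_num)).const_mul (B + C * B)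
    simp only [mul_zero] at this
    refine this.congr fun n => ?_
    rw [one_div, inv_pow, div_eq_mul_inv]
  have hA' : ‖A p‖ ≤ 0 := ge_of_tendsto' h0 (fun n => (key n p hp).1)
  have hB' : ‖Bq p‖ ≤ 0 := ge_of_tendsto' h0 (fun n => (key n p hp).2)
  exact ⟨(sub_eq_zero.1 (norm_le_zero_iff.1 hA')).symm, norm_le_zero_iff.1 hB'⟩

/-- Converse: an analytic solution of the Goursat problem is a fixed point. -/
lemma fix_of_solution (hU : IsOpen U) (hP : AnalyticOnNhd ℂ P U)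
    {F : S × ℂ × ℂ → E} (hF : AnalyticOnNhd ℂ F (ball (s0, z0, z0) r))
    (hFU : ∀ p ∈ ball (s0, z0, z0) r, F p ∈ U)
    (h1 : ∀ p ∈ ball (s0, z0, z0) r, P (F p) (fderiv ℂ F p (0, 1, 0)) = fderiv ℂ F p (0, 1, 0))
    (h2 : ∀ p ∈ ball (s0, z0, z0) r, P (F p) (fderiv ℂ F p (0, 0, 1)) = 0)
    (hf : ∀ s z, (s, z) ∈ ball (s0, z0) r → F (s, z, z) = f (s, z))
    (hfd : DifferentiableOn ℂ f (ball (s0, z0) r)) :
    ∀ p ∈ ball (s0, z0, z0) r,
      T (gd P f) (fun p => (F p, fderiv ℂ F p (0, 1, 0), fderiv ℂ F p (0, 0, 1))) p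
        = (F p, fderiv ℂ F p (0, 1, 0), fderiv ℂ F p (0, 0, 1)) := by
  set D := ball (s0, z0, z0) r with hD
  set a : S × ℂ × ℂ → E := fun p => fderiv ℂ F p (0, 1, 0) with ha
  set b : S × ℂ × ℂ → E := fun p => fderiv ℂ F p (0, 0, 1) with hb
  have haa : AnalyticOnNhd ℂ a D := fun p hp => by
    have := (hF.fderiv p hp)
    exact ((ContinuousLinearMap.apply ℂ E ((0, 1, 0) : S × ℂ × ℂ)).analyticAt _).comp this
  have hba : AnalyticOnNhd ℂ b D := fun p hp => by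
    have := (hF.fderiv p hp)
    exact ((ContinuousLinearMap.apply ℂ E ((0, 0, 1) : S × ℂ × ℂ)).analyticAt _).comp this
  have hmix : ∀ p ∈ D, fderiv ℂ b p (0, 1, 0) = fderiv ℂ a p (0, 0, 1) := fun p hp =>
    mixed_symm (hF p hp)
  have hFd : ∀ p ∈ D, HasFDerivAt F (fderiv ℂ F p) p := fun p hp =>
    (hF p hp).differentiableAt.hasFDerivAt
  have hPu : ∀ p ∈ D, HasFDerivAt (fun q => P (F q))
      ((fderiv ℂ P (F p)).comp (fderiv ℂ F p)) p := by
    intro p hp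
    exact ((hP _ (hFU p hp)).differentiableAt.hasFDerivAt).comp p (hFd p hp)
  have hN : ∀ p ∈ D, fderiv ℂ a p (0, 0, 1)
      = fderiv ℂ P (F p) (b p) (a p) - fderiv ℂ P (F p) (a p) (b p) := by
    intro p hp
    -- differentiate P a = a in direction 2
    have e1 := ((hPu p hp).clm_apply (haa p hp).differentiableAt.hasFDerivAt).fderiv
    have g1 : (fun q => P (F q) (a q)) =ᶠ[𝓝 p] a :=
      eventually_of_mem (isOpen_ball.mem_nhds hp) (fun q hq => h1 q hq)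
    have e1' : fderiv ℂ a p (0, 0, 1) = P (F p) (fderiv ℂ a p (0, 0, 1))
        + fderiv ℂ P (F p) (b p) (a p) := by
      have := congrArg (fun L => L (0, 0, 1)) (g1.fderiv_eq.symm.trans e1)
      simpa using this
    -- differentiate P b = 0 in direction 1
    have e2 := ((hPu p hp).clm_apply (hba p hp).differentiableAt.hasFDerivAt).fderiv
    have g2 : (fun q => P (F q) (b q)) =ᶠ[𝓝 p] fun _ => 0 :=
      eventually_of_mem (isOpen_ball.mem_nhds hp) (fun q hq => h2 q hq)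
    have e2' : 0 = P (F p) (fderiv ℂ b p (0, 1, 0))
        + fderiv ℂ P (F p) (a p) (b p) := by
      have := congrArg (fun L => L (0, 1, 0)) (g2.fderiv_eq.symm.trans e2)
      simpa using this
    rw [hmix p hp] at e2'
    have e3 : P (F p) (fderiv ℂ a p (0, 0, 1)) = - fderiv ℂ P (F p) (a p) (b p) :=
      eq_neg_of_add_eq_zero_left e2'.symm
    rw [e3] at e1'
    rw [e1']
    abel
  -- diagonal values
  have hdiag : ∀ s z, (s, z) ∈ ball (s0, z0) r →
      fderiv ℂ f (s, z) (0, 1) = a (s, z, z) + b (s, z, z) := by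
    intro s z hsz
    obtain ⟨hs, hz⟩ := mem_B.1 hsz
    have hp2 : (s, z, z) ∈ D := mem_D.2 ⟨hs, hz, hz⟩
    have h1 := hasDerivAt_diag (G := F) (hF _ hp2).differentiableAt
    have h2 : (fun z => F (s, z, z)) =ᶠ[𝓝 z] fun z => f (s, z) := by
      filter_upwards [isOpen_ball.mem_nhds hz] with w hw
      exact hf s w (mem_B.2 ⟨hs, hw⟩)
    have h3 := h1.congr_of_eventuallyEq h2.symm
    have hfd' : HasFDerivAt f (fderiv ℂ f (s, z)) (s, z) :=
      ((hfd (s, z) hsz).differentiableAt (isOpen_ball.mem_nhds hsz)).hasFDerivAt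
    have h4 : HasDerivAt (fun z => f (s, z)) (fderiv ℂ f (s, z) (0, 1)) z := by
      have h5 : HasDerivAt (fun z : ℂ => ((s, z) : S × ℂ)) (0, 1) z :=
        (hasDerivAt_const _ _).prodMk (hasDerivAt_id _)
      exact hfd'.comp_hasDerivAt _ h5
    exact h4.unique h3
  have hαd : ∀ s z, (s, z) ∈ ball (s0, z0) r → (gd P f).α (s, z) = a (s, z, z) := by
    intro s z hsz
    obtain ⟨hs, hz⟩ := mem_B.1 hsz
    have hp2 : (s, z, z) ∈ D := mem_D.2 ⟨hs, hz, hz⟩
    simp only [gd]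
    rw [hdiag s z hsz, ← hf s z hsz, map_add]
    have e1 : P (F (s, z, z)) (a (s, z, z)) = a (s, z, z) := h1 _ hp2
    have e2 : P (F (s, z, z)) (b (s, z, z)) = 0 := h2 _ hp2
    rw [e1, e2, add_zero]
  have hβd : ∀ s z, (s, z) ∈ ball (s0, z0) r → (gd P f).β (s, z) = b (s, z, z) := by
    intro s z hsz
    have h := hαd s z hsz
    simp only [gd] at h ⊢
    rw [h, hdiag s z hsz]
    abel
  rintro ⟨s, z1, z2⟩ hp
  obtain ⟨hs, hz1, hz2⟩ := mem_D.1 hp
  have m1 : ∀ z ∈ ball z0 r, (s, z, z2) ∈ D := fun z hz => mem_D.2 ⟨hs, hz, hz2⟩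
  have m2 : ∀ z ∈ ball z0 r, (s, z1, z) ∈ D := fun z hz => mem_D.2 ⟨hs, hz1, hz⟩
  have f1 := segment_integral_eq (g := fun z => F (s, z, z2)) (g' := fun z => a (s, z, z2))
    (z0 := z0) (r := r) (fun z hz => hasDerivAt_slice1 (hF _ (m1 z hz)).differentiableAt)
    (haa.continuousOn.comp (by fun_prop) m1) hz2 hz1
  have f2 := segment_integral_eq (g := fun z => a (s, z1, z))
    (g' := fun z => (gd P f).N (F (s, z1, z), a (s, z1, z), b (s, z1, z)))
    (z0 := z0) (r := r) (fun z hz => by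
      have h := hasDerivAt_slice2 (haa _ (m2 z hz)).differentiableAt
      rw [hN _ (m2 z hz)] at h
      exact h)
    (by
      have c0 : ContinuousOn (fun z => fderiv ℂ P (F (s, z1, z))) (ball z0 r) := by
        have : ContinuousOn (fderiv ℂ P) U := fun x hx =>
          (hP.fderiv x hx).continuousAt.continuousWithinAt
        exact this.comp (hF.continuousOn.comp (by fun_prop) m2) (fun z hz => hFU _ (m2 z hz))
      have ca : ContinuousOn (fun z => a (s, z1, z)) (ball z0 r) :=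
        haa.continuousOn.comp (by fun_prop) m2
      have cb : ContinuousOn (fun z => b (s, z1, z)) (ball z0 r) :=
        hba.continuousOn.comp (by fun_prop) m2
      exact ((c0.clm_apply cb).clm_apply ca).sub ((c0.clm_apply ca).clm_apply cb)) hz1 hz2
  have f3 := segment_integral_eq (g := fun z => b (s, z, z2))
    (g' := fun z => (gd P f).N (F (s, z, z2), a (s, z, z2), b (s, z, z2)))
    (z0 := z0) (r := r) (fun z hz => by
      have h := hasDerivAt_slice1 (hba _ (m1 z hz)).differentiableAt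
      rw [hmix _ (m1 z hz), hN _ (m1 z hz)] at h
      exact h)
    (by
      have c0 : ContinuousOn (fun z => fderiv ℂ P (F (s, z, z2))) (ball z0 r) := by
        have : ContinuousOn (fderiv ℂ P) U := fun x hx =>
          (hP.fderiv x hx).continuousAt.continuousWithinAt
        exact this.comp (hF.continuousOn.comp (by fun_prop) m1) (fun z hz => hFU _ (m1 z hz))
      have ca : ContinuousOn (fun z => a (s, z, z2)) (ball z0 r) :=
        haa.continuousOn.comp (by fun_prop) m1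
      have cb : ContinuousOn (fun z => b (s, z, z2)) (ball z0 r) :=
        hba.continuousOn.comp (by fun_prop) m1
      exact ((c0.clm_apply cb).clm_apply ca).sub ((c0.clm_apply ca).clm_apply cb)) hz2 hz1
  rw [T]
  simp only [L1_apply, L2_apply]
  rw [hαd s z1 (mem_B.2 ⟨hs, hz1⟩), hβd s z2 (mem_B.2 ⟨hs, hz2⟩)]
  rw [hf s z2 (mem_B.2 ⟨hs, hz2⟩)] at f1
  exact Prod.ext f1.symm (Prod.ext f2.symm f3.symm)

end Crest.Agent.R266.Goursat
end
end

-- ▼ part R266/Goursat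
section

/-! Row 266, S0404 Step 2 (Goursat problem): final local existence and uniqueness theorems. -/

set_option autoImplicit false
set_option linter.unusedSectionVars false
set_option linter.unusedVariables false
open Set Filter Topology Metric MeasureTheory
open scoped ContDiff Interval

noncomputable section
namespace Crest.Agent.R266.Goursat

variable {S E : Type*} [NormedAddCommGroup S] [NormedSpace ℂ S] [FiniteDimensional ℂ S]
  [NormedAddCommGroup E] [NormedSpace ℂ E] [CompleteSpace E]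

/-- everything needed on a small ball -/
structure Pack (P : E → E →L[ℂ] E) (U : Set E) (f : S × ℂ → E) (s0 : S) (z0 : ℂ)
    (ρ K M C r : ℝ) : Prop where
  small : Small (gd P f) s0 z0 r (uc P f (s0, z0)) ρ K M
  fan : AnalyticOnNhd ℂ f (ball (s0, z0) r)
  αd : DifferentiableOn ℂ (gd P f).α (ball (s0, z0) r)
  βd : DifferentiableOn ℂ (gd P f).β (ball (s0, z0) r)
  sub : closedBall (uc P f (s0, z0)) ρ ⊆ U ×ˢ univ
  bP : ∀ v ∈ closedBall (uc P f (s0, z0)) ρ, ‖P v.1‖ ≤ C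
  bD : ∀ v ∈ closedBall (uc P f (s0, z0)) ρ, ‖fderiv ℂ P v.1‖ ≤ C
  hC : 0 ≤ C
  small5 : 2 * r * (2 * (C * (‖uc P f (s0, z0)‖ + ρ))) ≤ 1 / 2

lemma ev_small (a b : ℝ) (hb : 0 < b) : ∀ᶠ r in 𝓝[>] (0:ℝ), 2 * r * a ≤ b := by
  have h : Tendsto (fun r : ℝ => 2 * r * a) (𝓝[>] (0:ℝ)) (𝓝 (2 * 0 * a)) :=
    ((Continuous.tendsto (by fun_prop) 0)).mono_left nhdsWithin_le_nhds
  simp only [mul_zero, zero_mul] at h
  exact (h.eventually (gt_mem_nhds hb)).mono fun r hr => le_of_lt hr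

lemma ev_ball {W : Type*} [PseudoMetricSpace W] {c : W} {t : Set W} (ht : t ∈ 𝓝 c) :
    ∀ᶠ r in 𝓝[>] (0:ℝ), ball c r ⊆ t := by
  obtain ⟨δ, hδ, h⟩ := Metric.mem_nhds_iff.1 ht
  filter_upwards [Ioo_mem_nhdsGT hδ] with r hr
  exact (ball_subset_ball hr.2.le).trans h

lemma differentiableOn_N {P : E → E →L[ℂ] E} {U : Set E} (hU : IsOpen U)
    (hP : AnalyticOnNhd ℂ P U) (f : S × ℂ → E) :
    ∀ v ∈ U ×ˢ (univ : Set (E × E)), ContDiffAt ℂ 1 (gd P f).N v := by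
  intro v hv
  have h0 : ContDiffAt ℂ 1 (fderiv ℂ P) v.1 := (hP.fderiv v.1 hv.1).contDiffAt
  have h1 : ContDiffAt ℂ 1 (fun w : E × E × E => fderiv ℂ P w.1) v :=
    h0.comp v contDiffAt_fst
  have h2 : ContDiffAt ℂ 1 (fun w : E × E × E => w.2.1) v :=
    contDiffAt_fst.comp v contDiffAt_snd
  have h3 : ContDiffAt ℂ 1 (fun w : E × E × E => w.2.2) v :=
    contDiffAt_snd.comp v contDiffAt_snd
  exact ((h1.clm_apply h3).clm_apply h2).sub ((h1.clm_apply h2).clm_apply h3)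

lemma exists_pack {P : E → E →L[ℂ] E} {U : Set E} (hU : IsOpen U) (hP : AnalyticOnNhd ℂ P U)
    {f : S × ℂ → E} {s0 : S} {z0 : ℂ} (hf : AnalyticAt ℂ f (s0, z0)) (hfU : f (s0, z0) ∈ U) :
    ∃ ρ K M C : ℝ, 0 < ρ ∧ ∀ᶠ r in 𝓝[>] (0:ℝ), Pack P U f s0 z0 ρ K M C r := by
  set u0 : E × E × E := uc P f (s0, z0) with hu0
  have hu0U : u0 ∈ U ×ˢ (univ : Set (E × E)) := ⟨hfU, mem_univ _⟩
  have hN := differentiableOn_N hU hP f u0 hu0U
  obtain ⟨K, t, ht, hK⟩ := hN.exists_lipschitzOnWith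
  have hNc : ContinuousAt (gd P f).N u0 := hN.continuousAt
  set M : ℝ := ‖(gd P f).N u0‖ + 1 with hM
  have e1 : ∀ᶠ v in 𝓝 u0, ‖(gd P f).N v‖ ≤ M :=
    (hNc.norm.eventually (gt_mem_nhds (lt_add_one _))).mono fun v hv => le_of_lt hv
  set C : ℝ := max (‖P (f (s0, z0))‖ + 1) (‖fderiv ℂ P (f (s0, z0))‖ + 1) with hC
  have cP : ContinuousAt (fun v : E × E × E => P v.1) u0 :=
    ContinuousAt.comp (f := Prod.fst) (hP _ hfU).continuousAt continuousAt_fst
  have cD : ContinuousAt (fun v : E × E × E => ‖fderiv ℂ P v.1‖) u0 :=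
    ContinuousAt.comp (g := fun x => ‖fderiv ℂ P x‖) (f := Prod.fst)
      (hP.fderiv _ hfU).continuousAt.norm continuousAt_fst
  have e2 : ∀ᶠ v in 𝓝 u0, ‖P v.1‖ ≤ C := by
    filter_upwards [cP.norm.eventually (gt_mem_nhds (lt_add_one _))] with v hv
    exact (le_of_lt hv).trans (le_max_left (‖P (f (s0, z0))‖ + 1) _)
  have e3 : ∀ᶠ v in 𝓝 u0, ‖fderiv ℂ P v.1‖ ≤ C := by
    filter_upwards [cD.eventually (gt_mem_nhds (lt_add_one _))] with v hv
    exact (le_of_lt hv).trans (le_max_right _ (‖fderiv ℂ P (f (s0, z0))‖ + 1))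
  have e4 : ∀ᶠ v in 𝓝 u0, v ∈ U ×ˢ (univ : Set (E × E)) :=
    (hU.prod isOpen_univ).mem_nhds hu0U
  obtain ⟨ρ, hρ, hsub⟩ := Metric.nhds_basis_closedBall.mem_iff.1
    (Filter.inter_mem ht (Filter.inter_mem e1 (Filter.inter_mem e2 (Filter.inter_mem e3 e4))))
  refine ⟨ρ, K, M, C, hρ, ?_⟩
  have hC0 : 0 ≤ C := (by positivity : (0:ℝ) ≤ ‖P (f (s0, z0))‖ + 1).trans (le_max_left _ _)
  -- regularity of the data
  have hfan : ∀ᶠ q in 𝓝 (s0, z0), AnalyticAt ℂ f q := hf.eventually_analyticAt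
  have hfU' : ∀ᶠ q in 𝓝 (s0, z0), f q ∈ U := hf.continuousAt.eventually (hU.mem_nhds hfU)
  have hα : ∀ q, AnalyticAt ℂ f q → f q ∈ U → DifferentiableAt ℂ (gd P f).α q := by
    intro q h1 h2
    have d1 : DifferentiableAt ℂ (fun q => P (f q)) q :=
      (hP _ h2).differentiableAt.comp q h1.differentiableAt
    have d2 : DifferentiableAt ℂ (fun q => fderiv ℂ f q (0, 1)) q :=
      h1.fderiv.differentiableAt.clm_apply (differentiableAt_const _)
    exact d1.clm_apply d2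
  have hβ : ∀ q, AnalyticAt ℂ f q → f q ∈ U → DifferentiableAt ℂ (gd P f).β q := by
    intro q h1 h2
    have d1 : DifferentiableAt ℂ (fun q => P (f q)) q :=
      (hP _ h2).differentiableAt.comp q h1.differentiableAt
    have d2 : DifferentiableAt ℂ (fun q => fderiv ℂ f q (0, 1)) q :=
      h1.fderiv.differentiableAt.clm_apply (differentiableAt_const _)
    exact d2.sub (d1.clm_apply d2)
  have hball : ∀ᶠ r in 𝓝[>] (0:ℝ), ball (s0, z0) r ⊆ {q | AnalyticAt ℂ f q ∧ f q ∈ U} :=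
    ev_ball (hfan.and hfU')
  -- data closeness
  have hcont : ContinuousAt (fun p : S × ℂ × ℂ =>
      ((f (p.1, p.2.2), (gd P f).α (p.1, p.2.1), (gd P f).β (p.1, p.2.2)) : E × E × E))
      (s0, z0, z0) := by
    have c1 : ContinuousAt (fun p : S × ℂ × ℂ => (p.1, p.2.1)) (s0, z0, z0) := by fun_prop
    have c2 : ContinuousAt (fun p : S × ℂ × ℂ => (p.1, p.2.2)) (s0, z0, z0) := by fun_prop
    refine ContinuousAt.prodMk ?_ (ContinuousAt.prodMk ?_ ?_)
    · exact ContinuousAt.comp (f := fun p : S × ℂ × ℂ => (p.1, p.2.2)) hf.continuousAt c2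
    · exact ContinuousAt.comp (f := fun p : S × ℂ × ℂ => (p.1, p.2.1)) (hα _ hf hfU).continuousAt c1
    · exact ContinuousAt.comp (f := fun p : S × ℂ × ℂ => (p.1, p.2.2)) (hβ _ hf hfU).continuousAt c2
  have hdata : ∀ᶠ p in 𝓝 (s0, z0, z0),
      ‖((f (p.1, p.2.2), (gd P f).α (p.1, p.2.1), (gd P f).β (p.1, p.2.2)) : E × E × E) - u0‖
        ≤ ρ / 2 := by
    have h := Metric.tendsto_nhds.1 hcont (ρ / 2) (by positivity)
    filter_upwards [h] with p hp
    rw [dist_eq_norm] at hp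
    exact le_of_lt hp
  filter_upwards [ev_ball hdata, hball, ev_small M (ρ / 2) (by positivity),
    ev_small (‖u0‖ + ρ) (ρ / 2) (by positivity), ev_small K (1 / 2) (by norm_num),
    ev_small 1 (1 / 2) (by norm_num),
    ev_small (2 * (C * (‖u0‖ + ρ))) (1 / 2) (by norm_num), self_mem_nhdsWithin]
    with r h1 h2 h3 h4 h5 h6 h7 h8
  refine ⟨⟨h8, hρ, K.2, by positivity, ?_, ?_, ?_, h3, h4, h5, by simpa using h6⟩, ?_, ?_, ?_, ?_,
    ?_, ?_, hC0, h7⟩
  · intro v hv w hw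
    have := hK.dist_le_mul v (hsub hv).1 w (hsub hw).1
    rwa [dist_eq_norm, dist_eq_norm] at this
  · exact fun v hv => (hsub hv).2.1
  · exact fun p hp => h1 hp
  · exact fun q hq => (h2 hq).1
  · exact fun q hq => (hα q (h2 hq).1 (h2 hq).2).differentiableWithinAt
  · exact fun q hq => (hβ q (h2 hq).1 (h2 hq).2).differentiableWithinAt
  · exact fun v hv => (hsub hv).2.2.2.2
  · exact fun v hv => (hsub hv).2.2.1
  · exact fun v hv => (hsub hv).2.2.2.1

/-- **Local existence for the Goursat problem** (holomorphic with parameters). -/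
theorem goursat_exists {P : E → E →L[ℂ] E} {U : Set E} (hU : IsOpen U) (hP : AnalyticOnNhd ℂ P U)
    (hid : ∀ x ∈ U, ∀ v, P x (P x v) = P x v)
    {f : S × ℂ → E} {s0 : S} {z0 : ℂ} (hf : AnalyticAt ℂ f (s0, z0)) (hfU : f (s0, z0) ∈ U) :
    ∃ r > 0, ∃ F : S × ℂ × ℂ → E, AnalyticOnNhd ℂ F (ball (s0, z0, z0) r) ∧
      (∀ p ∈ ball (s0, z0, z0) r, F p ∈ U) ∧
      (∀ s z, s ∈ ball s0 r → z ∈ ball z0 r → F (s, z, z) = f (s, z)) ∧
      (∀ p ∈ ball (s0, z0, z0) r, P (F p) (fderiv ℂ F p (0, 1, 0)) = fderiv ℂ F p (0, 1, 0)) ∧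
      (∀ p ∈ ball (s0, z0, z0) r, P (F p) (fderiv ℂ F p (0, 0, 1)) = 0) := by
  obtain ⟨ρ, K, M, C, hρ, hev⟩ := exists_pack hU hP hf hfU
  obtain ⟨r, hpk⟩ := hev.exists
  have hr := hpk.small.hr
  have hNd : DifferentiableOn ℂ (gd P f).N (U ×ˢ (univ : Set (E × E))) := fun v hv =>
    ((differentiableOn_N hU hP f v hv).differentiableAt one_ne_zero).differentiableWithinAt
  obtain ⟨u, hmem, hud, hfix⟩ := exists_fix hpk.small
    (hpk.fan.differentiableOn) hpk.αd hpk.βd (hU.prod isOpen_univ) hpk.sub hNd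
  have hNu : DifferentiableOn ℂ (fun p => (gd P f).N (u p)) (ball (s0, z0, z0) r) :=
    hNd.comp hud (fun p hp => hpk.sub (hmem p hp))
  have hsol : Sol P f s0 z0 r u := sol_of_fix hud hNu hfix
  have huU : ∀ p ∈ ball (s0, z0, z0) r, (u p).1 ∈ U := fun p hp => (hpk.sub (hmem p hp)).1
  have hd2 := hsol.d2F hud hpk.fan.differentiableOn
  have hprop := propagate hU hP hid hsol hud hpk.fan.differentiableOn huU
    (B := ‖uc P f (s0, z0)‖ + ρ) (by positivity) hpk.hC hr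
    (fun p hp => norm_bd_of_mem (hmem p hp)) (fun p hp => hpk.bP _ (hmem p hp))
    (fun p hp => hpk.bD _ (hmem p hp)) hpk.small5
  refine ⟨r, hr, fun p => (u p).1, ?_, huU, ?_, ?_, ?_⟩
  · exact osgood isOpen_ball hud.fst
  · intro s z hs hz
    exact hsol.diagF s z (mem_B.2 ⟨hs, hz⟩)
  · intro p hp
    rw [hsol.d1F p hp]
    exact (hprop p hp).1
  · intro p hp
    rw [hd2 p hp]
    exact (hprop p hp).2

/-- **Local uniqueness for the Goursat problem**. -/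
theorem goursat_unique {P : E → E →L[ℂ] E} {U : Set E} (hU : IsOpen U) (hP : AnalyticOnNhd ℂ P U)
    {F F' : S × ℂ × ℂ → E} {s0 : S} {z0 : ℂ} (hF : AnalyticAt ℂ F (s0, z0, z0))
    (hF' : AnalyticAt ℂ F' (s0, z0, z0)) (hFU : F (s0, z0, z0) ∈ U)
    (h1 : ∀ᶠ p in 𝓝 (s0, z0, z0), P (F p) (fderiv ℂ F p (0, 1, 0)) = fderiv ℂ F p (0, 1, 0))
    (h2 : ∀ᶠ p in 𝓝 (s0, z0, z0), P (F p) (fderiv ℂ F p (0, 0, 1)) = 0)
    (h1' : ∀ᶠ p in 𝓝 (s0, z0, z0), P (F' p) (fderiv ℂ F' p (0, 1, 0)) = fderiv ℂ F' p (0, 1, 0))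
    (h2' : ∀ᶠ p in 𝓝 (s0, z0, z0), P (F' p) (fderiv ℂ F' p (0, 0, 1)) = 0)
    (heq : ∀ᶠ q : S × ℂ in 𝓝 (s0, z0), F (q.1, q.2, q.2) = F' (q.1, q.2, q.2)) :
    F =ᶠ[𝓝 (s0, z0, z0)] F' := by
  set f : S × ℂ → E := fun q => F (q.1, q.2, q.2) with hfdef
  have hdiagL : AnalyticAt ℂ (fun q : S × ℂ => ((q.1, q.2, q.2) : S × ℂ × ℂ)) (s0, z0) := by
    exact ((ContinuousLinearMap.fst ℂ S ℂ).prod ((ContinuousLinearMap.snd ℂ S ℂ).prod
      (ContinuousLinearMap.snd ℂ S ℂ))).analyticAt _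
  have hf : AnalyticAt ℂ f (s0, z0) :=
    AnalyticAt.comp (g := F) (f := fun q : S × ℂ => ((q.1, q.2, q.2) : S × ℂ × ℂ)) hF hdiagL
  have hF'0 : F' (s0, z0, z0) = F (s0, z0, z0) := (heq.self_of_nhds).symm
  obtain ⟨ρ, K, M, C, hρ, hev⟩ := exists_pack hU hP hf hFU
  -- the two candidate fixed points
  set u : S × ℂ × ℂ → E × E × E := fun p => (F p, fderiv ℂ F p (0, 1, 0), fderiv ℂ F p (0, 0, 1))
    with hu
  set u' : S × ℂ × ℂ → E × E × E :=
    fun p => (F' p, fderiv ℂ F' p (0, 1, 0), fderiv ℂ F' p (0, 0, 1)) with hu'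
  have hucont : ∀ G : S × ℂ × ℂ → E, ∀ p, AnalyticAt ℂ G p → ContinuousAt
      (fun p => ((G p, fderiv ℂ G p (0, 1, 0), fderiv ℂ G p (0, 0, 1)) : E × E × E)) p := by
    intro G p hG
    have h := hG.fderiv.continuousAt
    exact hG.continuousAt.prodMk ((h.clm_apply continuousAt_const).prodMk
      (h.clm_apply continuousAt_const))
  have evF : ∀ᶠ p in 𝓝 (s0, z0, z0), AnalyticAt ℂ F p := hF.eventually_analyticAt
  have evF' : ∀ᶠ p in 𝓝 (s0, z0, z0), AnalyticAt ℂ F' p := hF'.eventually_analyticAt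
  have evU : ∀ᶠ p in 𝓝 (s0, z0, z0), F p ∈ U := hF.continuousAt.eventually (hU.mem_nhds hFU)
  have evU' : ∀ᶠ p in 𝓝 (s0, z0, z0), F' p ∈ U :=
    hF'.continuousAt.eventually (hU.mem_nhds (by rw [hF'0]; exact hFU))
  have big : ∀ᶠ p in 𝓝 (s0, z0, z0), AnalyticAt ℂ F p ∧ AnalyticAt ℂ F' p ∧ F p ∈ U ∧ F' p ∈ U ∧
      (P (F p) (fderiv ℂ F p (0, 1, 0)) = fderiv ℂ F p (0, 1, 0)) ∧
      (P (F p) (fderiv ℂ F p (0, 0, 1)) = 0) ∧
      (P (F' p) (fderiv ℂ F' p (0, 1, 0)) = fderiv ℂ F' p (0, 1, 0)) ∧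
      (P (F' p) (fderiv ℂ F' p (0, 0, 1)) = 0) := by
    filter_upwards [evF, evF', evU, evU', h1, h2, h1', h2'] with p a b c d e g h i
    exact ⟨a, b, c, d, e, g, h, i⟩
  have heq' : ∀ᶠ q : S × ℂ in 𝓝 (s0, z0), AnalyticAt ℂ f q ∧
      F (q.1, q.2, q.2) = F' (q.1, q.2, q.2) := hf.eventually_analyticAt.and heq
  -- fixed point property on small balls
  have hfix : ∀ᶠ r in 𝓝[>] (0:ℝ), (∀ p ∈ ball (s0, z0, z0) r, T (gd P f) u p = u p) ∧
      (∀ p ∈ ball (s0, z0, z0) r, T (gd P f) u' p = u' p) ∧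
      ContinuousOn u (ball (s0, z0, z0) r) ∧ ContinuousOn u' (ball (s0, z0, z0) r) := by
    filter_upwards [ev_ball big, ev_ball heq'] with r hb hq
    refine ⟨?_, ?_, ?_, ?_⟩
    · exact fix_of_solution hU hP (fun p hp => (hb hp).1) (fun p hp => (hb hp).2.2.1)
        (fun p hp => (hb hp).2.2.2.2.1) (fun p hp => (hb hp).2.2.2.2.2.1)
        (fun s z hsz => rfl) (fun q hq' => (hq hq').1.differentiableAt.differentiableWithinAt)
    · exact fix_of_solution hU hP (fun p hp => (hb hp).2.1) (fun p hp => (hb hp).2.2.2.1)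
        (fun p hp => (hb hp).2.2.2.2.2.2.1) (fun p hp => (hb hp).2.2.2.2.2.2.2)
        (fun s z hsz => ((hq hsz).2).symm)
        (fun q hq' => (hq hq').1.differentiableAt.differentiableWithinAt)
    · exact fun p hp => (hucont F p (hb hp).1).continuousWithinAt
    · exact fun p hp => (hucont F' p (hb hp).2.1).continuousWithinAt
  -- values at the centre
  have hpos : ∀ᶠ r in 𝓝[>] (0:ℝ), r ∈ Ioi (0:ℝ) := self_mem_nhdsWithin
  obtain ⟨r1, hr1, hfix1⟩ := (hpos.and hfix).exists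
  have hc : ∀ v : S × ℂ × ℂ → E × E × E, T (gd P f) v (s0, z0, z0) = uc P f (s0, z0) := by
    intro v
    simp [T, uc, gd]
  have hr1' : (0:ℝ) < r1 := hr1
  have hu0 : u (s0, z0, z0) = uc P f (s0, z0) := by
    rw [← hfix1.1 _ (mem_ball_self hr1'), hc]
  have hu0' : u' (s0, z0, z0) = uc P f (s0, z0) := by
    rw [← hfix1.2.1 _ (mem_ball_self hr1'), hc]
  have hcl : ∀ᶠ p in 𝓝 (s0, z0, z0), u p ∈ closedBall (uc P f (s0, z0)) ρ := by
    have := (hucont F _ hF)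
    rw [ContinuousAt] at this
    have h3 : Tendsto u (𝓝 (s0, z0, z0)) (𝓝 (uc P f (s0, z0))) := by rw [← hu0]; exact this
    exact h3.eventually (closedBall_mem_nhds _ hρ)
  have hcl' : ∀ᶠ p in 𝓝 (s0, z0, z0), u' p ∈ closedBall (uc P f (s0, z0)) ρ := by
    have := (hucont F' _ hF')
    rw [ContinuousAt] at this
    have h3 : Tendsto u' (𝓝 (s0, z0, z0)) (𝓝 (uc P f (s0, z0))) := by rw [← hu0']; exact this
    exact h3.eventually (closedBall_mem_nhds _ hρ)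
  obtain ⟨r, hpk, hfx, hb, hb'⟩ := (hev.and (hfix.and ((ev_ball hcl).and (ev_ball hcl')))).exists
  have hr := hpk.small.hr
  have hNc : ContinuousOn (gd P f).N (closedBall (uc P f (s0, z0)) ρ) := fun v hv =>
    (differentiableOn_N hU hP f v (hpk.sub hv)).continuousAt.continuousWithinAt
  have := fix_unique hpk.small hNc hb hb' hfx.2.2.1 hfx.2.2.2 hfx.1 hfx.2.1
  filter_upwards [ball_mem_nhds _ hr] with p hp
  exact congrArg Prod.fst (this p hp)

end Crest.Agent.R266.Goursat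
end
end

-- ▼ part R266/DblGlue
section

/-!
R266 / DblGlue (helper256): gluing of the local doublings near the diagonal of `P¹ × P¹`
(existence of `Dbl`), from the local existence (EX) and uniqueness (UQ) statements.
-/

set_option autoImplicit false
set_option linter.unusedSectionVars false

open scoped Manifold ContDiff Topology
open Set Metric Filter
open Crest.AlgGeometry.HolSplit

namespace Crest.Agent.R266.DblGlue

/-- local existence of the doubling, in a chart -/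
def EXStmt (Sp M : Type*) [NormedAddCommGroup Sp] [NormedSpace ℂ Sp]
    [NormedAddCommGroup M] [NormedSpace ℂ M] : Prop :=
  ∀ (U : Set M) (P : M → M →L[ℂ] M) (f : Sp × ℂ → M) (s₀ : Sp) (z₀ : ℂ), IsOpen U →
    AnalyticOnNhd ℂ P U → (∀ x ∈ U, ∀ v, P x (P x v) = P x v) → AnalyticAt ℂ f (s₀, z₀) →
    f (s₀, z₀) ∈ U →
    ∃ r > 0, ∃ F : Sp × ℂ × ℂ → M,
      AnalyticOnNhd ℂ F (ball s₀ r ×ˢ ball z₀ r ×ˢ ball z₀ r) ∧
      (∀ p ∈ ball s₀ r ×ˢ ball z₀ r ×ˢ ball z₀ r, F p ∈ U ∧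
        P (F p) (fderiv ℂ F p (0, 1, 0)) = fderiv ℂ F p (0, 1, 0) ∧
        P (F p) (fderiv ℂ F p (0, 0, 1)) = 0) ∧
      ∀ s ∈ ball s₀ r, ∀ z ∈ ball z₀ r, F (s, z, z) = f (s, z)

/-- local uniqueness of the doubling, in a chart -/
def UQStmt (Sp M : Type*) [NormedAddCommGroup Sp] [NormedSpace ℂ Sp]
    [NormedAddCommGroup M] [NormedSpace ℂ M] : Prop :=
  ∀ (U : Set M) (P : M → M →L[ℂ] M) (F F' : Sp × ℂ × ℂ → M) (s₀ : Sp) (z₀ : ℂ), IsOpen U →
    AnalyticOnNhd ℂ P U → (∀ x ∈ U, ∀ v, P x (P x v) = P x v) →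
    (∀ᶠ p in 𝓝 (s₀, z₀, z₀), AnalyticAt ℂ F p ∧ F p ∈ U ∧
      P (F p) (fderiv ℂ F p (0, 1, 0)) = fderiv ℂ F p (0, 1, 0) ∧
        P (F p) (fderiv ℂ F p (0, 0, 1)) = 0) →
    (∀ᶠ p in 𝓝 (s₀, z₀, z₀), AnalyticAt ℂ F' p ∧ F' p ∈ U ∧
      P (F' p) (fderiv ℂ F' p (0, 1, 0)) = fderiv ℂ F' p (0, 1, 0) ∧
        P (F' p) (fderiv ℂ F' p (0, 0, 1)) = 0) →
    (∀ᶠ q : Sp × ℂ in 𝓝 (s₀, z₀), F (q.1, q.2, q.2) = F' (q.1, q.2, q.2)) →
    F =ᶠ[𝓝 (s₀, z₀, z₀)] F'

section Charts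

variable {n : ℕ} {X : Type*} [TopologicalSpace X] [ChartedSpace (Model n) X]
  [IsManifold (mI n) ω X]
variable {V : Type*} [NormedAddCommGroup V] [NormedSpace ℂ V]

lemma contMDiffAt_iff_chart {F : V → X} {p : V} {x₀ : X}
    (hx : F p ∈ (chartAt (Model n) x₀).source) :
    ContMDiffAt 𝓘(ℂ, V) (mI n) ω F p ↔
      ContinuousAt F p ∧ AnalyticAt ℂ (fun q => chartAt (Model n) x₀ (F q)) p := by
  rw [contMDiffAt_iff_target_of_mem_source hx, contMDiffAt_iff_contDiffAt]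
  exact and_congr Iff.rfl ⟨fun h => h.analyticAt, fun h => h.contDiffAt⟩

lemma tcc_mfderiv {F : V → X} {p : V} {x₀ : X} (hx : F p ∈ (chartAt (Model n) x₀).source)
    (hF : ContMDiffAt 𝓘(ℂ, V) (mI n) ω F p) (v : V) :
    tcc (F p) x₀ (F p) (mfderiv 𝓘(ℂ, V) (mI n) F p v : Model n) =
      fderiv ℂ (fun q => chartAt (Model n) x₀ (F q)) p v := by
  have h1 : MDifferentiableAt (mI n) 𝓘(ℂ, Model n) (extChartAt (mI n) x₀) (F p) :=
    mdifferentiableAt_extChartAt (I := mI n) hx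
  have h2 : MDifferentiableAt 𝓘(ℂ, V) (mI n) F p := hF.mdifferentiableAt (by simp)
  have h3 := mfderiv_comp p h1 h2
  rw [mfderiv_eq_fderiv] at h3
  have h4 : fderiv ℂ (fun q => chartAt (Model n) x₀ (F q)) p v =
      (mfderiv (mI n) 𝓘(ℂ, Model n) (extChartAt (mI n) x₀) (F p))
        (mfderiv 𝓘(ℂ, V) (mI n) F p v) := by
    have := congrArg (fun L : V →L[ℂ] Model n => L v) h3
    exact this
  rw [h4]
  exact (congrArg (fun L : Model n →L[ℂ] Model n => L (mfderiv 𝓘(ℂ, V) (mI n) F p v))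
    (mfderiv_extChart (x₀ := x₀) hx)).symm

lemma tan1_iff (S : Splitting n X) {F : V → X} {p : V} {x₀ : X}
    (hx : F p ∈ (chartAt (Model n) x₀).source)
    (hF : ContMDiffAt 𝓘(ℂ, V) (mI n) ω F p) (v : V) :
    S.proj (F p) (mfderiv 𝓘(ℂ, V) (mI n) F p v) = mfderiv 𝓘(ℂ, V) (mI n) F p v ↔
      Pc S x₀ (chartAt (Model n) x₀ (F p)) (fderiv ℂ (fun q => chartAt (Model n) x₀ (F q)) p v) =
        fderiv ℂ (fun q => chartAt (Model n) x₀ (F q)) p v := by
  have hy : chartAt (Model n) x₀ (F p) ∈ (chartAt (Model n) x₀).target :=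
    (chartAt (Model n) x₀).map_source hx
  have h1 := Pc_tcc S hy (mfderiv 𝓘(ℂ, V) (mI n) F p v : Model n)
  rw [(chartAt (Model n) x₀).left_inv hx] at h1
  rw [← tcc_mfderiv hx hF v, h1]
  constructor
  · intro h
    exact congrArg (fun w : Model n => tcc (F p) x₀ (F p) w) h
  · intro h
    exact (tcc_cancel' hx _).symm.trans ((congrArg (fun w : Model n => tcc x₀ (F p) (F p) w)
      h).trans (tcc_cancel' hx _))

lemma tan2_iff (S : Splitting n X) {F : V → X} {p : V} {x₀ : X}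
    (hx : F p ∈ (chartAt (Model n) x₀).source)
    (hF : ContMDiffAt 𝓘(ℂ, V) (mI n) ω F p) (v : V) :
    S.proj (F p) (mfderiv 𝓘(ℂ, V) (mI n) F p v) = 0 ↔
      Pc S x₀ (chartAt (Model n) x₀ (F p)) (fderiv ℂ (fun q => chartAt (Model n) x₀ (F q)) p v) =
        0 := by
  have hy : chartAt (Model n) x₀ (F p) ∈ (chartAt (Model n) x₀).target :=
    (chartAt (Model n) x₀).map_source hx
  have h1 := Pc_tcc S hy (mfderiv 𝓘(ℂ, V) (mI n) F p v : Model n)
  rw [(chartAt (Model n) x₀).left_inv hx] at h1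
  rw [← tcc_mfderiv hx hF v, h1]
  constructor
  · intro h
    have h2 : pr S (F p) (mfderiv 𝓘(ℂ, V) (mI n) F p v : Model n) = 0 := h
    rw [h2, map_zero]
  · intro h
    exact (tcc_cancel' hx _).symm.trans ((congrArg (fun w : Model n => tcc x₀ (F p) (F p) w)
      h).trans (map_zero _))

/-- identity theorem for maps into a complex manifold -/
theorem ident [T2Space X] {F F' : V → X} {Ω : Set V} (hc : IsPreconnected Ω)
    (hF : ∀ p ∈ Ω, ContMDiffAt 𝓘(ℂ, V) (mI n) ω F p)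
    (hF' : ∀ p ∈ Ω, ContMDiffAt 𝓘(ℂ, V) (mI n) ω F' p) {p₀ : V} (hp₀ : p₀ ∈ Ω)
    (h : F =ᶠ[𝓝 p₀] F') : ∀ p ∈ Ω, F p = F' p := by
  set T : Set V := {p | F =ᶠ[𝓝 p] F'} with hT
  have hTo : IsOpen T := by
    rw [isOpen_iff_mem_nhds]
    intro p hp
    exact eventually_eventually_nhds.2 hp
  have hsub : Ω ⊆ T := by
    refine hc.subset_of_closure_inter_subset hTo ⟨p₀, hp₀, h⟩ ?_
    rintro p ⟨hpT, hpΩ⟩
    have hcF := (hF p hpΩ).continuousAt
    have hcF' := (hF' p hpΩ).continuousAt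
    have heq : F p = F' p := by
      refine tendsto_nhds_unique_of_frequently_eq hcF hcF' ?_
      rw [mem_closure_iff_frequently] at hpT
      refine hpT.mono (fun q hq => ?_)
      exact Filter.EventuallyEq.eq_of_nhds hq
    have hx : F p ∈ (chartAt (Model n) (F p)).source := mem_chart_source _ _
    have hx' : F' p ∈ (chartAt (Model n) (F p)).source := heq ▸ hx
    have ha := ((contMDiffAt_iff_chart hx).1 (hF p hpΩ)).2
    have ha' := ((contMDiffAt_iff_chart hx').1 (hF' p hpΩ)).2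
    have hs : ∀ᶠ q in 𝓝 p, F q ∈ (chartAt (Model n) (F p)).source :=
      hcF.eventually ((chartAt (Model n) (F p)).open_source.mem_nhds hx)
    have hs' : ∀ᶠ q in 𝓝 p, F' q ∈ (chartAt (Model n) (F p)).source :=
      hcF'.eventually ((chartAt (Model n) (F p)).open_source.mem_nhds hx')
    obtain ⟨ε, hε, hball⟩ := Metric.eventually_nhds_iff_ball.1
      ((ha.eventually_analyticAt.and ha'.eventually_analyticAt).and (hs.and hs'))
    obtain ⟨q, hqT, hqb⟩ : ∃ q, q ∈ T ∧ q ∈ ball p ε := by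
      rw [mem_closure_iff_nhds] at hpT
      obtain ⟨q, hq1, hq2⟩ := hpT (ball p ε) (ball_mem_nhds p hε)
      exact ⟨q, hq2, hq1⟩
    have hid : EqOn (fun q => chartAt (Model n) (F p) (F q))
        (fun q => chartAt (Model n) (F p) (F' q)) (ball p ε) := by
      refine AnalyticOnNhd.eqOn_of_preconnected_of_eventuallyEq
        (fun q hq => (hball q hq).1.1) (fun q hq => (hball q hq).1.2)
        (convex_ball p ε).isPreconnected hqb ?_
      filter_upwards [hqT] with z hz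
      rw [hz]
    filter_upwards [ball_mem_nhds p hε] with z hz
    exact (chartAt (Model n) (F p)).injOn (hball z hz).2.1 (hball z hz).2.2 (hid hz)
  intro p hp
  exact Filter.EventuallyEq.eq_of_nhds (hsub hp)

end Charts

section Doubling

variable {n : ℕ} {X : Type*} [TopologicalSpace X] [ChartedSpace (Model n) X]
  [IsManifold (mI n) ω X]
variable {E : Type*} [NormedAddCommGroup E] [NormedSpace ℂ E]

/-- `F` is holomorphic and doubly split at `p` -/
structure DS (S : Splitting n X) (F : E × ℂ × ℂ → X) (p : E × ℂ × ℂ) : Prop where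
  hol : ContMDiffAt 𝓘(ℂ, E × ℂ × ℂ) (mI n) ω F p
  tan1 : S.proj (F p) (mfderiv 𝓘(ℂ, E × ℂ × ℂ) (mI n) F p ((0, 1, 0) : E × ℂ × ℂ)) =
      mfderiv 𝓘(ℂ, E × ℂ × ℂ) (mI n) F p ((0, 1, 0) : E × ℂ × ℂ)
  tan2 : S.proj (F p) (mfderiv 𝓘(ℂ, E × ℂ × ℂ) (mI n) F p ((0, 0, 1) : E × ℂ × ℂ)) = 0

lemma DS.congr {S : Splitting n X} {F F' : E × ℂ × ℂ → X} {p : E × ℂ × ℂ} (h : DS S F p)
    (he : F' =ᶠ[𝓝 p] F) : DS S F' p := by
  have h1 : F' p = F p := he.eq_of_nhds
  have h2 : ∀ v : E × ℂ × ℂ, (mfderiv 𝓘(ℂ, E × ℂ × ℂ) (mI n) F' p v : Model n) =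
      mfderiv 𝓘(ℂ, E × ℂ × ℂ) (mI n) F p v := by
    intro v
    have := he.mfderiv_eq (I := 𝓘(ℂ, E × ℂ × ℂ)) (I' := mI n)
    exact congrArg (fun L : (E × ℂ × ℂ) →L[ℂ] Model n => L v) this
  refine ⟨h.hol.congr_of_eventuallyEq he, ?_, ?_⟩
  · have h3 := h.tan1
    have h4 : pr S (F' p) (mfderiv 𝓘(ℂ, E × ℂ × ℂ) (mI n) F' p ((0, 1, 0) : E × ℂ × ℂ)) =
        (mfderiv 𝓘(ℂ, E × ℂ × ℂ) (mI n) F' p ((0, 1, 0) : E × ℂ × ℂ) : Model n) := by
      rw [h2, h1]
      exact h3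
    exact h4
  · have h3 := h.tan2
    have h4 : pr S (F' p) (mfderiv 𝓘(ℂ, E × ℂ × ℂ) (mI n) F' p ((0, 0, 1) : E × ℂ × ℂ)) =
        (0 : Model n) := by
      rw [h2, h1]
      exact h3
    exact h4

/-- chart form of `DS` near a point -/
lemma DS.chart {S : Splitting n X} {F : E × ℂ × ℂ → X} {p : E × ℂ × ℂ} (h : DS S F p) {x₀ : X}
    (hx : F p ∈ (chartAt (Model n) x₀).source) :
    AnalyticAt ℂ (fun q => chartAt (Model n) x₀ (F q)) p ∧
      chartAt (Model n) x₀ (F p) ∈ (chartAt (Model n) x₀).target ∧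
      Pc S x₀ (chartAt (Model n) x₀ (F p))
        (fderiv ℂ (fun q => chartAt (Model n) x₀ (F q)) p (0, 1, 0)) =
          fderiv ℂ (fun q => chartAt (Model n) x₀ (F q)) p (0, 1, 0) ∧
      Pc S x₀ (chartAt (Model n) x₀ (F p))
        (fderiv ℂ (fun q => chartAt (Model n) x₀ (F q)) p (0, 0, 1)) = 0 :=
  ⟨((contMDiffAt_iff_chart hx).1 h.hol).2, (chartAt (Model n) x₀).map_source hx,
    (tan1_iff S hx h.hol _).1 h.tan1, (tan2_iff S hx h.hol _).1 h.tan2⟩

lemma DS.of_chart {S : Splitting n X} {F : E × ℂ × ℂ → X} {p : E × ℂ × ℂ} {x₀ : X}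
    (hx : F p ∈ (chartAt (Model n) x₀).source) (hc : ContinuousAt F p)
    (ha : AnalyticAt ℂ (fun q => chartAt (Model n) x₀ (F q)) p)
    (h1 : Pc S x₀ (chartAt (Model n) x₀ (F p))
        (fderiv ℂ (fun q => chartAt (Model n) x₀ (F q)) p (0, 1, 0)) =
          fderiv ℂ (fun q => chartAt (Model n) x₀ (F q)) p (0, 1, 0))
    (h2 : Pc S x₀ (chartAt (Model n) x₀ (F p))
        (fderiv ℂ (fun q => chartAt (Model n) x₀ (F q)) p (0, 0, 1)) = 0) : DS S F p := by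
  have hF := (contMDiffAt_iff_chart hx).2 ⟨hc, ha⟩
  exact ⟨hF, (tan1_iff S hx hF _).2 h1, (tan2_iff S hx hF _).2 h2⟩

/-- composition with a map scaling the last two directions -/
lemma DS.comp {S : Splitting n X} {F : E × ℂ × ℂ → X} {i : E × ℂ × ℂ → E × ℂ × ℂ}
    {p : E × ℂ × ℂ} (h : DS S F (i p)) (hi : AnalyticAt ℂ i p) {a b : ℂ}
    (h1 : fderiv ℂ i p (0, 1, 0) = a • ((0, 1, 0) : E × ℂ × ℂ))
    (h2 : fderiv ℂ i p (0, 0, 1) = b • ((0, 0, 1) : E × ℂ × ℂ)) :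
    DS S (fun q => F (i q)) p := by
  have hx : F (i p) ∈ (chartAt (Model n) (F (i p))).source := mem_chart_source _ _
  obtain ⟨ha, -, h3, h4⟩ := h.chart hx
  have hd : ∀ v, fderiv ℂ (fun q => chartAt (Model n) (F (i p)) (F (i q))) p v =
      fderiv ℂ (fun q => chartAt (Model n) (F (i p)) (F q)) (i p) (fderiv ℂ i p v) := by
    intro v
    have := fderiv_comp (𝕜 := ℂ) p (g := fun q => chartAt (Model n) (F (i p)) (F q)) (f := i)
      ha.differentiableAt hi.differentiableAt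
    exact congrArg (fun L : (E × ℂ × ℂ) →L[ℂ] Model n => L v) this
  refine DS.of_chart (x₀ := F (i p)) hx ?_ ?_ ?_ ?_
  · exact ContinuousAt.comp (f := i) (g := F) h.hol.continuousAt hi.continuousAt
  · exact ha.comp_of_eq (f := i) hi rfl
  · rw [hd, h1, map_smul, map_smul, h3]
  · rw [hd, h2, map_smul, map_smul, h4, smul_zero]

/-- local existence of the doubling -/
theorem local_exists (hEX : EXStmt E (Model n)) (S : Splitting n X) {g : E → ℂ → X}
    {s₀ : E} {z₀ : ℂ}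
    (hg : ContMDiffAt 𝓘(ℂ, E × ℂ) (mI n) ω (fun p : E × ℂ => g p.1 p.2) (s₀, z₀)) :
    ∃ r > 0, ∃ F : E × ℂ × ℂ → X,
      (∀ p ∈ ball s₀ r ×ˢ ball z₀ r ×ˢ ball z₀ r, DS S F p) ∧
      ∀ s ∈ ball s₀ r, ∀ z ∈ ball z₀ r, F (s, z, z) = g s z := by
  set x₀ := g s₀ z₀ with hx₀
  have hx : g s₀ z₀ ∈ (chartAt (Model n) x₀).source := mem_chart_source _ _
  obtain ⟨hgc, hga⟩ := (contMDiffAt_iff_chart (x₀ := x₀) (p := (s₀, z₀)) hx).1 hg
  have hPa : AnalyticOnNhd ℂ (Pc S x₀) (chartAt (Model n) x₀).target := by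
    intro y hy
    exact ((Pc_contDiffOn S x₀).contDiffAt
      ((chartAt (Model n) x₀).open_target.mem_nhds hy)).analyticAt
  obtain ⟨r, hr, F, hFa, hF, hFd⟩ := hEX (chartAt (Model n) x₀).target (Pc S x₀)
    (fun p : E × ℂ => chartAt (Model n) x₀ (g p.1 p.2)) s₀ z₀ (chartAt (Model n) x₀).open_target
    hPa (fun x hx v => Pc_idem S hx v) hga ((chartAt (Model n) x₀).map_source hx)
  -- shrink so that `g` stays in the chart
  have hsrc : ∀ᶠ p : E × ℂ in 𝓝 (s₀, z₀), g p.1 p.2 ∈ (chartAt (Model n) x₀).source :=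
    hgc.eventually ((chartAt (Model n) x₀).open_source.mem_nhds hx)
  obtain ⟨ε, hε, hball⟩ := Metric.eventually_nhds_iff_ball.1 hsrc
  refine ⟨min r ε, lt_min hr hε, fun p => (chartAt (Model n) x₀).symm (F p), ?_, ?_⟩
  · intro p hp
    have hp' : p ∈ ball s₀ r ×ˢ ball z₀ r ×ˢ ball z₀ r :=
      ⟨ball_subset_ball (min_le_left _ _) hp.1, ball_subset_ball (min_le_left _ _) hp.2.1,
        ball_subset_ball (min_le_left _ _) hp.2.2⟩
    have hopen : IsOpen (ball s₀ r ×ˢ ball z₀ r ×ˢ ball z₀ r) :=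
      isOpen_ball.prod (isOpen_ball.prod isOpen_ball)
    obtain ⟨hU, h1, h2⟩ := hF p hp'
    have hev : (fun q => chartAt (Model n) x₀ ((chartAt (Model n) x₀).symm (F q))) =ᶠ[𝓝 p] F := by
      filter_upwards [hopen.mem_nhds hp'] with q hq
      exact (chartAt (Model n) x₀).right_inv (hF q hq).1
    have hsrc' : (chartAt (Model n) x₀).symm (F p) ∈ (chartAt (Model n) x₀).source :=
      (chartAt (Model n) x₀).map_target hU
    have hfd : fderiv ℂ (fun q => chartAt (Model n) x₀ ((chartAt (Model n) x₀).symm (F q))) p =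
        fderiv ℂ F p := hev.fderiv_eq
    refine DS.of_chart (x₀ := x₀) hsrc' ?_ ?_ ?_ ?_
    · exact ContinuousAt.comp (f := F) ((chartAt (Model n) x₀).continuousAt_symm hU)
        (hFa p hp').continuousAt
    · exact (hFa p hp').congr hev.symm
    · rw [hfd, (chartAt (Model n) x₀).right_inv hU]
      exact h1
    · rw [hfd, (chartAt (Model n) x₀).right_inv hU]
      exact h2
  · intro s hs z hz
    change (chartAt (Model n) x₀).symm (F (s, z, z)) = g s z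
    rw [hFd s (ball_subset_ball (min_le_left _ _) hs) z (ball_subset_ball (min_le_left _ _) hz)]
    refine (chartAt (Model n) x₀).left_inv (hball (s, z) ?_)
    rw [mem_ball, Prod.dist_eq]
    exact max_lt (lt_of_lt_of_le hs (min_le_right _ _)) (lt_of_lt_of_le hz (min_le_right _ _))

/-- uniqueness of doublings on products of balls -/
theorem unique_ball [T2Space X] (hUQ : UQStmt E (Model n)) (S : Splitting n X)
    {F F' : E × ℂ × ℂ → X} {s₀ : E} {z₀ : ℂ} {r ρ : ℝ} (hr : 0 < r) (hρ : 0 < ρ)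
    (hF : ∀ p ∈ ball s₀ r ×ˢ ball z₀ ρ ×ˢ ball z₀ ρ, DS S F p)
    (hF' : ∀ p ∈ ball s₀ r ×ˢ ball z₀ ρ ×ˢ ball z₀ ρ, DS S F' p)
    (hd : ∀ s ∈ ball s₀ r, ∀ z ∈ ball z₀ ρ, F (s, z, z) = F' (s, z, z)) :
    ∀ p ∈ ball s₀ r ×ˢ ball z₀ ρ ×ˢ ball z₀ ρ, F p = F' p := by
  set Ω := ball s₀ r ×ˢ ball z₀ ρ ×ˢ ball z₀ ρ with hΩdef
  have hopen : IsOpen Ω := isOpen_ball.prod (isOpen_ball.prod isOpen_ball)
  have hconv : Convex ℝ Ω := (convex_ball _ _).prod ((convex_ball _ _).prod (convex_ball _ _))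
  have hp₀ : (s₀, z₀, z₀) ∈ Ω := ⟨mem_ball_self hr, mem_ball_self hρ, mem_ball_self hρ⟩
  have heq0 : F (s₀, z₀, z₀) = F' (s₀, z₀, z₀) := hd _ (mem_ball_self hr) _ (mem_ball_self hρ)
  set x₀ := F (s₀, z₀, z₀) with hx₀
  have hx : F (s₀, z₀, z₀) ∈ (chartAt (Model n) x₀).source := mem_chart_source _ _
  have hx' : F' (s₀, z₀, z₀) ∈ (chartAt (Model n) x₀).source := heq0 ▸ hx
  have hPa : AnalyticOnNhd ℂ (Pc S x₀) (chartAt (Model n) x₀).target := by
    intro y hy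
    exact ((Pc_contDiffOn S x₀).contDiffAt
      ((chartAt (Model n) x₀).open_target.mem_nhds hy)).analyticAt
  have hs : ∀ᶠ p in 𝓝 (s₀, z₀, z₀), F p ∈ (chartAt (Model n) x₀).source :=
    (hF _ hp₀).hol.continuousAt.eventually ((chartAt (Model n) x₀).open_source.mem_nhds hx)
  have hs' : ∀ᶠ p in 𝓝 (s₀, z₀, z₀), F' p ∈ (chartAt (Model n) x₀).source :=
    (hF' _ hp₀).hol.continuousAt.eventually ((chartAt (Model n) x₀).open_source.mem_nhds hx')
  have hΩn := hopen.mem_nhds hp₀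
  have key := hUQ (chartAt (Model n) x₀).target (Pc S x₀)
    (fun q => chartAt (Model n) x₀ (F q)) (fun q => chartAt (Model n) x₀ (F' q)) s₀ z₀
    (chartAt (Model n) x₀).open_target hPa (fun x hx v => Pc_idem S hx v)
    (by
      filter_upwards [hs, hΩn] with p hp hpΩ
      exact (hF p hpΩ).chart hp)
    (by
      filter_upwards [hs', hΩn] with p hp hpΩ
      exact (hF' p hpΩ).chart hp)
    (by
      have : ∀ᶠ q : E × ℂ in 𝓝 (s₀, z₀), q ∈ ball s₀ r ×ˢ ball z₀ ρ :=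
        (isOpen_ball.prod isOpen_ball).mem_nhds ⟨mem_ball_self hr, mem_ball_self hρ⟩
      filter_upwards [this] with q hq
      rw [hd q.1 hq.1 q.2 hq.2])
  refine ident hconv.isPreconnected (fun p hp => (hF p hp).hol) (fun p hp => (hF' p hp).hol)
    hp₀ ?_
  filter_upwards [key, hs, hs'] with p h1 h2 h3
  exact (chartAt (Model n) x₀).injOn h2 h3 h1

/-- local solutions of uniform size -/
theorem uniform_exists (hEX : EXStmt E (Model n)) (S : Splitting n X) {W : Set E}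
    (hW : IsOpen W) {f : E → Bool → ℂ → X} (hf : IsFam n W f) {s₀ : E} (hs : s₀ ∈ W) (R : ℝ) :
    ∃ r > 0, ball s₀ r ⊆ W ∧ ∀ b, ∀ z₀ ∈ closedBall (0 : ℂ) R, ∃ F : E × ℂ × ℂ → X,
      (∀ p ∈ ball s₀ r ×ˢ ball z₀ r ×ˢ ball z₀ r, DS S F p) ∧
      ∀ s ∈ ball s₀ r, ∀ z ∈ ball z₀ r, F (s, z, z) = f s b z := by
  have key : ∀ b, ∃ r > 0, ∀ z₀ ∈ closedBall (0 : ℂ) R, ∃ F : E × ℂ × ℂ → X,
      (∀ p ∈ ball s₀ r ×ˢ ball z₀ r ×ˢ ball z₀ r, DS S F p) ∧
      ∀ s ∈ ball s₀ r, ∀ z ∈ ball z₀ r, F (s, z, z) = f s b z := by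
    intro b
    refine (isCompact_closedBall (0 : ℂ) R).induction_on
      (p := fun A => ∃ r > 0, ∀ z₀ ∈ A, ∃ F : E × ℂ × ℂ → X,
      (∀ p ∈ ball s₀ r ×ˢ ball z₀ r ×ˢ ball z₀ r, DS S F p) ∧
      ∀ s ∈ ball s₀ r, ∀ z ∈ ball z₀ r, F (s, z, z) = f s b z) ?_ ?_ ?_ ?_
    · exact ⟨1, one_pos, fun z hz => hz.elim⟩
    · rintro A B hAB ⟨r, hr, h⟩
      exact ⟨r, hr, fun z hz => h z (hAB hz)⟩
    · rintro A B ⟨r, hr, h⟩ ⟨r', hr', h'⟩
      refine ⟨min r r', lt_min hr hr', fun z hz => ?_⟩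
      rcases hz with hz | hz
      · obtain ⟨F, h1, h2⟩ := h z hz
        exact ⟨F, fun p hp => h1 p ⟨ball_subset_ball (min_le_left _ _) hp.1,
          ball_subset_ball (min_le_left _ _) hp.2.1, ball_subset_ball (min_le_left _ _) hp.2.2⟩,
          fun s hs z hz => h2 s (ball_subset_ball (min_le_left _ _) hs) z
            (ball_subset_ball (min_le_left _ _) hz)⟩
      · obtain ⟨F, h1, h2⟩ := h' z hz
        exact ⟨F, fun p hp => h1 p ⟨ball_subset_ball (min_le_right _ _) hp.1,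
          ball_subset_ball (min_le_right _ _) hp.2.1, ball_subset_ball (min_le_right _ _) hp.2.2⟩,
          fun s hs z hz => h2 s (ball_subset_ball (min_le_right _ _) hs) z
            (ball_subset_ball (min_le_right _ _) hz)⟩
    · intro z₁ _
      have hg : ContMDiffAt 𝓘(ℂ, E × ℂ) (mI n) ω (fun p : E × ℂ => f p.1 b p.2) (s₀, z₁) :=
        (hf.hol b).contMDiffAt ((hW.prod isOpen_univ).mem_nhds ⟨hs, mem_univ _⟩)
      obtain ⟨r, hr, F, h1, h2⟩ := local_exists hEX S (g := fun s z => f s b z) hg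
      refine ⟨ball z₁ (r / 2), mem_nhdsWithin_of_mem_nhds (ball_mem_nhds _ (half_pos hr)),
        r / 2, half_pos hr, fun z hz => ⟨F, ?_, ?_⟩⟩
      · have hsub : ball z (r / 2) ⊆ ball z₁ r := by
          intro w hw
          rw [mem_ball] at hw hz ⊢
          calc dist w z₁ ≤ dist w z + dist z z₁ := dist_triangle _ _ _
            _ < r / 2 + r / 2 := by linarith
            _ = r := by ring
        intro p hp
        exact h1 p ⟨ball_subset_ball (by linarith) hp.1, hsub hp.2.1, hsub hp.2.2⟩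
      · intro s hs' w hw
        refine h2 s (ball_subset_ball (by linarith) hs') w ?_
        rw [mem_ball] at hw hz ⊢
        calc dist w z₁ ≤ dist w z + dist z z₁ := dist_triangle _ _ _
          _ < r / 2 + r / 2 := by linarith
          _ = r := by ring
  obtain ⟨r₁, hr₁, h₁⟩ := key true
  obtain ⟨r₂, hr₂, h₂⟩ := key false
  obtain ⟨r₃, hr₃, h₃⟩ := Metric.isOpen_iff.1 hW s₀ hs
  refine ⟨min r₃ (min r₁ r₂), lt_min hr₃ (lt_min hr₁ hr₂),
    (ball_subset_ball (min_le_left _ _)).trans h₃, ?_⟩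
  intro b z hz
  cases b with
  | true =>
    obtain ⟨F, h1, h2⟩ := h₁ z hz
    have hle : min r₃ (min r₁ r₂) ≤ r₁ := (min_le_right _ _).trans (min_le_left _ _)
    exact ⟨F, fun p hp => h1 p ⟨ball_subset_ball hle hp.1,
          ball_subset_ball hle hp.2.1, ball_subset_ball hle hp.2.2⟩,
          fun s hs z hz => h2 s (ball_subset_ball hle hs) z (ball_subset_ball hle hz)⟩
  | false =>
    obtain ⟨F, h1, h2⟩ := h₂ z hz
    have hle : min r₃ (min r₁ r₂) ≤ r₂ := (min_le_right _ _).trans (min_le_right _ _)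
    exact ⟨F, fun p hp => h1 p ⟨ball_subset_ball hle hp.1,
          ball_subset_ball hle hp.2.1, ball_subset_ball hle hp.2.2⟩,
          fun s hs z hz => h2 s (ball_subset_ball hle hs) z (ball_subset_ball hle hz)⟩

/-- **existence of the doubling near the diagonal** -/
theorem exists_dbl_of [T2Space X] (hEX : EXStmt E (Model n)) (hUQ : UQStmt E (Model n))
    (S : Splitting n X) {W : Set E} (hW : IsOpen W) {f : E → Bool → ℂ → X} (hf : IsFam n W f)
    {s₀ : E} (hs : s₀ ∈ W) :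
    ∃ r > 0, ∃ δ > 0, ball s₀ r ⊆ W ∧ ∃ F : Bool → E × ℂ × ℂ → X, Dbl S f s₀ r δ F := by
  classical
  have : Nonempty X := ⟨f s₀ true 0⟩
  obtain ⟨r, hr, hrW, hsol⟩ := uniform_exists hEX S hW hf hs 2
  choose! F₀ hF₀ hF₀d using hsol
  set δ := min (1 / 4) (r / 16) with hδ
  have hδ0 : 0 < δ := lt_min (by norm_num) (by positivity)
  have hδ1 : δ ≤ 1 / 4 := min_le_left _ _
  have hδ2 : δ ≤ r / 16 := min_le_right _ _
  set F : Bool → E × ℂ × ℂ → X := fun b p => F₀ b p.2.1 p with hF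
  -- agreement of neighbouring local solutions
  have hagree : ∀ b, ∀ u ∈ closedBall (0 : ℂ) 2, ∀ w ∈ closedBall (0 : ℂ) 2, dist w u < r / 2 →
      ∀ s ∈ ball s₀ r, ∀ z ∈ ball w (r / 2), F₀ b w (s, w, z) = F₀ b u (s, w, z) := by
    intro b u hu w hw hwu s hs' z hz
    refine unique_ball hUQ S (s₀ := s₀) (z₀ := w) (r := r) (ρ := r / 2) hr (half_pos hr)
      (fun p hp => hF₀ b w hw p ⟨hp.1, ball_subset_ball (by linarith) hp.2.1,
        ball_subset_ball (by linarith) hp.2.2⟩)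
      (fun p hp => hF₀ b u hu p ?_) ?_ (s, w, z) ⟨hs', mem_ball_self (half_pos hr), hz⟩
    · have hsub : ball w (r / 2) ⊆ ball u r := by
        intro v hv
        rw [mem_ball] at hv ⊢
        calc dist v u ≤ dist v w + dist w u := dist_triangle _ _ _
          _ < r / 2 + r / 2 := by linarith
          _ = r := by ring
      exact ⟨hp.1, hsub hp.2.1, hsub hp.2.2⟩
    · intro s hs' v hv
      have hv' : v ∈ ball u r := by
        rw [mem_ball] at hv ⊢
        calc dist v u ≤ dist v w + dist w u := dist_triangle _ _ _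
          _ < r / 2 + r / 2 := by linarith
          _ = r := by ring
      rw [hF₀d b w hw s hs' v (ball_subset_ball (by linarith) hv), hF₀d b u hu s hs' v hv']
  have hDg : IsOpen (Dg s₀ r δ) := by
    have h1 : Dg s₀ r δ = {p : E × ℂ × ℂ | ‖p.1 - s₀‖ < r} ∩ {p | ‖p.2.1‖ < 2} ∩
        {p | ‖p.2.2‖ < 2} ∩ {p | ‖p.2.1 - p.2.2‖ < δ} := by
      ext p
      simp only [Dg, mem_inter_iff, mem_ofPred_eq, and_assoc]
    rw [h1]
    refine ((IsOpen.inter ?_ ?_).inter ?_).inter ?_ <;>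
      exact isOpen_lt (by fun_prop) continuous_const
  have hlocal : ∀ b, ∀ p ∈ Dg s₀ r δ, F b =ᶠ[𝓝 p] F₀ b p.2.1 := by
    rintro b p hp
    have h2 : ∀ᶠ q : E × ℂ × ℂ in 𝓝 p, dist q.2.1 p.2.1 < r / 2 := by
      have : ContinuousAt (fun q : E × ℂ × ℂ => q.2.1) p := by fun_prop
      exact this.eventually (Metric.ball_mem_nhds _ (half_pos hr))
    filter_upwards [hDg.mem_nhds hp, h2] with q hq hq2
    have h3 := hagree b p.2.1 (by simpa using hp.2.1.le) q.2.1 (by simpa using hq.2.1.le) hq2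
      q.1 (by simpa [dist_eq_norm] using hq.1) q.2.2 (by
        rw [mem_ball, dist_comm, dist_eq_norm]
        calc ‖q.2.1 - q.2.2‖ < δ := hq.2.2.2
          _ ≤ r / 2 := by linarith)
    exact h3
  have hDS : ∀ b, ∀ p ∈ Dg s₀ r δ, DS S (F b) p := by
    intro b p hp
    refine (hF₀ b p.2.1 (by simpa using hp.2.1.le) p ⟨?_, ?_, ?_⟩).congr (hlocal b p hp)
    · simpa [dist_eq_norm] using hp.1
    · exact mem_ball_self hr
    · rw [mem_ball, dist_comm, dist_eq_norm]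
      calc ‖p.2.1 - p.2.2‖ < δ := hp.2.2.2
        _ ≤ r := by linarith
  refine ⟨r, hr, δ, hδ0, hrW, F, ?_⟩
  refine ⟨fun b p hp => ((hDS b p hp).hol).contMDiffWithinAt, ?_, fun b p hp => (hDS b p hp).tan1,
    fun b p hp => (hDS b p hp).tan2, ?_⟩
  · intro b s z hs' hz
    have := hF₀d b z (by simpa using hz.le) s (by simpa [dist_eq_norm] using hs') z
      (mem_ball_self hr)
    exact this
  · intro b s z₁ z₂ hz₁ hz₂ hp hp'
    obtain ⟨hps, hp1, hp2, hp3⟩ := hp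
    obtain ⟨-, hq1, hq2, hq3⟩ := hp'
    simp only at hps hp1 hp2 hp3 hq1 hq2 hq3
    have hz₁pos : 0 < ‖z₁‖ := norm_pos_iff.2 hz₁
    have hz₁half : 1 / 2 < ‖z₁‖ := by
      rw [norm_inv] at hq1
      rw [inv_lt_comm₀ hz₁pos (by norm_num)] at hq1
      linarith
    have hball : ∀ u ∈ ball z₁ δ, u ≠ 0 ∧ u⁻¹ ∈ ball z₁⁻¹ r := by
      intro u hu
      rw [mem_ball, dist_eq_norm] at hu
      have hu' : 1 / 4 < ‖u‖ := by
        have := norm_sub_norm_le z₁ u
        rw [norm_sub_rev] at hu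
        linarith
      have hu0 : u ≠ 0 := by
        rintro rfl
        simp at hu'
        linarith
      refine ⟨hu0, ?_⟩
      rw [mem_ball, dist_eq_norm]
      have h1 : u⁻¹ - z₁⁻¹ = (z₁ - u) / (u * z₁) := by
        field_simp
      rw [h1, norm_div, norm_mul, div_lt_iff₀ (by positivity)]
      rw [norm_sub_rev] at hu
      have h16 : 1 / 16 ≤ ‖u‖ * ‖z₁‖ := by nlinarith
      calc ‖z₁ - u‖ < δ := hu
        _ ≤ r / 16 := hδ2
        _ = r * (1 / 16) := by ring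
        _ ≤ r * (‖u‖ * ‖z₁‖) := by gcongr
    have hz₁' : z₁⁻¹ ∈ closedBall (0 : ℂ) 2 := by simpa using hq1.le
    have hz₁'' : z₁ ∈ closedBall (0 : ℂ) 2 := by simpa using hp1.le
    have key := unique_ball hUQ S (s₀ := s₀) (z₀ := z₁) (r := r) (ρ := δ) hr hδ0
      (F := F₀ (!b) z₁) (F' := fun q => F₀ b z₁⁻¹ (q.1, q.2.1⁻¹, q.2.2⁻¹))
      (fun p hp => hF₀ (!b) z₁ hz₁'' p ⟨hp.1, ball_subset_ball (by linarith) hp.2.1,
        ball_subset_ball (by linarith) hp.2.2⟩)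
      (fun p hp => ?_) (fun s hs' z hz => ?_) (s, z₁, z₂)
      ⟨by simpa [dist_eq_norm] using hps, mem_ball_self hδ0, by
        rw [mem_ball, dist_comm, dist_eq_norm]; exact hp3⟩
    · exact key
    · obtain ⟨hp1', hp2', hp3'⟩ := hp
      obtain ⟨hu0, hu⟩ := hball _ hp2'
      obtain ⟨hv0, hv⟩ := hball _ hp3'
      have hi : AnalyticAt ℂ (fun q : E × ℂ × ℂ => ((q.1, q.2.1⁻¹, q.2.2⁻¹) : E × ℂ × ℂ)) p := by
        have ha1 : AnalyticAt ℂ (fun q : E × ℂ × ℂ => q.2.1) p :=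
          analyticAt_fst.comp_of_eq analyticAt_snd rfl
        have ha2 : AnalyticAt ℂ (fun q : E × ℂ × ℂ => q.2.2) p :=
          analyticAt_snd.comp_of_eq analyticAt_snd rfl
        exact analyticAt_fst.prod ((ha1.inv hu0).prod (ha2.inv hv0))
      have hd1 : HasFDerivAt (fun q : E × ℂ × ℂ => ((q.1, q.2.1⁻¹, q.2.2⁻¹) : E × ℂ × ℂ))
          ((ContinuousLinearMap.fst ℂ E (ℂ × ℂ)).prod
            ((-(p.2.1 ^ 2)⁻¹ • ((ContinuousLinearMap.fst ℂ ℂ ℂ).comp
              (ContinuousLinearMap.snd ℂ E (ℂ × ℂ)))).prod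
            (-(p.2.2 ^ 2)⁻¹ • ((ContinuousLinearMap.snd ℂ ℂ ℂ).comp
              (ContinuousLinearMap.snd ℂ E (ℂ × ℂ)))))) p := by
        have ha1 : HasFDerivAt (fun q : E × ℂ × ℂ => q.2.1) ((ContinuousLinearMap.fst ℂ ℂ ℂ).comp
              (ContinuousLinearMap.snd ℂ E (ℂ × ℂ))) p :=
          ((ContinuousLinearMap.fst ℂ ℂ ℂ).comp
              (ContinuousLinearMap.snd ℂ E (ℂ × ℂ))).hasFDerivAt
        have ha2 : HasFDerivAt (fun q : E × ℂ × ℂ => q.2.2) ((ContinuousLinearMap.snd ℂ ℂ ℂ).comp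
              (ContinuousLinearMap.snd ℂ E (ℂ × ℂ))) p :=
          ((ContinuousLinearMap.snd ℂ ℂ ℂ).comp
              (ContinuousLinearMap.snd ℂ E (ℂ × ℂ))).hasFDerivAt
        have hb1 := (hasDerivAt_inv hu0).comp_hasFDerivAt p ha1
        have hb2 := (hasDerivAt_inv hv0).comp_hasFDerivAt p ha2
        exact (ContinuousLinearMap.fst ℂ E (ℂ × ℂ)).hasFDerivAt.prodMk (hb1.prodMk hb2)
      refine DS.comp (i := fun q : E × ℂ × ℂ => ((q.1, q.2.1⁻¹, q.2.2⁻¹) : E × ℂ × ℂ))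
        (hF₀ b z₁⁻¹ hz₁' _ ⟨hp1', hu, hv⟩) hi (a := -(p.2.1 ^ 2)⁻¹) (b := -(p.2.2 ^ 2)⁻¹) ?_ ?_
      · rw [hd1.fderiv]
        simp
      · rw [hd1.fderiv]
        simp
    · obtain ⟨hz0, hz'⟩ := hball z hz
      rw [hF₀d (!b) z₁ hz₁'' s hs' z (ball_subset_ball (by linarith) hz)]
      simp only
      rw [hF₀d b z₁⁻¹ hz₁' s hs' z⁻¹ hz']
      exact hf.glue s (hrW hs') b z hz0

end Doubling

end Crest.Agent.R266.DblGlue
end

-- ▼ part R266/StepTwo

/-! Row 266, S0404 Step 2: the doubling of a family of rational curves near the diagonal. -/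

set_option autoImplicit false
set_option linter.unusedSectionVars false
open Set Filter Topology Metric
open scoped Manifold ContDiff
open Crest.AlgGeometry.HolSplit

noncomputable section
namespace Crest.Agent.R266.Goursat

lemma ball3 {S : Type*} [PseudoMetricSpace S] (s0 : S) (z0 : ℂ) (r : ℝ) :
    ball s0 r ×ˢ ball z0 r ×ˢ ball z0 r = ball ((s0, z0, z0) : S × ℂ × ℂ) r := by
  rw [ball_prod_same, ball_prod_same]

theorem ex_holds (Sp M : Type*) [NormedAddCommGroup Sp] [NormedSpace ℂ Sp]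
    [FiniteDimensional ℂ Sp] [NormedAddCommGroup M] [NormedSpace ℂ M] [CompleteSpace M] :
    DblGlue.EXStmt Sp M := by
  intro U P f s0 z0 hU hP hid hf hfU
  obtain ⟨r, hr, F, hF, hFU, hd, h1, h2⟩ := goursat_exists hU hP hid hf hfU
  refine ⟨r, hr, F, ?_, ?_, fun s hs z hz => hd s z hs hz⟩
  · rw [ball3]; exact hF
  · rw [ball3]; exact fun p hp => ⟨hFU p hp, h1 p hp, h2 p hp⟩

theorem uq_holds (Sp M : Type*) [NormedAddCommGroup Sp] [NormedSpace ℂ Sp]
    [FiniteDimensional ℂ Sp] [NormedAddCommGroup M] [NormedSpace ℂ M] [CompleteSpace M] :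
    DblGlue.UQStmt Sp M := by
  intro U P F F' s0 z0 hU hP hid h h' heq
  exact goursat_unique hU hP h.self_of_nhds.1 h'.self_of_nhds.1 h.self_of_nhds.2.1
    (h.mono fun p hp => hp.2.2.1) (h.mono fun p hp => hp.2.2.2)
    (h'.mono fun p hp => hp.2.2.1) (h'.mono fun p hp => hp.2.2.2) heq

end Crest.Agent.R266.Goursat

namespace Crest.Agent.R266.F404

variable (n : ℕ) (X : Type) [TopologicalSpace X] [T2Space X] [SecondCountableTopology X]
  [CompactSpace X] [ConnectedSpace X] [ChartedSpace (Model n) X] [IsManifold (mI n) ω X]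

theorem two_holds : St_two n X := by
  intro S E _ _ _ W f s0 hW hs hf
  obtain ⟨r, hr, δ, hδ, hsub, F, hF⟩ := DblGlue.exists_dbl_of (Goursat.ex_holds E (Model n))
    (Goursat.uq_holds E (Model n)) S hW hf hs
  exact ⟨r, hr, δ, hδ, F, hsub, hF⟩

end Crest.Agent.R266.F404
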