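import Crest.Agent.R266.Stmts
import Crest.Agent.R266.E0
import Crest.Agent.R266.CE

-- ▼ part R266/Basic
section

/-!
R266 / Basic: elementary facts on product-compatible maps: product form in every chart
(`St_chart`), identity theorem (`St_unique`, for Hausdorff `X`), restriction, congruence,
continuity, gluing.
-/

set_option autoImplicit false

open scoped Manifold ContDiff Topology
open Set Metric Filter

namespace Crest.Agent.R266

section
variable {n₁ n₂ : ℕ} {X : Type} [TopologicalSpace X] {A : PFol n₁ n₂ X}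

/-- product form at a point -/
def PCAt (A : PFol n₁ n₂ X) (G : ℂ × ℂ → X) (z : ℂ × ℂ) : Prop :=
  ∃ (i : A.ι) (a : ℂ → EV n₁) (b : ℂ → EV n₂), AnalyticAt ℂ a z.1 ∧ AnalyticAt ℂ b z.2 ∧
    ∀ᶠ w in 𝓝 z, G w ∈ (A.ch i).source ∧ A.ch i (G w) = (a w.1, b w.2)


theorem IsPC.at {Ω : Set (ℂ × ℂ)} {G : ℂ × ℂ → X} (h : IsPC A Ω G) {z : ℂ × ℂ} (hz : z ∈ Ω) :
    PCAt A G z := h z hz

theorem PCAt.congr {G G' : ℂ × ℂ → X} {z : ℂ × ℂ} (h : PCAt A G z) (hG : G =ᶠ[𝓝 z] G') :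
    PCAt A G' z := by
  obtain ⟨i, a, b, ha, hb, hw⟩ := h
  refine ⟨i, a, b, ha, hb, ?_⟩
  filter_upwards [hw, hG] with w h1 h2
  rw [← h2]; exact h1

theorem PCAt.continuousAt {G : ℂ × ℂ → X} {z : ℂ × ℂ} (h : PCAt A G z) : ContinuousAt G z := by
  obtain ⟨i, a, b, ha, hb, hw⟩ := h
  have hz := hw.self_of_nhds
  have h1 : G =ᶠ[𝓝 z] fun w => (A.ch i).symm (a w.1, b w.2) := by
    filter_upwards [hw] with w h2
    rw [← h2.2, (A.ch i).left_inv h2.1]
  have h3 : ContinuousAt (fun w : ℂ × ℂ => (a w.1, b w.2)) z :=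
    (ha.continuousAt.comp continuousAt_fst).prodMk (hb.continuousAt.comp continuousAt_snd)
  have h4 : ContinuousAt (A.ch i).symm (a z.1, b z.2) := by
    apply (A.ch i).symm.continuousAt
    rw [← hz.2]
    exact (A.ch i).map_source hz.1
  exact ContinuousAt.congr (ContinuousAt.comp (f := fun w : ℂ × ℂ => (a w.1, b w.2)) h4 h3) h1.symm

theorem PCAt.eventually {G : ℂ × ℂ → X} {z : ℂ × ℂ} (h : PCAt A G z) :
    ∀ᶠ w in 𝓝 z, PCAt A G w := by
  obtain ⟨i, a, b, ha, hb, hw⟩ := h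
  have h1 : ∀ᶠ w : ℂ × ℂ in 𝓝 z, AnalyticAt ℂ a w.1 :=
    continuousAt_fst.eventually ha.eventually_analyticAt
  have h2 : ∀ᶠ w : ℂ × ℂ in 𝓝 z, AnalyticAt ℂ b w.2 :=
    continuousAt_snd.eventually hb.eventually_analyticAt
  filter_upwards [h1, h2, hw.eventually_nhds] with w h3 h4 h5
  exact ⟨i, a, b, h3, h4, h5⟩


/-- product form in every chart around the point -/
theorem PCAt.chart {G : ℂ × ℂ → X} {z : ℂ × ℂ} (h : PCAt A G z) {j : A.ι}
    (hj : G z ∈ (A.ch j).source) :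
    ∃ (a : ℂ → EV n₁) (b : ℂ → EV n₂), AnalyticAt ℂ a z.1 ∧ AnalyticAt ℂ b z.2 ∧
      ∀ᶠ w in 𝓝 z, G w ∈ (A.ch j).source ∧ A.ch j (G w) = (a w.1, b w.2) := by
  have hc := h.continuousAt
  obtain ⟨i, a, b, ha, hb, hw⟩ := h
  have hz := hw.self_of_nhds
  obtain ⟨φ, ψ, hφ, hψ, hp⟩ := A.compat i j (G z) ⟨hz.1, hj⟩
  rw [hz.2] at hφ hψ hp
  have h3 : ContinuousAt (fun w : ℂ × ℂ => (a w.1, b w.2)) z :=
    (ha.continuousAt.comp continuousAt_fst).prodMk (hb.continuousAt.comp continuousAt_snd)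
  refine ⟨fun t => φ (a t), fun t => ψ (b t), AnalyticAt.comp hφ ha, AnalyticAt.comp hψ hb, ?_⟩
  have h5 : ∀ᶠ w in 𝓝 z, G w ∈ (A.ch j).source :=
    hc.eventually ((A.ch j).open_source.mem_nhds hj)
  have h6 : ∀ᶠ w in 𝓝 z, A.ch j ((A.ch i).symm (a w.1, b w.2)) = (φ (a w.1), ψ (b w.2)) :=
    h3.eventually hp
  filter_upwards [hw, h5, h6] with w h7 h8 h9
  refine ⟨h8, ?_⟩
  rw [← h7.2, (A.ch i).left_inv h7.1] at h9
  exact h9

theorem chart_holds (A : PFol n₁ n₂ X) : St_chart A := by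
  intro Ω G hG z hz i hi
  exact (hG.at hz).chart hi

theorem IsPC.mono {Ω Ω' : Set (ℂ × ℂ)} {G : ℂ × ℂ → X} (h : IsPC A Ω G) (hs : Ω' ⊆ Ω) :
    IsPC A Ω' G := fun z hz => h z (hs hz)

theorem IsPC.congr {Ω : Set (ℂ × ℂ)} {G G' : ℂ × ℂ → X} (h : IsPC A Ω G)
    (hG : ∀ z ∈ Ω, G =ᶠ[𝓝 z] G') : IsPC A Ω G' :=
  fun z hz => (h.at hz).congr (hG z hz)


theorem IsPC.continuousAt {Ω : Set (ℂ × ℂ)} {G : ℂ × ℂ → X} (h : IsPC A Ω G) {z : ℂ × ℂ}
    (hz : z ∈ Ω) : ContinuousAt G z := (h.at hz).continuousAt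

theorem IsPC.continuousOn {Ω : Set (ℂ × ℂ)} {G : ℂ × ℂ → X} (h : IsPC A Ω G) :
    ContinuousOn G Ω := fun _ hz => (h.continuousAt hz).continuousWithinAt







/-- germs: local form on a common bidisc -/
theorem PCAt.exists_bidisc {G : ℂ × ℂ → X} {z : ℂ × ℂ} (h : PCAt A G z) {j : A.ι}
    (hj : G z ∈ (A.ch j).source) :
    ∃ ρ > 0, ∃ (a : ℂ → EV n₁) (b : ℂ → EV n₂), AnalyticOnNhd ℂ a (ball z.1 ρ) ∧
      AnalyticOnNhd ℂ b (ball z.2 ρ) ∧ ∀ w ∈ ball z.1 ρ ×ˢ ball z.2 ρ,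
        G w ∈ (A.ch j).source ∧ A.ch j (G w) = (a w.1, b w.2) := by
  obtain ⟨a, b, ha, hb, hw⟩ := h.chart hj
  obtain ⟨r1, hr1, h1⟩ := Metric.eventually_nhds_iff_ball.1 ha.eventually_analyticAt
  obtain ⟨r2, hr2, h2⟩ := Metric.eventually_nhds_iff_ball.1 hb.eventually_analyticAt
  obtain ⟨r3, hr3, h3⟩ := Metric.eventually_nhds_iff_ball.1 hw
  refine ⟨min r1 (min r2 r3), by positivity, a, b, fun x hx => h1 x ?_, fun y hy => h2 y ?_,
    fun w hw' => h3 w ?_⟩
  · exact ball_subset_ball (min_le_left _ _) hx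
  · exact ball_subset_ball ((min_le_right _ _).trans (min_le_left _ _)) hy
  · have : w ∈ ball z (min r1 (min r2 r3)) := by
      rw [← ball_prod_same]; exact hw'
    exact ball_subset_ball ((min_le_right _ _).trans (min_le_right _ _)) this

/-- two p.c. germs with the same value that agree frequently near the point (as germs) agree -/
theorem PCAt.eventuallyEq_of_frequently {G G' : ℂ × ℂ → X} {z : ℂ × ℂ} (h : PCAt A G z)
    (h' : PCAt A G' z) (hz : G z = G' z) (hf : ∃ᶠ w in 𝓝 z, G =ᶠ[𝓝 w] G') :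
    G =ᶠ[𝓝 z] G' := by
  obtain ⟨i, _, _, _, _, hi⟩ := id h
  have hi1 : G z ∈ (A.ch i).source := hi.self_of_nhds.1
  have hi2 : G' z ∈ (A.ch i).source := hz ▸ hi1
  obtain ⟨ρ, hρ, a, b, ha, hb, hab⟩ := h.exists_bidisc hi1
  obtain ⟨ρ', hρ', a', b', ha', hb', hab'⟩ := h'.exists_bidisc hi2
  set r := min ρ ρ' with hr
  have hr0 : 0 < r := lt_min hρ hρ'
  have hsub : ball z.1 r ×ˢ ball z.2 r ∈ 𝓝 z := by
    rw [ball_prod_same]
    exact ball_mem_nhds _ hr0
  obtain ⟨w, hw1, hw2⟩ := (hf.and_eventually hsub).exists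
  have hwopen : IsOpen (ball z.1 r ×ˢ ball z.2 r) := isOpen_ball.prod isOpen_ball
  have key : ∀ᶠ v in 𝓝 w, (a v.1, b v.2) = (a' v.1, b' v.2) := by
    filter_upwards [hw1, hwopen.mem_nhds hw2] with v h1 h2
    have h3 := hab v ⟨ball_subset_ball (min_le_left _ _) h2.1,
      ball_subset_ball (min_le_left _ _) h2.2⟩
    have h4 := hab' v ⟨ball_subset_ball (min_le_right _ _) h2.1,
      ball_subset_ball (min_le_right _ _) h2.2⟩
    rw [← h3.2, ← h4.2, h1]
  have k1 : a =ᶠ[𝓝 w.1] a' := by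
    have hc : ContinuousAt (fun x : ℂ => (x, w.2)) w.1 := by fun_prop
    have := hc.eventually (p := fun v : ℂ × ℂ => (a v.1, b v.2) = (a' v.1, b' v.2)) key
    filter_upwards [this] with x hx
    exact (Prod.mk.inj hx).1
  have k2 : b =ᶠ[𝓝 w.2] b' := by
    have hc : ContinuousAt (fun y : ℂ => (w.1, y)) w.2 := by fun_prop
    have := hc.eventually (p := fun v : ℂ × ℂ => (a v.1, b v.2) = (a' v.1, b' v.2)) key
    filter_upwards [this] with x hx
    exact (Prod.mk.inj hx).2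
  have e1 : EqOn a a' (ball z.1 r) :=
    (ha.mono (ball_subset_ball (min_le_left _ _))).eqOn_of_preconnected_of_eventuallyEq
      (ha'.mono (ball_subset_ball (min_le_right _ _))) (convex_ball _ _).isPreconnected hw2.1 k1
  have e2 : EqOn b b' (ball z.2 r) :=
    (hb.mono (ball_subset_ball (min_le_left _ _))).eqOn_of_preconnected_of_eventuallyEq
      (hb'.mono (ball_subset_ball (min_le_right _ _))) (convex_ball _ _).isPreconnected hw2.2 k2
  filter_upwards [hsub] with v hv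
  have h3 := hab v ⟨ball_subset_ball (min_le_left _ _) hv.1,
    ball_subset_ball (min_le_left _ _) hv.2⟩
  have h4 := hab' v ⟨ball_subset_ball (min_le_right _ _) hv.1,
    ball_subset_ball (min_le_right _ _) hv.2⟩
  apply (A.ch i).injOn h3.1 h4.1
  rw [h3.2, h4.2, e1 hv.1, e2 hv.2]

/-- identity theorem, germ version -/
theorem IsPC.eventuallyEq_of_preconnected [T2Space X] {Ω : Set (ℂ × ℂ)} {G G' : ℂ × ℂ → X}
    (hΩ : IsPreconnected Ω) (h : IsPC A Ω G) (h' : IsPC A Ω G')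
    (hz : ∃ z ∈ Ω, G =ᶠ[𝓝 z] G') : ∀ z ∈ Ω, G =ᶠ[𝓝 z] G' := by
  have hu : IsOpen {z | G =ᶠ[𝓝 z] G'} := isOpen_setOfPred_eventually_nhds
  have := hΩ.subset_of_closure_inter_subset hu
    (by obtain ⟨z, h1, h2⟩ := hz; exact ⟨z, h1, h2⟩) ?_
  · exact fun z hz => this hz
  rintro z ⟨hz1, hz2⟩
  have hf : ∃ᶠ w in 𝓝 z, G =ᶠ[𝓝 w] G' := mem_closure_iff_frequently.1 hz1
  have hval : G z = G' z :=
    tendsto_nhds_unique_of_frequently_eq (h.continuousAt hz2) (h'.continuousAt hz2)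
      (hf.mono fun w hw => hw.self_of_nhds)
  exact (h.at hz2).eventuallyEq_of_frequently (h'.at hz2) hval hf

/-- identity theorem -/
theorem IsPC.eqOn_of_preconnected [T2Space X] {Ω : Set (ℂ × ℂ)} {G G' : ℂ × ℂ → X}
    (hΩ : IsPreconnected Ω) (h : IsPC A Ω G) (h' : IsPC A Ω G')
    (hz : ∃ z ∈ Ω, G =ᶠ[𝓝 z] G') : EqOn G G' Ω :=
  fun z hz' => (IsPC.eventuallyEq_of_preconnected hΩ h h' hz z hz').self_of_nhds

theorem unique_holds [T2Space X] (A : PFol n₁ n₂ X) : St_unique A := by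
  intro Ω G G' _ hc hG hG' hz z hz'
  exact IsPC.eqOn_of_preconnected hc hG hG' hz hz'





/-- the chart representation of a p.c. map is analytic -/
theorem PCAt.analyticAt_ch {G : ℂ × ℂ → X} {z : ℂ × ℂ} (h : PCAt A G z) {j : A.ι}
    (hj : G z ∈ (A.ch j).source) : AnalyticAt ℂ (fun w => A.ch j (G w)) z := by
  obtain ⟨a, b, ha, hb, hw⟩ := h.chart hj
  have h1 : AnalyticAt ℂ (fun w : ℂ × ℂ => (a w.1, b w.2)) z :=
    (AnalyticAt.comp (f := fun w : ℂ × ℂ => w.1) ha analyticAt_fst).prod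
      (AnalyticAt.comp (f := fun w : ℂ × ℂ => w.2) hb analyticAt_snd)
  refine h1.congr ?_
  filter_upwards [hw] with w hw'
  exact hw'.2.symm

end

end Crest.Agent.R266
end

-- ▼ part R266/E0W

/-!
R266 / E0W: the energy density of `t ↦ G (pt t (H t))` is at most twice the trace density, hence
`St_E0` (the form used in `CE`) from the strong form `St_E0S`.
-/

set_option autoImplicit false
open scoped Manifold ContDiff Topology ENNReal Real
open Set Metric Filter MeasureTheory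

namespace Crest.Agent.R266.E0

variable {n₁ n₂ : ℕ} {X : Type} [TopologicalSpace X] {A : PFol n₁ n₂ X}

lemma pt_hasFDerivAt {H : ℂ → ℂ} {t : ℂ} (hH : DifferentiableAt ℂ H t) :
    HasDerivAt (fun s => pt s (H s)) ((deriv H t + 1) / 2, (deriv H t - 1) / 2) t := by
  have h1 : HasDerivAt (fun s => (H s + s) / 2) ((deriv H t + 1) / 2) t :=
    (hH.hasDerivAt.add (hasDerivAt_id t)).div_const 2
  have h2 : HasDerivAt (fun s => (H s - s) / 2) ((deriv H t - 1) / 2) t :=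
    (hH.hasDerivAt.sub (hasDerivAt_id t)).div_const 2
  exact h1.prodMk h2

/-- the curve `t ↦ G (pt t (H t))` is holomorphic -/
lemma hol_curve {Ω : Set (ℂ × ℂ)} {G : ℂ × ℂ → X} (hG : IsPC A Ω G) {H : ℂ → ℂ} {U : Set ℂ}
    (hU : IsOpen U) (hH : DifferentiableOn ℂ H U) (hin : ∀ t ∈ U, pt t (H t) ∈ Ω) :
    IsHolC A U (fun t => G (pt t (H t))) := by
  intro t ht
  obtain ⟨i, a, b, ha, hb, h⟩ := hG _ (hin t ht)
  have hHt : AnalyticAt ℂ H t := hH.analyticAt (hU.mem_nhds ht)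
  refine ⟨i, fun s => (a ((H s + s) / 2), b ((H s - s) / 2)), ?_, ?_⟩
  · apply AnalyticAt.prod
    · refine AnalyticAt.fun_comp (g := a) (f := fun s => (H s + s) / 2) ha ?_
      exact (hHt.add analyticAt_id).div_const
    · refine AnalyticAt.fun_comp (g := b) (f := fun s => (H s - s) / 2) hb ?_
      exact (hHt.sub analyticAt_id).div_const
  · have hc : ContinuousAt (fun s => pt s (H s)) t :=
      (pt_hasFDerivAt hHt.differentiableAt).continuousAt
    exact hc.eventually h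

lemma g_smul (K : KMet A) {i : A.ι} {p : EV n₁ × EV n₂}
    (hp : p ∈ ball (0 : EV n₁) 1 ×ˢ ball (0 : EV n₂) 1) (c : ℂ) (x : EV n₁ × EV n₂) :
    K.g i p (c • x) (c • x) = ‖c‖ ^ 2 * K.g i p x x := by
  have h1 : c • x = c.re • x + c.im • (Complex.I • x) := by
    conv_lhs => rw [← Complex.re_add_im c]
    rw [add_smul, mul_smul]
    rfl
  have h2 : K.g i p x (Complex.I • x) = 0 := by
    have h3 := K.herm i p hp x (Complex.I • x)
    rw [smul_smul, Complex.I_mul_I, neg_one_smul, map_neg, K.symm i p hp (Complex.I • x) x] at h3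
    linarith
  have h3 : K.g i p (Complex.I • x) x = 0 := by rw [K.symm i p hp]; exact h2
  rw [h1]
  simp only [map_add, map_smul, ContinuousLinearMap.add_apply, ContinuousLinearMap.smul_apply,
    smul_eq_mul, h2, h3, K.herm i p hp]
  rw [← Complex.normSq_eq_norm_sq, Complex.normSq_apply]
  ring

/-- density along a curve is bounded by twice the trace density -/
lemma dens_curve_le (K : KMet A) {Ω : Set (ℂ × ℂ)} {G : ℂ × ℂ → X} (hG : IsPC A Ω G) {H : ℂ → ℂ}
    {t : ℂ} (hH : DifferentiableAt ℂ H t) (hd : ‖deriv H t‖ ≤ 1 / 2) (hin : pt t (H t) ∈ Ω)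
    (hsrc : DifferentiableAt ℂ
      (fun w => A.ch (A.idx (G (pt t (H t)))) (G w)) (pt t (H t))) :
    densM K (fun t => G (pt t (H t))) t ≤ 2 * trM K G (pt t (H t)) := by
  set z := pt t (H t) with hz
  set i := A.idx (G z) with hi
  set F : ℂ × ℂ → EV n₁ × EV n₂ := fun w => A.ch i (G w) with hF
  have hp : A.ch i (G z) ∈ ball (0 : EV n₁) 1 ×ˢ ball (0 : EV n₂) 1 := by
    rw [← A.target_eq i]; exact (A.ch i).map_source (idx_source A _)
  set p := A.ch i (G z) with hpdef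
  set L := fderiv ℂ F z with hL
  set u₁ : ℂ := (deriv H t + 1) / 2 with hu₁
  set u₂ : ℂ := (deriv H t - 1) / 2 with hu₂
  have hder : deriv (fun s => A.ch i (G (pt s (H s)))) t = L (u₁, u₂) := by
    have h1 : HasDerivAt (fun s => F (pt s (H s))) (L (u₁, u₂)) t :=
      HasFDerivAt.comp_hasDerivAt (l := F) (f := fun s => pt s (H s)) t hsrc.hasFDerivAt
        (pt_hasFDerivAt hH)
    exact h1.deriv
  have hdens : densM K (fun t => G (pt t (H t))) t = K.g i p (L (u₁, u₂)) (L (u₁, u₂)) := by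
    rw [← hder]; rfl
  have htr : trM K G z = K.g i p (L (1, 0)) (L (1, 0)) + K.g i p (L (0, 1)) (L (0, 1)) := rfl
  rw [hdens, htr]
  set x := L (1, 0) with hx
  set y := L (0, 1) with hy
  have hsplit : L (u₁, u₂) = u₁ • x + u₂ • y := by
    rw [hx, hy, ← map_smul, ← map_smul, ← map_add]
    congr 1
    simp
  have hpsd : ∀ v, 0 ≤ K.g i p v v := by
    intro v
    by_cases h : v = 0
    · rw [h]; simp
    · exact (K.pos i p hp v h).le
  have hpar : K.g i p (u₁ • x + u₂ • y) (u₁ • x + u₂ • y) ≤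
      2 * (‖u₁‖ ^ 2 * K.g i p x x) + 2 * (‖u₂‖ ^ 2 * K.g i p y y) := by
    have h1 := hpsd (u₁ • x - u₂ • y)
    rw [← g_smul K hp, ← g_smul K hp]
    simp only [map_add, map_sub, ContinuousLinearMap.add_apply,
      ContinuousLinearMap.sub_apply] at h1 ⊢
    linarith
  rw [hsplit]
  have hu1 : ‖u₁‖ ^ 2 ≤ 1 := by
    have h1 : ‖deriv H t + 1‖ ≤ 3 / 2 := (norm_add_le _ _).trans (by rw [norm_one]; linarith)
    have h2 : ‖u₁‖ ≤ 1 := by
      rw [hu₁, norm_div, Complex.norm_ofNat]; linarith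
    nlinarith [norm_nonneg u₁]
  have hu2 : ‖u₂‖ ^ 2 ≤ 1 := by
    have h1 : ‖deriv H t - 1‖ ≤ 3 / 2 := (norm_sub_le _ _).trans (by rw [norm_one]; linarith)
    have h2 : ‖u₂‖ ≤ 1 := by
      rw [hu₂, norm_div, Complex.norm_ofNat]; linarith
    nlinarith [norm_nonneg u₂]
  have h1 : ‖u₁‖ ^ 2 * K.g i p x x ≤ K.g i p x x := by
    have := mul_le_mul_of_nonneg_right hu1 (hpsd x); linarith
  have h2 : ‖u₂‖ ^ 2 * K.g i p y y ≤ K.g i p y y := by
    have := mul_le_mul_of_nonneg_right hu2 (hpsd y); linarith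
  linarith

/-- p.c. maps are differentiable in any chart -/
lemma pc_chart_differentiableAt {Ω : Set (ℂ × ℂ)} {G : ℂ × ℂ → X} (hG : IsPC A Ω G) {z : ℂ × ℂ}
    (hz : z ∈ Ω) {j : A.ι} (hj : G z ∈ (A.ch j).source) :
    DifferentiableAt ℂ (fun w => A.ch j (G w)) z := by
  obtain ⟨i, a, b, ha, hb, h⟩ := hG z hz
  have ht' := h.self_of_nhds
  have h1 := trans_analytic A ht'.1 hj
  rw [ht'.2] at h1
  have hab : AnalyticAt ℂ (fun w : ℂ × ℂ => (a w.1, b w.2)) z := by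
    apply AnalyticAt.prod
    · exact AnalyticAt.fun_comp (g := a) (f := Prod.fst) ha analyticAt_fst
    · exact AnalyticAt.fun_comp (g := b) (f := Prod.snd) hb analyticAt_snd
  have h2 : AnalyticAt ℂ (fun w : ℂ × ℂ => A.ch j ((A.ch i).symm (a w.1, b w.2))) z :=
    AnalyticAt.fun_comp (g := fun p => A.ch j ((A.ch i).symm p))
      (f := fun w : ℂ × ℂ => (a w.1, b w.2)) h1 hab
  refine (h2.congr (h.mono fun w hw => ?_)).differentiableAt
  simp only [← hw.2, (A.ch i).left_inv hw.1]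

/-- **St_E0** -/
theorem E0_of_E0S (K : KMet A) (h : St_E0S K) : St_E0 K := by
  obtain ⟨a₁, ha₁, h⟩ := h 1 one_pos
  refine ⟨a₁ / 2, by positivity, fun Ω G H t₀ r hr hΩ hG hH hd hin hA => ?_⟩
  have hf := hol_curve hG isOpen_ball hH hin
  have hle : (∫⁻ t in ball t₀ r, ENNReal.ofReal (densM K (fun t => G (pt t (H t))) t)) ≤
      ENNReal.ofReal a₁ := by
    calc (∫⁻ t in ball t₀ r, ENNReal.ofReal (densM K (fun t => G (pt t (H t))) t))
        ≤ ∫⁻ t in ball t₀ r, ENNReal.ofReal 2 * ENNReal.ofReal (trM K G (pt t (H t))) := by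
          apply setLIntegral_mono' measurableSet_ball
          intro t ht
          rw [← ENNReal.ofReal_mul (by norm_num)]
          apply ENNReal.ofReal_le_ofReal
          exact dens_curve_le K hG ((hH t ht).differentiableAt (isOpen_ball.mem_nhds ht))
            (hd t ht) (hin t ht) (pc_chart_differentiableAt hG (hin t ht) (idx_source A _))
      _ = ENNReal.ofReal 2 * ∫⁻ t in ball t₀ r, ENNReal.ofReal (trM K G (pt t (H t))) :=
          lintegral_const_mul' _ _ ENNReal.ofReal_ne_top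
      _ ≤ ENNReal.ofReal 2 * ENNReal.ofReal (a₁ / 2) := by gcongr
      _ = ENNReal.ofReal a₁ := by
          rw [← ENNReal.ofReal_mul (by norm_num)]; congr 1; ring
  have hidx := idx_norm A (G (pt t₀ (H t₀)))
  rw [Prod.norm_def, max_lt_iff] at hidx
  refine ⟨A.idx (G (pt t₀ (H t₀))), fun t ht => ?_⟩
  exact (h (fun t => G (pt t (H t))) t₀ r hr hf hle _ (idx_source A _)
    ⟨by rw [mem_ball_zero_iff]; linarith [hidx.1], by rw [mem_ball_zero_iff]; linarith [hidx.2]⟩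
    t ht).1

/-- **St_E0** -/
theorem E0_holds [T2Space X] [Finite A.ι] (K : KMet A) : St_E0 K := E0_of_E0S K (E0S_holds K)

end Crest.Agent.R266.E0
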