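import Crest.Agent.R266.MaxGraph
import Mathlib
import Crest.Agent.R266.Stmts

-- ▼ part R266/Contact
section

/-!
R266 / Contact: contact points of the graph function `m` with the paraboloids
`par C + Re (b t) + s` (NC block of S0405), and the lower mass bound at contact points.
-/

set_option autoImplicit false

open scoped Manifold ContDiff Topology ENNReal
open Set Metric Filter MeasureTheory

namespace Crest.Agent.R266

namespace Cont

@[simp] theorem tau_pt (t Z : ℂ) : tau (pt t Z) = t := by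
  simp only [tau, pt]; ring

@[simp] theorem XX_pt (t Z : ℂ) : XX (pt t Z) = Z.re := by
  have : (Z + t) / 2 + (Z - t) / 2 = Z := by ring
  simp only [XX, pt, this]

@[simp] theorem eta_pt (t Z : ℂ) : eta (pt t Z) = Z.im := by
  have : (Z + t) / 2 + (Z - t) / 2 = Z := by ring
  simp only [eta, pt, this]

theorem re_mul_le (b t : ℂ) : |(b * t).re| ≤ ‖b‖ * ‖t‖ := by
  rw [← norm_mul]; exact Complex.abs_re_le_norm _

end Cont

open Cont in
/-- **contact points** of the graph with the paraboloids -/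
theorem contact {ε C₀ C : ℝ} {m : ℂ → ℝ → ℝ} (hC₀ : 0 ≤ C₀) (hC : C₀ < C)
    (husc : ∀ t e, ‖t‖ < ε → |e| < ε → ∀ c, m t e < c → ∀ᶠ q : ℂ × ℝ in 𝓝 (t, e), m q.1 q.2 < c)
    (hle : ∀ t e, m t e ≤ par C₀ t e) (h0 : m 0 0 = 0) (b : ℂ) (hb : ‖b‖ < (C - C₀) * ε) :
    ∃ (p : ℂ × ℂ) (s : ℝ), ‖tau p‖ ≤ ‖b‖ / (C - C₀) ∧ |eta p| ≤ ‖b‖ / (C - C₀) ∧ 0 ≤ s ∧
      s ≤ ‖b‖ ^ 2 / (4 * (C - C₀)) ∧ XX p = m (tau p) (eta p) ∧ w_ C b s p = 0 ∧
      |XX p| ≤ (2 * C / (C - C₀) ^ 2 + 2 / (C - C₀)) * ‖b‖ ^ 2 ∧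
      ∀ t e, m t e ≤ par C t e + (b * t).re + s := by
  set D : ℝ := C - C₀ with hD
  have hD0 : 0 < D := by rw [hD]; linarith
  have hCpos : 0 < C := by linarith
  set R : ℝ := ‖b‖ / D with hR
  have hR0 : 0 ≤ R := by positivity
  have hRε : R < ε := by rw [hR, div_lt_iff₀ hD0]; linarith
  have hDR : D * R = ‖b‖ := by rw [hR]; field_simp
  -- the bound outside
  have hbd : ∀ t e, m t e - par C t e - (b * t).re ≤ -D * (‖t‖ ^ 2 + e ^ 2) + ‖b‖ * ‖t‖ := by
    intro t e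
    have h1 := hle t e
    have h2 := (abs_le.1 (re_mul_le b t)).1
    have h3 : par C₀ t e - par C t e = -D * (‖t‖ ^ 2 + e ^ 2) := by
      simp only [par, hD]; ring
    linarith
  set F : ℂ × ℝ → ℝ := fun q => m q.1 q.2 - par C q.1 q.2 - (b * q.1).re with hF
  set Kc : Set (ℂ × ℝ) := closedBall (0 : ℂ) R ×ˢ closedBall (0 : ℝ) R with hKc
  have hKcomp : IsCompact Kc := (isCompact_closedBall _ _).prod (isCompact_closedBall _ _)
  have hKne : Kc.Nonempty := ⟨(0, 0), by simp [hKc, hR0]⟩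
  have hFusc : UpperSemicontinuousOn F Kc := by
    intro q hq c hc
    have hq1 : ‖q.1‖ < ε := by
      have := (mem_closedBall_zero_iff.1 hq.1); linarith
    have hq2 : |q.2| < ε := by
      have := (mem_closedBall_zero_iff.1 hq.2)
      rw [Real.norm_eq_abs] at this; linarith
    refine Filter.Eventually.filter_mono nhdsWithin_le_nhds ?_
    set g : ℂ × ℝ → ℝ := fun q => par C q.1 q.2 + (b * q.1).re with hg
    have hgc : Continuous g := by
      rw [hg]; unfold par; fun_prop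
    have hlt : m q.1 q.2 < (c + g q + m q.1 q.2) / 2 := by
      have : m q.1 q.2 - g q < c := by
        have h1 : F q = m q.1 q.2 - g q := by simp only [hF, hg]; ring
        rw [← h1]; exact hc
      linarith
    have h1 := husc q.1 q.2 hq1 hq2 _ hlt
    have h2 : ∀ᶠ x in 𝓝 q, (g q + m q.1 q.2 - c) / 2 < g x := by
      refine hgc.continuousAt.eventually (lt_mem_nhds ?_)
      have : m q.1 q.2 - g q < c := by
        have h1 : F q = m q.1 q.2 - g q := by simp only [hF, hg]; ring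
        rw [← h1]; exact hc
      linarith
    filter_upwards [h1, h2] with x hx1 hx2
    have h3 : F x = m x.1 x.2 - g x := by simp only [hF, hg]; ring
    rw [h3]; linarith
  obtain ⟨q, hqK, hqmax⟩ := UpperSemicontinuousOn.exists_isMaxOn hKne hKcomp hFusc
  have hF0 : F (0, 0) = 0 := by simp [hF, h0, par]
  have hs0 : 0 ≤ F q := by
    rw [← hF0]
    exact hqmax (show ((0, 0) : ℂ × ℝ) ∈ Kc by simp [hKc, hR0])
  have hq1 : ‖q.1‖ ≤ R := mem_closedBall_zero_iff.1 hqK.1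
  have hq2 : |q.2| ≤ R := by
    have := mem_closedBall_zero_iff.1 hqK.2
    rwa [Real.norm_eq_abs] at this
  have hglob : ∀ t e, m t e ≤ par C t e + (b * t).re + F q := by
    intro t e
    by_cases hte : (t, e) ∈ Kc
    · have h1 : F (t, e) ≤ F q := hqmax hte
      have h2 : F (t, e) = m t e - par C t e - (b * t).re := rfl
      linarith
    · have h1 := hbd t e
      have h2 : -D * (‖t‖ ^ 2 + e ^ 2) + ‖b‖ * ‖t‖ ≤ 0 := by
        rw [← hDR]
        have h3 : R < ‖t‖ ∨ (‖t‖ ≤ R ∧ R < |e|) := by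
          by_contra hcon
          push Not at hcon
          apply hte
          refine ⟨mem_closedBall_zero_iff.2 hcon.1, mem_closedBall_zero_iff.2 ?_⟩
          rw [Real.norm_eq_abs]
          exact hcon.2 hcon.1
        rcases h3 with h3 | ⟨h3, h4⟩
        · have h5 : R * ‖t‖ ≤ ‖t‖ ^ 2 := by nlinarith [norm_nonneg t]
          have h6 : D * (R * ‖t‖) ≤ D * ‖t‖ ^ 2 := by gcongr
          nlinarith [mul_nonneg hD0.le (sq_nonneg e)]
        · have h5 : R * ‖t‖ ≤ e ^ 2 := by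
            rw [← sq_abs e]; nlinarith [norm_nonneg t]
          have h6 : D * (R * ‖t‖) ≤ D * e ^ 2 := by gcongr
          nlinarith [mul_nonneg hD0.le (sq_nonneg ‖t‖)]
      linarith
  have hsup : F q ≤ ‖b‖ ^ 2 / (4 * D) := by
    have h1 := hbd q.1 q.2
    have h2 : F q = m q.1 q.2 - par C q.1 q.2 - (b * q.1).re := rfl
    have h3 : ‖b‖ ^ 2 / (4 * D) - (-D * ‖q.1‖ ^ 2 + ‖b‖ * ‖q.1‖) =
        D * (‖q.1‖ - ‖b‖ / (2 * D)) ^ 2 := by
      field_simp; ring
    have h4 : 0 ≤ D * (‖q.1‖ - ‖b‖ / (2 * D)) ^ 2 := by positivity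
    have h5 : 0 ≤ D * q.2 ^ 2 := by positivity
    nlinarith
  have hmq : m q.1 q.2 = par C q.1 q.2 + (b * q.1).re + F q := by
    have h2 : F q = m q.1 q.2 - par C q.1 q.2 - (b * q.1).re := rfl
    linarith
  refine ⟨pt q.1 ⟨m q.1 q.2, q.2⟩, F q, ?_, ?_, hs0, hsup, ?_, ?_, ?_, hglob⟩
  · rw [tau_pt]; exact hq1
  · rw [eta_pt]; exact hq2
  · rw [XX_pt, tau_pt, eta_pt]
  · rw [w_, XX_pt, tau_pt, eta_pt]
    change m q.1 q.2 - par C q.1 q.2 - (b * q.1).re - F q = 0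
    linarith
  · rw [XX_pt]
    change |m q.1 q.2| ≤ _
    rw [hmq]
    have h1 : |par C q.1 q.2| ≤ C * (2 * R ^ 2) := by
      rw [par, abs_of_nonneg (by positivity)]
      have h2 : ‖q.1‖ ^ 2 ≤ R ^ 2 := by gcongr
      have h3 : q.2 ^ 2 ≤ R ^ 2 := by rw [← sq_abs]; gcongr
      have h4 : ‖q.1‖ ^ 2 + q.2 ^ 2 ≤ 2 * R ^ 2 := by linarith
      gcongr
    have h2 : |(b * q.1).re| ≤ ‖b‖ * R := (re_mul_le b q.1).trans (by gcongr)
    have h3 : |F q| ≤ ‖b‖ ^ 2 / (4 * D) := by rw [abs_of_nonneg hs0]; exact hsup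
    have h4 : C * (2 * R ^ 2) + ‖b‖ * R + ‖b‖ ^ 2 / (4 * D) ≤
        (2 * C / D ^ 2 + 2 / D) * ‖b‖ ^ 2 := by
      have h5 : (2 * C / D ^ 2 + 2 / D) * ‖b‖ ^ 2 -
          (C * (2 * R ^ 2) + ‖b‖ * R + ‖b‖ ^ 2 / (4 * D)) = 3 / 4 * ‖b‖ ^ 2 / D := by
        rw [hR]; field_simp; ring
      have h6 : 0 ≤ 3 / 4 * ‖b‖ ^ 2 / D := by positivity
      linarith
    calc |par C q.1 q.2 + (b * q.1).re + F q|
        ≤ |par C q.1 q.2| + |(b * q.1).re| + |F q| := abs_add_three _ _ _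
      _ ≤ C * (2 * R ^ 2) + ‖b‖ * R + ‖b‖ ^ 2 / (4 * D) := by gcongr
      _ ≤ _ := h4

namespace Cont

/-! ### sizes of the coordinates -/

theorem norm_tau_sub_le (z p : ℂ × ℂ) : ‖tau z - tau p‖ ≤ 2 * ‖z - p‖ := by
  have h : tau z - tau p = (z - p).1 - (z - p).2 := by
    simp only [tau, Prod.fst_sub, Prod.snd_sub]; ring
  rw [h]
  calc ‖(z - p).1 - (z - p).2‖ ≤ ‖(z - p).1‖ + ‖(z - p).2‖ := norm_sub_le _ _
    _ ≤ ‖z - p‖ + ‖z - p‖ := add_le_add (norm_fst_le _) (norm_snd_le _)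
    _ = _ := by ring

theorem abs_XX_sub_le (z p : ℂ × ℂ) : |XX z - XX p| ≤ 2 * ‖z - p‖ := by
  have h : XX z - XX p = ((z - p).1 + (z - p).2).re := by
    simp only [XX, Prod.fst_sub, Prod.snd_sub, Complex.add_re, Complex.sub_re]; ring
  rw [h]
  calc |((z - p).1 + (z - p).2).re| ≤ ‖(z - p).1 + (z - p).2‖ := Complex.abs_re_le_norm _
    _ ≤ ‖(z - p).1‖ + ‖(z - p).2‖ := norm_add_le _ _
    _ ≤ ‖z - p‖ + ‖z - p‖ := add_le_add (norm_fst_le _) (norm_snd_le _)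
    _ = _ := by ring

theorem abs_eta_sub_le (z p : ℂ × ℂ) : |eta z - eta p| ≤ 2 * ‖z - p‖ := by
  have h : eta z - eta p = ((z - p).1 + (z - p).2).im := by
    simp only [eta, Prod.fst_sub, Prod.snd_sub, Complex.add_im, Complex.sub_im]; ring
  rw [h]
  calc |((z - p).1 + (z - p).2).im| ≤ ‖(z - p).1 + (z - p).2‖ := Complex.abs_im_le_norm _
    _ ≤ ‖(z - p).1‖ + ‖(z - p).2‖ := norm_add_le _ _
    _ ≤ ‖z - p‖ + ‖z - p‖ := add_le_add (norm_fst_le _) (norm_snd_le _)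
    _ = _ := by ring

@[simp] theorem tau_zero : tau 0 = 0 := by simp [tau]
@[simp] theorem XX_zero : XX 0 = 0 := by simp [XX]
@[simp] theorem eta_zero : eta 0 = 0 := by simp [eta]
@[simp] theorem par_zero (C : ℝ) : par C 0 0 = 0 := by simp [par]

theorem continuous_par_comp (C : ℝ) : Continuous (fun z : ℂ × ℂ => par C (tau z) (eta z)) := by
  unfold par tau eta; fun_prop

theorem continuous_w_ (C : ℝ) (b : ℂ) (s : ℝ) : Continuous (w_ C b s) := by
  unfold w_ XX par tau eta; fun_prop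

end Cont

section
variable {n₁ n₂ : ℕ} {X : Type} [TopologicalSpace X]

open Cont in
/-- if `0` is irregular then the graph passes through `0` -/
theorem m_zero {A : PFol n₁ n₂ X} {ε C₀ : ℝ} {m : ℂ → ℝ → ℝ} {G G₀ : ℂ × ℂ → X} (hε : 0 < ε)
    (hM : Maxi A ε m G) (hle : ∀ t e, m t e ≤ par C₀ t e)
    (hG : ∀ z ∈ GD ε (par C₀), G z = G₀ z)
    (hirr : ¬ ∃ ρ > 0, ∃ G' : ℂ × ℂ → X, IsPC A (ball 0 ρ) G' ∧
      ∀ z ∈ ball (0 : ℂ × ℂ) ρ ∩ GD ε (par C₀), G' z = G₀ z) : m 0 0 = 0 := by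
  refine le_antisymm ((hle 0 0).trans_eq (par_zero C₀)) ?_
  by_contra hneg
  push Not at hneg
  apply hirr
  have hopen : IsOpen (GD ε m) := MaxGraph.isOpen_GD hM.usc
  have h0 : (0 : ℂ × ℂ) ∈ GD ε m := by
    refine ⟨?_, ?_, ?_, ?_⟩
    · simpa using hε
    · simpa using hε
    · simpa using hneg
    · simpa using hε
  obtain ⟨ρ, hρ, hsub⟩ := Metric.isOpen_iff.1 hopen 0 h0
  exact ⟨ρ, hρ, G, MaxGraph.isPC_mono hM.pc hsub, fun z hz => hG z hz.2⟩

theorem Cont.mem_GD_of_w {ε C : ℝ} {m : ℂ → ℝ → ℝ} {b : ℂ} {s : ℝ}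
    (hm : ∀ t e, m t e ≤ par C t e + (b * t).re + s) {z : ℂ × ℂ} (h1 : ‖tau z‖ < ε)
    (h2 : |eta z| < ε) (h3 : XX z < ε) (hw : 0 < w_ C b s z) : z ∈ GD ε m := by
  refine ⟨h1, h2, ?_, h3⟩
  have := hm (tau z) (eta z)
  have hw' : 0 < XX z - par C (tau z) (eta z) - (b * tau z).re - s := hw
  linarith

open Cont in
/-- **lower mass bound** at contact points -/
theorem lower_mass {A : PFol n₁ n₂ X} (K : KMet A) {ε C : ℝ} (hε : 0 < ε) (hCst : St_C K C)
    {m : ℂ → ℝ → ℝ} {G : ℂ × ℂ → X} (hM : Maxi A ε m G) :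
    ∃ b₁ > 0, ∃ c₁ > 0, ∃ r₁ > 0, ∀ (b : ℂ) (p : ℂ × ℂ) (s : ℝ), ‖b‖ ≤ b₁ → ‖tau p‖ ≤ b₁ →
      |eta p| ≤ b₁ → |XX p| ≤ b₁ → XX p = m (tau p) (eta p) → w_ C b s p = 0 →
      (∀ t e, m t e ≤ par C t e + (b * t).re + s) → ∀ r, 0 < r → r ≤ r₁ →
      ENNReal.ofReal (c₁ * r ^ 2) ≤
        ∫⁻ z in ball p r ∩ {z | 0 < w_ C b s z}, ENNReal.ofReal (trM K G z) := by
  obtain ⟨b₀, hb₀, c₁, hc₁, r₀, hr₀, hC⟩ := hCst
  refine ⟨min b₀ (ε / 2), by positivity, c₁, hc₁, min r₀ (ε / 8), by positivity, ?_⟩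
  intro b p s hb htp hep hXp hmp hw hm r hr hrr
  by_contra hlt
  push Not at hlt
  have hrε : r ≤ ε / 8 := hrr.trans (min_le_right _ _)
  have hpε : ‖tau p‖ ≤ ε / 2 := htp.trans (min_le_right _ _)
  have hpε' : |eta p| ≤ ε / 2 := hep.trans (min_le_right _ _)
  have hpε'' : |XX p| ≤ ε / 2 := hXp.trans (min_le_right _ _)
  have hsub : ball p r ∩ {z | 0 < w_ C b s z} ⊆ GD ε m := by
    rintro z ⟨hz, hzw⟩
    have hzp : ‖z - p‖ < r := by rwa [mem_ball, dist_eq_norm] at hz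
    refine mem_GD_of_w hm ?_ ?_ ?_ hzw
    · have h1 := norm_tau_sub_le z p
      have h2 : ‖tau z‖ ≤ ‖tau z - tau p‖ + ‖tau p‖ := by
        simpa using norm_add_le (tau z - tau p) (tau p)
      linarith
    · have h1 := abs_eta_sub_le z p
      have h2 : |eta z| ≤ |eta z - eta p| + |eta p| := by
        simpa using abs_add_le (eta z - eta p) (eta p)
      linarith
    · have h1 := (abs_le.1 (abs_XX_sub_le z p)).2
      have h2 := (abs_le.1 hpε'').2
      linarith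
  obtain ⟨ρ, hρ, G', hG', hGG⟩ := hC p b s r G (hb.trans (min_le_left _ _))
    (htp.trans (min_le_left _ _)) (hep.trans (min_le_left _ _)) hw hr
    (hrr.trans (min_le_left _ _)) (MaxGraph.isPC_mono hM.pc hsub) hlt
  have hX1 := (abs_le.1 hpε'').1
  have hX2 := (abs_le.1 hpε'').2
  refine hM.irr p (by linarith) (by linarith) hmp (by linarith) (by linarith) ?_
  obtain ⟨σ, hσ0, hσ⟩ := exists_between (show 0 < min ρ (ε / 4) by positivity)
  have hσρ : σ < ρ := hσ.trans_le (min_le_left _ _)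
  have hσε : σ < ε / 4 := hσ.trans_le (min_le_right _ _)
  refine ⟨ρ, hρ, G', hG', σ, hσ0, hσρ, by linarith, ?_⟩
  set q : ℂ × ℂ := p + (((σ / 2 : ℝ) : ℂ), ((σ / 2 : ℝ) : ℂ)) with hq
  have hqv : q = p + MaxGraph.vert σ := rfl
  have hqball : q ∈ ball p ρ := by
    rw [mem_ball, dist_eq_norm, hq, add_sub_cancel_left]
    have : ‖(((σ / 2 : ℝ) : ℂ), ((σ / 2 : ℝ) : ℂ))‖ = σ / 2 := by
      rw [Prod.norm_mk, Complex.norm_real, Real.norm_eq_abs, abs_of_pos (by positivity), max_self]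
    rw [this]; linarith
  have hqw : 0 < w_ C b s q := by
    have h1 : w_ C b s q = w_ C b s p + σ := by
      simp only [w_, hqv, MaxGraph.XX_add_vert, MaxGraph.tau_add_vert, MaxGraph.eta_add_vert]
      ring
    rw [h1, hw]; linarith
  filter_upwards [isOpen_ball.mem_nhds hqball,
    ((continuous_w_ C b s).continuousAt (x := q)).eventually (lt_mem_nhds hqw)] with z h1 h2
  exact hGG z h1 h2

end

end Crest.Agent.R266
end

-- ▼ part R266/Safe
section

/-!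
R266 / Safe: the cutoff function, the set `S` and the constants needed to apply the slice mass
lemma `St_B` to the maximal graph domain (NC block of S0405).
-/

set_option autoImplicit false

open scoped Manifold ContDiff Topology ENNReal
open Set Metric Filter MeasureTheory

namespace Crest.Agent.R266

namespace Cont

/-- smooth step: `1` on `(-∞, 1/2]`, `0` on `[1, ∞)` -/
noncomputable def stp (u : ℝ) : ℝ := Real.smoothTransition (2 - 2 * u)

theorem stp_one {u : ℝ} (h : u ≤ 1 / 2) : stp u = 1 :=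
  Real.smoothTransition.one_of_one_le (by linarith)

theorem stp_zero {u : ℝ} (h : 1 ≤ u) : stp u = 0 :=
  Real.smoothTransition.zero_of_nonpos (by linarith)

theorem stp_nonneg (u : ℝ) : 0 ≤ stp u := Real.smoothTransition.nonneg _

theorem stp_le_one (u : ℝ) : stp u ≤ 1 := Real.smoothTransition.le_one _

theorem contDiff_stp : ContDiff ℝ ∞ stp := by
  unfold stp
  exact Real.smoothTransition.contDiff.comp (by fun_prop)

/-- the cutoff -/
noncomputable def cut (a : ℝ) (z : ℂ × ℂ) : ℝ :=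
  stp (‖tau z‖ ^ 2 / a ^ 2) * stp (eta z ^ 2 / a ^ 2) * stp (XX z ^ 2 / a ^ 2)

theorem contDiff_tau : ContDiff ℝ ∞ tau := by
  unfold tau; fun_prop

theorem contDiff_XX : ContDiff ℝ ∞ XX := by
  unfold XX
  exact Complex.reCLM.contDiff.comp (contDiff_fst.add contDiff_snd)

theorem contDiff_eta : ContDiff ℝ ∞ eta := by
  unfold eta
  exact Complex.imCLM.contDiff.comp (contDiff_fst.add contDiff_snd)

theorem contDiff_cut (a : ℝ) : ContDiff ℝ ∞ (cut a) := by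
  unfold cut
  refine ContDiff.mul (ContDiff.mul ?_ ?_) ?_
  · exact contDiff_stp.comp ((contDiff_tau.norm_sq ℝ).div_const _)
  · exact contDiff_stp.comp ((contDiff_eta.pow 2).div_const _)
  · exact contDiff_stp.comp ((contDiff_XX.pow 2).div_const _)

theorem cut_nonneg (a : ℝ) (z : ℂ × ℂ) : 0 ≤ cut a z :=
  mul_nonneg (mul_nonneg (stp_nonneg _) (stp_nonneg _)) (stp_nonneg _)

theorem cut_le_one (a : ℝ) (z : ℂ × ℂ) : cut a z ≤ 1 :=
  mul_le_one₀ (mul_le_one₀ (stp_le_one _) (stp_nonneg _) (stp_le_one _)) (stp_nonneg _)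
    (stp_le_one _)

/-- the box -/
def bx (a : ℝ) : Set (ℂ × ℂ) := {z | ‖tau z‖ ≤ a ∧ |eta z| ≤ a ∧ |XX z| ≤ a}

theorem isClosed_bx (a : ℝ) : IsClosed (bx a) :=
  (isClosed_le MaxGraph.continuous_tau.norm continuous_const).inter
    ((isClosed_le MaxGraph.continuous_eta.abs continuous_const).inter
      (isClosed_le MaxGraph.continuous_XX.abs continuous_const))

theorem norm_le_coords (z : ℂ × ℂ) : ‖z‖ ≤ (‖tau z‖ + |eta z| + |XX z|) / 2 := by
  have hZ : ‖z.1 + z.2‖ ≤ |XX z| + |eta z| := Complex.norm_le_abs_re_add_abs_im _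
  have h1 : z.1 = ((z.1 + z.2) + tau z) / 2 := by simp only [tau]; ring
  have h2 : z.2 = ((z.1 + z.2) - tau z) / 2 := by simp only [tau]; ring
  rw [Prod.norm_def, max_le_iff]
  constructor
  · calc ‖z.1‖ = ‖((z.1 + z.2) + tau z) / 2‖ := by rw [← h1]
      _ = ‖(z.1 + z.2) + tau z‖ / 2 := by rw [norm_div]; norm_num
      _ ≤ _ := by have := norm_add_le (z.1 + z.2) (tau z); linarith
  · calc ‖z.2‖ = ‖((z.1 + z.2) - tau z) / 2‖ := by rw [← h2]
      _ = ‖(z.1 + z.2) - tau z‖ / 2 := by rw [norm_div]; norm_num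
      _ ≤ _ := by have := norm_sub_le (z.1 + z.2) (tau z); linarith

theorem isCompact_bx (a : ℝ) : IsCompact (bx a) := by
  refine Metric.isCompact_of_isClosed_isBounded (isClosed_bx a) ?_
  refine (Metric.isBounded_closedBall (x := (0 : ℂ × ℂ)) (r := 2 * |a|)).subset ?_
  rintro z ⟨h1, h2, h3⟩
  rw [mem_closedBall_zero_iff]
  have h4 := norm_le_coords z
  have h5 : a ≤ |a| := le_abs_self a
  linarith [norm_nonneg (tau z), abs_nonneg a]

theorem cut_ne_zero {a : ℝ} (ha : 0 < a) {z : ℂ × ℂ} (h : cut a z ≠ 0) : z ∈ bx a := by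
  have key : ∀ u : ℝ, 0 ≤ u → stp (u ^ 2 / a ^ 2) ≠ 0 → u ≤ a := by
    intro u hu hne
    by_contra hcon
    push Not at hcon
    apply hne
    apply stp_zero
    rw [le_div_iff₀ (by positivity), one_mul]
    exact pow_le_pow_left₀ ha.le hcon.le 2
  unfold cut at h
  have h1 : stp (‖tau z‖ ^ 2 / a ^ 2) ≠ 0 := fun h' => h (by rw [h']; ring)
  have h2 : stp (eta z ^ 2 / a ^ 2) ≠ 0 := fun h' => h (by rw [h']; ring)
  have h3 : stp (XX z ^ 2 / a ^ 2) ≠ 0 := fun h' => h (by rw [h']; ring)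
  rw [← sq_abs] at h2 h3
  exact ⟨key _ (norm_nonneg _) h1, key _ (abs_nonneg _) h2, key _ (abs_nonneg _) h3⟩

theorem tsupport_cut {a : ℝ} (ha : 0 < a) : tsupport (cut a) ⊆ bx a :=
  closure_minimal (fun _ hz => cut_ne_zero ha hz) (isClosed_bx a)

theorem hasCompactSupport_cut {a : ℝ} (ha : 0 < a) : HasCompactSupport (cut a) :=
  HasCompactSupport.intro (isCompact_bx a) (fun _ hz => by
    by_contra h
    exact hz (cut_ne_zero ha h))

/-- the region where the cutoff is not constantly one -/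
def Sset (a : ℝ) : Set (ℂ × ℂ) :=
  {z | ¬ (‖tau z‖ ^ 2 < a ^ 2 / 2 ∧ eta z ^ 2 < a ^ 2 / 2 ∧ XX z ^ 2 < a ^ 2 / 2)}

theorem cut_one {a : ℝ} (ha : 0 < a) {z : ℂ × ℂ} (h1 : ‖tau z‖ ^ 2 < a ^ 2 / 2)
    (h2 : eta z ^ 2 < a ^ 2 / 2) (h3 : XX z ^ 2 < a ^ 2 / 2) : cut a z = 1 := by
  have key : ∀ u : ℝ, u < a ^ 2 / 2 → stp (u / a ^ 2) = 1 := by
    intro u hu
    apply stp_one
    rw [div_le_iff₀ (by positivity)]
    linarith
  rw [cut, key _ h1, key _ h2, key _ h3]; norm_num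

theorem cut_eventually {a : ℝ} (ha : 0 < a) {z : ℂ × ℂ} (hz : z ∉ Sset a) :
    ∀ᶠ w in 𝓝 z, cut a w = cut a z := by
  simp only [Sset, mem_ofPred_eq, not_not] at hz
  obtain ⟨h1, h2, h3⟩ := hz
  rw [cut_one ha h1 h2 h3]
  filter_upwards [(MaxGraph.continuous_tau.norm.pow 2).continuousAt.eventually (gt_mem_nhds h1),
    (MaxGraph.continuous_eta.pow 2).continuousAt.eventually (gt_mem_nhds h2),
    (MaxGraph.continuous_XX.pow 2).continuousAt.eventually (gt_mem_nhds h3)] with w w1 w2 w3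
  exact cut_one ha w1 w2 w3

end Cont

section
variable {n₁ n₂ : ℕ} {X : Type} [TopologicalSpace X]

open Cont in
/-- cutoff and constants, core form -/
theorem Cont.safe_core {A : PFol n₁ n₂ X} (K : KMet A) (hpull : St_pull K) {ε C₀ C : ℝ}
    (hε : 0 < ε) (hC₀ : 0 ≤ C₀) (hC : C₀ < C) {m : ℂ → ℝ → ℝ} {G : ℂ × ℂ → X}
    (hM : Maxi A ε m G) (hle : ∀ t e, m t e ≤ par C₀ t e) {ε₀ : ℝ} (hε₀ : 0 < ε₀) :
    ∃ (χ : ℂ × ℂ → ℝ) (S : Set (ℂ × ℂ)) (M β ρ : ℝ), ContDiff ℝ ∞ χ ∧ HasCompactSupport χ ∧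
      (∀ z, 0 ≤ χ z ∧ χ z ≤ 1) ∧
      (∀ z ∈ tsupport χ, ‖tau z‖ ≤ ε₀ ∧ |eta z| ≤ ε₀ ∧ |XX z| ≤ 1 ∧ ‖tau z‖ < ε ∧ |eta z| < ε ∧
        XX z < ε) ∧
      (∀ z, z ∉ S → ∀ᶠ w in 𝓝 z, χ w = χ z) ∧ 0 < β ∧ 0 < ρ ∧
      (∀ z ∈ ball (0 : ℂ × ℂ) ρ, χ z = 1) ∧
      ∀ z ∈ S ∩ tsupport χ, ∀ l : ℝ, -β ≤ l → 0 < XX z - par C (tau z) (eta z) - l →
        trM K G z ≤ M := by
  have hCpos : 0 < C := by linarith
  set D : ℝ := C - C₀ with hD
  have hD0 : 0 < D := by rw [hD]; linarith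
  set a : ℝ := min (min ε₀ (ε / 2)) (min 1 (1 / (8 * C))) with ha
  have ha0 : 0 < a := by positivity
  have haε₀ : a ≤ ε₀ := (min_le_left _ _).trans (min_le_left _ _)
  have haε : a < ε := by
    have : a ≤ ε / 2 := (min_le_left _ _).trans (min_le_right _ _)
    linarith
  have ha1 : a ≤ 1 := (min_le_right _ _).trans (min_le_left _ _)
  have haC : 2 * C * a ^ 2 ≤ a / 4 := by
    have h1 : a ≤ 1 / (8 * C) := (min_le_right _ _).trans (min_le_right _ _)
    have h2 : C * a ≤ 1 / 8 := by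
      calc C * a ≤ C * (1 / (8 * C)) := by gcongr
        _ = 1 / 8 := by field_simp
    nlinarith
  have hparC : ∀ z ∈ bx a, par C (tau z) (eta z) ≤ a / 4 := by
    rintro z ⟨h1, h2, -⟩
    have h3 : ‖tau z‖ ^ 2 ≤ a ^ 2 := pow_le_pow_left₀ (norm_nonneg _) h1 2
    have h4 : eta z ^ 2 ≤ a ^ 2 := by
      rw [← sq_abs]; exact pow_le_pow_left₀ (abs_nonneg _) h2 2
    have h5 : par C (tau z) (eta z) ≤ C * (2 * a ^ 2) := by
      unfold par; gcongr; linarith
    linarith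
  have hpar0 : ∀ (c : ℝ) (z : ℂ × ℂ), 0 ≤ c → 0 ≤ par c (tau z) (eta z) := by
    intro c z hc; unfold par; positivity
  have hparD : ∀ z : ℂ × ℂ, par C (tau z) (eta z) = par C₀ (tau z) (eta z) +
      D * (‖tau z‖ ^ 2 + eta z ^ 2) := by
    intro z; simp only [par, hD]; ring
  set δ : ℝ := min (D * a ^ 2 / 4) (a / 4) with hδ
  have hδ0 : 0 < δ := by positivity
  -- the compact safe region
  set K₁ : Set (ℂ × ℂ) := bx a ∩ {z | par C₀ (tau z) (eta z) + δ ≤ XX z} with hK₁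
  have hK₁c : IsCompact K₁ := (isCompact_bx a).inter_right
    (isClosed_le ((continuous_par_comp C₀).add continuous_const) MaxGraph.continuous_XX)
  have hK₁s : K₁ ⊆ GD ε m := by
    rintro z ⟨⟨h1, h2, h3⟩, h4⟩
    have h5 := hle (tau z) (eta z)
    have h6 : par C₀ (tau z) (eta z) + δ ≤ XX z := h4
    exact ⟨by linarith, by linarith, by linarith, by linarith [(abs_le.1 h3).2]⟩
  have hopen : IsOpen (GD ε m) := MaxGraph.isOpen_GD hM.usc
  have hCF : CForm (GD ε m) (pullM K G) := hpull _ G hopen hM.pc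
  have hcont : ContinuousOn (fun z => pullM K G z (1, 0) (1, 0) + pullM K G z (0, 1) (0, 1))
      (GD ε m) :=
    (hCF.smooth (1, 0) (1, 0)).continuousOn.add (hCF.smooth (0, 1) (0, 1)).continuousOn
  obtain ⟨M, hMb⟩ := hK₁c.exists_bound_of_continuousOn (hcont.mono hK₁s)
  refine ⟨cut a, Sset a, M, δ, a / 4, contDiff_cut a, hasCompactSupport_cut ha0,
    fun z => ⟨cut_nonneg a z, cut_le_one a z⟩, ?_, fun z hz => cut_eventually ha0 hz, hδ0,
    by positivity, ?_, ?_⟩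
  · intro z hz
    obtain ⟨h1, h2, h3⟩ := tsupport_cut ha0 hz
    exact ⟨h1.trans haε₀, h2.trans haε₀, h3.trans ha1, by linarith, by linarith,
      by linarith [(abs_le.1 h3).2]⟩
  · intro z hz
    rw [mem_ball_zero_iff] at hz
    have h1 := norm_tau_sub_le z 0
    have h2 := abs_eta_sub_le z 0
    have h3 := abs_XX_sub_le z 0
    rw [sub_zero, tau_zero, sub_zero] at h1
    rw [sub_zero, eta_zero, sub_zero] at h2
    rw [sub_zero, XX_zero, sub_zero] at h3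
    have key : ∀ u : ℝ, 0 ≤ u → u ≤ 2 * ‖z‖ → u ^ 2 < a ^ 2 / 2 := by
      intro u hu hu2
      have h4 : u ≤ a / 2 := by linarith
      have h5 : u ^ 2 ≤ (a / 2) ^ 2 := pow_le_pow_left₀ hu h4 2
      nlinarith [pow_pos ha0 2]
    refine cut_one ha0 (key _ (norm_nonneg _) h1) ?_ ?_
    · rw [← sq_abs]; exact key _ (abs_nonneg _) h2
    · rw [← sq_abs]; exact key _ (abs_nonneg _) h3
  · rintro z ⟨hzS, hz⟩ l hl hw
    have hbx : z ∈ bx a := tsupport_cut ha0 hz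
    have h1 : ‖tau z‖ ≤ a := hbx.1
    have hzK : z ∈ K₁ := by
      refine ⟨hbx, ?_⟩
      change par C₀ (tau z) (eta z) + δ ≤ XX z
      have hpC := hparD z
      have hδ1 : δ ≤ D * a ^ 2 / 4 := min_le_left _ _
      have hδ2 : δ ≤ a / 4 := min_le_right _ _
      have hcases : a ^ 2 / 2 ≤ ‖tau z‖ ^ 2 + eta z ^ 2 ∨ a ^ 2 / 2 ≤ XX z ^ 2 := by
        by_contra hcon
        push Not at hcon
        apply hzS
        refine ⟨?_, ?_, hcon.2⟩
        · nlinarith [sq_nonneg (eta z)]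
        · nlinarith [sq_nonneg ‖tau z‖]
      rcases hcases with hc | hc
      · have h4 : D * (a ^ 2 / 2) ≤ D * (‖tau z‖ ^ 2 + eta z ^ 2) := by gcongr
        nlinarith
      · have h5 : par C₀ (tau z) (eta z) ≤ par C (tau z) (eta z) := by
          rw [hpC]; nlinarith [mul_nonneg hD0.le (add_nonneg (sq_nonneg ‖tau z‖)
            (sq_nonneg (eta z)))]
        have h6 := hparC z hbx
        have h7 : 0 ≤ par C (tau z) (eta z) := hpar0 C z hCpos.le
        have h8 : -(a / 4) < XX z := by linarith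
        have h9 : a / 2 ≤ XX z := by
          by_contra hcon
          push Not at hcon
          nlinarith
        linarith
    have h10 := hMb z hzK
    rw [Real.norm_eq_abs] at h10
    exact (le_abs_self _).trans h10

open Cont in
/-- **cutoff and constants** for the slice mass lemma on the maximal graph domain (form with the
paraboloids `w_ C b s`) -/
theorem safe {A : PFol n₁ n₂ X} (K : KMet A) (hpull : St_pull K) {ε C₀ C : ℝ} (hε : 0 < ε)
    (hC₀ : 0 ≤ C₀) (hC : C₀ < C) {m : ℂ → ℝ → ℝ} {G : ℂ × ℂ → X} (hM : Maxi A ε m G)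
    (hle : ∀ t e, m t e ≤ par C₀ t e) {ε₀ : ℝ} (hε₀ : 0 < ε₀) :
    ∃ (χ : ℂ × ℂ → ℝ) (S : Set (ℂ × ℂ)) (M β ρ : ℝ), ContDiff ℝ ∞ χ ∧ HasCompactSupport χ ∧
      (∀ z, 0 ≤ χ z ∧ χ z ≤ 1) ∧
      (∀ z ∈ tsupport χ, ‖tau z‖ ≤ ε₀ ∧ |eta z| ≤ ε₀ ∧ |XX z| ≤ 1 ∧ ‖tau z‖ < ε ∧ |eta z| < ε ∧
        XX z < ε) ∧
      (∀ z, z ∉ S → ∀ᶠ w in 𝓝 z, χ w = χ z) ∧ 0 < β ∧ 0 < ρ ∧
      (∀ z ∈ ball (0 : ℂ × ℂ) ρ, χ z = 1) ∧
      ∀ z ∈ S ∩ tsupport χ, ∀ (b : ℂ) (s : ℝ), ‖b‖ ≤ β → 0 ≤ s → 0 < w_ C b s z →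
        trM K G z ≤ M := by
  obtain ⟨χ, S, M, β, ρ, h1, h2, h3, h4, h5, h6, h7, h8, h9⟩ :=
    safe_core K hpull hε hC₀ hC hM hle hε₀
  refine ⟨χ, S, M, β / ε₀, ρ, h1, h2, h3, h4, h5, by positivity, h7, h8, ?_⟩
  intro z hz b s hb hs hw
  refine h9 z hz ((b * tau z).re + s) ?_ ?_
  · have h10 := (abs_le.1 (re_mul_le b (tau z))).1
    have h11 : ‖b‖ * ‖tau z‖ ≤ β := by
      calc ‖b‖ * ‖tau z‖ ≤ β / ε₀ * ε₀ := by
            gcongr
            exact (h4 z hz.2).1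
        _ = β := by field_simp
    linarith
  · have hw' : 0 < XX z - par C (tau z) (eta z) - (b * tau z).re - s := hw
    linarith


end

end Crest.Agent.R266
end

-- ▼ part R266/SoftMin
section

/-!
R266 / SoftMin: smooth superharmonic approximation of the minimum of finitely many real affine
functions `t ↦ Re (b t) + s` on `ℂ` from above (helper399).
-/

set_option autoImplicit false

open scoped ContDiff Topology
open Set Filter

namespace Crest.Agent.R266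

/-- the real functional `t ↦ Re (b t)` -/
noncomputable def relin (b : ℂ) : ℂ →L[ℝ] ℝ :=
  Complex.reCLM.comp ((ContinuousLinearMap.mul ℝ ℂ) b)

theorem relin_apply (b t : ℂ) : relin b t = (b * t).re := rfl


/-- the minimum of the affine functions `t ↦ Re (b t) + s`, `(b, s) ∈ F` -/
noncomputable def minAff (F : Finset (ℂ × ℝ)) (hF : F.Nonempty) (t : ℂ) : ℝ :=
  F.inf' hF fun p => (p.1 * t).re + p.2

namespace SoftMin

variable (F : Finset (ℂ × ℝ)) (k : ℝ)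

/-- the exponential weights -/
noncomputable def ew (p : ℂ × ℝ) (t : ℂ) : ℝ := Real.exp (-(k * ((p.1 * t).re + p.2)))

noncomputable def SS (t : ℂ) : ℝ := ∑ p ∈ F, ew k p t

noncomputable def NN (v t : ℂ) : ℝ := ∑ p ∈ F, (p.1 * v).re * ew k p t

/-- the soft minimum -/
noncomputable def LL (t : ℂ) : ℝ := -(k⁻¹ * (Real.log (SS F k t) - Real.log F.card))

variable {F k}

theorem ew_pos (p : ℂ × ℝ) (t : ℂ) : 0 < ew k p t := Real.exp_pos _

theorem SS_pos (hF : F.Nonempty) (t : ℂ) : 0 < SS F k t := Finset.sum_pos (fun p _ => ew_pos p t) hF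

theorem hasFDerivAt_ew (p : ℂ × ℝ) (t : ℂ) :
    HasFDerivAt (ew k p) ((-(k * ew k p t)) • relin p.1) t := by
  have h0 : HasFDerivAt (fun t : ℂ => -(k * (relin p.1 t + p.2))) (-(k • relin p.1)) t :=
    (((relin p.1).hasFDerivAt.add_const p.2).const_mul k).neg
  have h1 := h0.exp
  have h2 : (-(k * ew k p t)) • relin p.1 = Real.exp (-(k * (relin p.1 t + p.2))) • -(k • relin p.1) := by
    ext v
    simp only [smul_apply, neg_apply, smul_eq_mul, ew,
      relin_apply]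
    ring
  rw [h2]
  exact h1

theorem contDiff_ew (p : ℂ × ℝ) : ContDiff ℝ ∞ (ew k p) := by
  have h0 : ContDiff ℝ ∞ (fun t : ℂ => -(k * (relin p.1 t + p.2))) :=
    (contDiff_const.mul ((relin p.1).contDiff.add contDiff_const)).neg
  exact h0.exp

theorem contDiff_SS : ContDiff ℝ ∞ (SS F k) := ContDiff.sum fun p _ => contDiff_ew p

theorem contDiff_LL (hF : F.Nonempty) : ContDiff ℝ ∞ (LL F k) := by
  unfold LL
  exact (contDiff_const.mul ((contDiff_SS.log fun t => (SS_pos hF t).ne').sub contDiff_const)).neg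

theorem hasFDerivAt_SS (t : ℂ) :
    HasFDerivAt (SS F k) (∑ p ∈ F, (-(k * ew k p t)) • relin p.1) t :=
  HasFDerivAt.fun_sum fun p _ => hasFDerivAt_ew p t

theorem fderiv_SS_apply (t v : ℂ) : fderiv ℝ (SS F k) t v = -(k * NN F k v t) := by
  rw [(hasFDerivAt_SS t).fderiv, sum_apply, NN, Finset.mul_sum,
    ← Finset.sum_neg_distrib]
  refine Finset.sum_congr rfl fun p _ => ?_
  simp only [smul_apply, smul_eq_mul, relin_apply]
  ring

theorem fderiv_LL_apply (hF : F.Nonempty) (hk : k ≠ 0) (t v : ℂ) :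
    fderiv ℝ (LL F k) t v = NN F k v t / SS F k t := by
  have hS : HasFDerivAt (SS F k) (fderiv ℝ (SS F k) t) t :=
    (contDiff_SS.differentiable (by simp)).differentiableAt.hasFDerivAt
  have h := ((hS.log (SS_pos hF t).ne').sub_const (Real.log F.card)).const_mul k⁻¹ |>.neg
  have h' : HasFDerivAt (LL F k) (-(k⁻¹ • ((SS F k t)⁻¹ • fderiv ℝ (SS F k) t))) t := h
  rw [h'.fderiv]
  simp only [neg_apply, smul_apply, smul_eq_mul,
    fderiv_SS_apply]
  have := (SS_pos (k := k) hF t).ne'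
  field_simp

theorem abs_NN_le {e₀ : ℝ} (hb : ∀ p ∈ F, ‖p.1‖ ≤ e₀) (v t : ℂ) :
    |NN F k v t| ≤ e₀ * ‖v‖ * SS F k t := by
  unfold NN SS
  refine (Finset.abs_sum_le_sum_abs _ _).trans ?_
  rw [Finset.mul_sum]
  refine Finset.sum_le_sum fun p hp => ?_
  rw [abs_mul, abs_of_pos (ew_pos p t)]
  refine mul_le_mul_of_nonneg_right ?_ (ew_pos p t).le
  calc |(p.1 * v).re| ≤ ‖p.1 * v‖ := Complex.abs_re_le_norm _
    _ = ‖p.1‖ * ‖v‖ := norm_mul _ _
    _ ≤ e₀ * ‖v‖ := mul_le_mul_of_nonneg_right (hb p hp) (norm_nonneg _)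

theorem norm_fderiv_LL_le {e₀ : ℝ} (hF : F.Nonempty) (hk : k ≠ 0) (he : 0 ≤ e₀)
    (hb : ∀ p ∈ F, ‖p.1‖ ≤ e₀) (t : ℂ) : ‖fderiv ℝ (LL F k) t‖ ≤ e₀ := by
  refine ContinuousLinearMap.opNorm_le_bound _ he fun v => ?_
  rw [fderiv_LL_apply hF hk, Real.norm_eq_abs, abs_div, abs_of_pos (SS_pos hF t),
    div_le_iff₀ (SS_pos hF t)]
  exact abs_NN_le hb v t

theorem hasFDerivAt_NN (v t : ℂ) :
    HasFDerivAt (NN F k v) (∑ p ∈ F, (p.1 * v).re • ((-(k * ew k p t)) • relin p.1)) t :=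
  HasFDerivAt.fun_sum fun p _ => (hasFDerivAt_ew p t).const_mul _

theorem fderiv_fderiv_LL_le (hF : F.Nonempty) (hk : 0 < k) (t v : ℂ) :
    fderiv ℝ (fun s => fderiv ℝ (LL F k) s v) t v ≤ 0 := by
  have h1 : (fun s => fderiv ℝ (LL F k) s v) = fun s => NN F k v s / SS F k s := by
    ext s; exact fderiv_LL_apply hF hk.ne' s v
  have hS : HasFDerivAt (SS F k) (fderiv ℝ (SS F k) t) t :=
    (contDiff_SS.differentiable (by simp)).differentiableAt.hasFDerivAt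
  have hq : DifferentiableAt ℝ (fun s => fderiv ℝ (LL F k) s v) t := by
    have h : ContDiff ℝ ∞ (fun s => fderiv ℝ (LL F k) s v) :=
      ((contDiff_LL hF).fderiv_right (m := ∞) (by simp)).clm_apply contDiff_const
    exact (h.differentiable (by simp)).differentiableAt
  have hSp := SS_pos (k := k) hF t
  have h2 : HasFDerivAt (NN F k v) ((fderiv ℝ (LL F k) t v) • fderiv ℝ (SS F k) t
      + SS F k t • fderiv ℝ (fun s => fderiv ℝ (LL F k) s v) t) t := by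
    have h := hq.hasFDerivAt.mul hS
    refine h.congr_of_eventuallyEq (Eventually.of_forall fun s => ?_)
    show NN F k v s = fderiv ℝ (LL F k) s v * SS F k s
    rw [fderiv_LL_apply hF hk.ne', div_mul_cancel₀ _ (SS_pos hF s).ne']
  have h3 := congrArg (fun f : ℂ →L[ℝ] ℝ => f v) (h2.unique (hasFDerivAt_NN v t))
  simp only [add_apply, smul_apply, smul_eq_mul, fderiv_SS_apply, sum_apply, relin_apply,
    fderiv_LL_apply hF hk.ne' t v] at h3
  have e1 : ∑ p ∈ F, (p.1 * v).re * (-(k * ew k p t) * (p.1 * v).re)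
      = -(k * ∑ p ∈ F, (p.1 * v).re ^ 2 * ew k p t) := by
    rw [Finset.mul_sum, ← Finset.sum_neg_distrib]
    refine Finset.sum_congr rfl fun p _ => ?_
    ring
  have hCS : (NN F k v t) ^ 2 ≤ (∑ p ∈ F, (p.1 * v).re ^ 2 * ew k p t) * SS F k t := by
    have := Finset.sum_sq_le_sum_mul_sum_of_sq_eq_mul F
      (r := fun p => (p.1 * v).re * ew k p t) (f := fun p => (p.1 * v).re ^ 2 * ew k p t)
      (g := fun p => ew k p t) (fun p _ => mul_nonneg (sq_nonneg _) (ew_pos p t).le)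
      (fun p _ => (ew_pos p t).le) (fun p _ => by ring)
    exact this
  rw [e1] at h3
  set q := fderiv ℝ (fun s => fderiv ℝ (LL F k) s v) t v with hqd
  set A := ∑ p ∈ F, (p.1 * v).re ^ 2 * ew k p t
  set S := SS F k t
  set M := NN F k v t
  have h4 : S ^ 2 * q = -(k * (A * S - M ^ 2)) := by
    have h5 : S * (M / S * -(k * M) + S * q) = S * (-(k * A)) := by rw [h3]
    have h6 : S * (M / S * -(k * M)) = -(k * M ^ 2) := by field_simp
    nlinarith
  have h7 : 0 < S ^ 2 := by positivity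
  by_contra hcon
  push_neg at hcon
  have := mul_pos h7 hcon
  nlinarith [mul_nonneg hk.le (sub_nonneg.2 hCS)]

theorem minAff_le_LL (hF : F.Nonempty) (hk : 0 < k) (t : ℂ) : minAff F hF t ≤ LL F k t := by
  have hc : (0 : ℝ) < F.card := by exact_mod_cast hF.card_pos
  have h1 : SS F k t ≤ F.card * Real.exp (-(k * minAff F hF t)) := by
    unfold SS
    rw [← nsmul_eq_mul]
    refine Finset.sum_le_card_nsmul _ _ _ fun p hp => ?_
    refine Real.exp_le_exp.2 (neg_le_neg (mul_le_mul_of_nonneg_left ?_ hk.le))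
    exact Finset.inf'_le (fun p : ℂ × ℝ => (p.1 * t).re + p.2) hp
  have h2 := Real.log_le_log (SS_pos hF t) h1
  rw [Real.log_mul hc.ne' (Real.exp_pos _).ne', Real.log_exp] at h2
  unfold LL
  have h3 : k⁻¹ * (Real.log (SS F k t) - Real.log F.card) ≤ k⁻¹ * (-(k * minAff F hF t)) :=
    mul_le_mul_of_nonneg_left (by linarith) (inv_nonneg.2 hk.le)
  have h4 : k⁻¹ * (-(k * minAff F hF t)) = -minAff F hF t := by field_simp
  linarith

theorem LL_le_minAff (hF : F.Nonempty) (hk : 0 < k) (t : ℂ) :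
    LL F k t ≤ minAff F hF t + k⁻¹ * Real.log F.card := by
  obtain ⟨p, hp, hpe⟩ := Finset.exists_mem_eq_inf' hF (fun p : ℂ × ℝ => (p.1 * t).re + p.2)
  have h1 : Real.exp (-(k * minAff F hF t)) ≤ SS F k t := by
    unfold minAff
    rw [hpe]
    exact Finset.single_le_sum (f := fun p => ew k p t) (fun q _ => (ew_pos q t).le) hp
  have h2 := Real.log_le_log (Real.exp_pos _) h1
  rw [Real.log_exp] at h2
  unfold LL
  have h3 : k⁻¹ * (-(k * minAff F hF t)) ≤ k⁻¹ * Real.log (SS F k t) :=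
    mul_le_mul_of_nonneg_left h2 (inv_nonneg.2 hk.le)
  have h4 : k⁻¹ * (-(k * minAff F hF t)) = -minAff F hF t := by field_simp
  rw [mul_sub]
  linarith

theorem LL_double_le (hF : F.Nonempty) (hk : 0 < k) (t : ℂ) : LL F (2 * k) t ≤ LL F k t := by
  have hc : (0 : ℝ) < F.card := by exact_mod_cast hF.card_pos
  have h1 : (SS F k t) ^ 2 ≤ F.card * SS F (2 * k) t := by
    have := sq_sum_le_card_mul_sum_sq (s := F) (f := fun p => ew k p t)
    refine this.trans_eq ?_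
    unfold SS
    congr 1
    refine Finset.sum_congr rfl fun p _ => ?_
    unfold ew
    rw [sq, ← Real.exp_add]
    congr 1
    ring
  have h2 := Real.log_le_log (pow_pos (SS_pos hF t) 2) h1
  rw [Real.log_mul hc.ne' (SS_pos hF t).ne', Real.log_pow] at h2
  push_cast at h2
  unfold LL
  have h3 : (2 * k)⁻¹ * (2 * Real.log (SS F k t) - 2 * Real.log F.card)
      ≤ (2 * k)⁻¹ * (Real.log (SS F (2 * k) t) - Real.log F.card) :=
    mul_le_mul_of_nonneg_left (by linarith) (by positivity)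
  have h4 : (2 * k)⁻¹ * (2 * Real.log (SS F k t) - 2 * Real.log F.card)
      = k⁻¹ * (Real.log (SS F k t) - Real.log F.card) := by field_simp
  linarith

end SoftMin

open SoftMin in
/-- smooth superharmonic approximation from above of the minimum of finitely many affine functions -/
theorem softmin (F : Finset (ℂ × ℝ)) (hF : F.Nonempty) {e₀ : ℝ} (he : 0 ≤ e₀)
    (hb : ∀ p ∈ F, ‖p.1‖ ≤ e₀) :
    ∃ L : ℕ → ℂ → ℝ, (∀ n, ContDiff ℝ ∞ (L n)) ∧ (∀ n t, ‖fderiv ℝ (L n) t‖ ≤ e₀) ∧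
      (∀ n t v, fderiv ℝ (fun s => fderiv ℝ (L n) s v) t v ≤ 0) ∧
      (∀ n t, fderiv ℝ (fun s => fderiv ℝ (L n) s 1) t 1
        + fderiv ℝ (fun s => fderiv ℝ (L n) s Complex.I) t Complex.I ≤ 0) ∧
      (∀ n t, minAff F hF t ≤ L n t) ∧ (∀ n t, L n t ≤ minAff F hF t + 1 / 2 ^ n) ∧
      (∀ t, Antitone fun n => L n t) := by
  set K : ℝ := Real.log F.card + 1 with hK
  have hl : 0 ≤ Real.log F.card := Real.log_nonneg (by exact_mod_cast hF.card_pos)
  have hK0 : 0 < K := by linarith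
  have hk : ∀ n : ℕ, 0 < 2 ^ n * K := fun n => by positivity
  refine ⟨fun n => LL F (2 ^ n * K), fun n => contDiff_LL hF,
    fun n t => norm_fderiv_LL_le hF (hk n).ne' he hb t,
    fun n t v => fderiv_fderiv_LL_le hF (hk n) t v, fun n t => ?_,
    fun n t => minAff_le_LL hF (hk n) t, fun n t => ?_, fun t => ?_⟩
  · have h1 := fderiv_fderiv_LL_le hF (hk n) t 1
    have h2 := fderiv_fderiv_LL_le hF (hk n) t Complex.I
    linarith
  · refine (LL_le_minAff hF (hk n) t).trans ?_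
    have : (2 ^ n * K)⁻¹ * Real.log F.card ≤ 1 / 2 ^ n := by
      rw [mul_inv, mul_assoc, one_div]
      refine mul_le_of_le_one_right (by positivity) ?_
      rw [inv_mul_le_iff₀ hK0]
      linarith
    linarith
  · refine antitone_nat_of_succ_le fun n => ?_
    have := LL_double_le hF (hk n) t
    have h2 : 2 * (2 ^ n * K) = 2 ^ (n + 1) * K := by ring
    rwa [h2] at this

end Crest.Agent.R266
end

-- ▼ part R266/NCount

/-!
R266 / NCount: the slab estimate `St_B` for the (non-smooth) minimum of finitely many affine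
functions, and the counting step of the no-contact theorem (helper399).
-/

set_option autoImplicit false

open scoped Manifold ContDiff Topology ENNReal
open Set Metric Filter MeasureTheory

namespace Crest.Agent.R266



theorem minAff_le (F : Finset (ℂ × ℝ)) (hF : F.Nonempty) {q : ℂ × ℝ} (hq : q ∈ F) (t : ℂ) :
    minAff F hF t ≤ (q.1 * t).re + q.2 :=
  Finset.inf'_le (fun p : ℂ × ℝ => (p.1 * t).re + p.2) hq

theorem exists_minAff (F : Finset (ℂ × ℝ)) (hF : F.Nonempty) (t : ℂ) :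
    ∃ q ∈ F, minAff F hF t = (q.1 * t).re + q.2 :=
  Finset.exists_mem_eq_inf' hF (fun p : ℂ × ℝ => (p.1 * t).re + p.2)

/-- height above the paraboloid plus the minimum of affine functions -/
noncomputable def wmin (C : ℝ) (F : Finset (ℂ × ℝ)) (hF : F.Nonempty) (z : ℂ × ℂ) : ℝ :=
  XX z - par C (tau z) (eta z) - minAff F hF (tau z)

/-- `St_B` for the minimum of finitely many affine functions -/
def St_Bmin : Prop :=
  ∀ c₀ > 0, ∀ C > 0, ∃ ε₀ > 0, ∀ (χ : ℂ × ℂ → ℝ) (S : Set (ℂ × ℂ)) (M : ℝ), ContDiff ℝ ∞ χ →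
    HasCompactSupport χ → (∀ z, 0 ≤ χ z ∧ χ z ≤ 1) →
    (∀ z ∈ tsupport χ, ‖tau z‖ ≤ ε₀ ∧ |eta z| ≤ ε₀ ∧ |XX z| ≤ 1) →
    (∀ z, z ∉ S → ∀ᶠ w in 𝓝 z, χ w = χ z) →
    ∃ C' : ℝ, ∀ (Ω : Set (ℂ × ℂ)) (γ : ℂ × ℂ → ℂ × ℂ → ℂ × ℂ → ℝ) (F : Finset (ℂ × ℝ))
      (hF : F.Nonempty), IsOpen Ω → CForm Ω γ → Slack c₀ Ω γ → (∀ q ∈ F, ‖q.1‖ ≤ ε₀) →
      (∀ t, ‖t‖ ≤ ε₀ → |minAff F hF t| ≤ 1 / 2) →
      (∀ z ∈ tsupport χ, 0 < wmin C F hF z → z ∈ Ω) →
      (∀ z ∈ S ∩ tsupport χ, 0 < wmin C F hF z →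
        γ z (1, 0) (1, 0) + γ z (0, 1) (0, 1) ≤ M) →
      ∀ r : ℝ, 0 < r → r ≤ 1 →
        ∫⁻ z in {z | 0 < wmin C F hF z ∧ wmin C F hF z < r},
          ENNReal.ofReal (χ z * (γ z (1, 0) (1, 0) + γ z (0, 1) (0, 1)))
          ≤ ENNReal.ofReal (C' * r)

theorem slab_min (hB : St_B) : St_Bmin := by
  intro c₀ hc₀ C hC
  obtain ⟨ε₀, hε₀, hB⟩ := hB c₀ hc₀ C hC
  refine ⟨ε₀, hε₀, fun χ S M hχ hχc hχ1 hχs hS => ?_⟩
  obtain ⟨C', hC'⟩ := hB χ S M hχ hχc hχ1 hχs hS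
  refine ⟨C', fun Ω γ F hF hΩ hγ hsl hb hmin hdom hM r hr hr1 => ?_⟩
  obtain ⟨L, hLs, hLd, -, hLL, hL1, hL2, hL3⟩ := softmin F hF hε₀.le hb
  have hle : ∀ n z, XX z - par C (tau z) (eta z) - L n (tau z) ≤ wmin C F hF z := by
    intro n z
    have := hL1 n (tau z)
    unfold wmin
    linarith
  set B : ℕ → Set (ℂ × ℂ) := fun n =>
    {z | 0 < XX z - par C (tau z) (eta z) - L (n + 1) (tau z) ∧ wmin C F hF z < r} with hBdef
  have hBmono : Monotone B := by
    intro i j hij z hz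
    refine ⟨lt_of_lt_of_le hz.1 ?_, hz.2⟩
    have := hL3 (tau z) (Nat.succ_le_succ hij)
    simp only [Nat.succ_eq_add_one] at this
    linarith
  have hU : {z | 0 < wmin C F hF z ∧ wmin C F hF z < r} ⊆ ⋃ n, B n := by
    intro z hz
    obtain ⟨n, hn⟩ := exists_pow_lt_of_lt_one hz.1 (by norm_num : (1 / 2 : ℝ) < 1)
    refine mem_iUnion.2 ⟨n, ?_, hz.2⟩
    have h1 := hL2 (n + 1) (tau z)
    have h2 : (1 : ℝ) / 2 ^ (n + 1) ≤ (1 / 2) ^ n := by
      rw [one_div_pow]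
      exact one_div_le_one_div_of_le (by positivity) (pow_le_pow_right₀ (by norm_num) (by omega))
    have h3 : wmin C F hF z = XX z - par C (tau z) (eta z) - minAff F hF (tau z) := rfl
    linarith [hz.1]
  refine (lintegral_mono_set hU).trans ?_
  rw [setLIntegral_iUnion_of_directed _ hBmono.directed_le]
  refine iSup_le fun n => ?_
  have hsub : B n ⊆ {z | 0 < XX z - par C (tau z) (eta z) - L (n + 1) (tau z) ∧
      XX z - par C (tau z) (eta z) - L (n + 1) (tau z) < r} := fun z hz =>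
    ⟨hz.1, lt_of_le_of_lt (hle _ z) hz.2⟩
  refine (lintegral_mono_set hsub).trans ?_
  refine hC' Ω γ (L (n + 1)) hΩ hγ hsl (hLs _) (hLd _) (fun t ht => ?_) (hLL _)
    (fun z hz h0 => hdom z hz (lt_of_lt_of_le h0 (hle _ z)))
    (fun z hz h0 => hM z hz (lt_of_lt_of_le h0 (hle _ z))) r hr hr1
  have h1 := hL1 (n + 1) t
  have h2 := hL2 (n + 1) t
  have h3 := abs_le.1 (hmin t ht)
  have h4 : (1 : ℝ) / 2 ^ (n + 1) ≤ 1 / 2 := by
    refine one_div_le_one_div_of_le (by norm_num) ?_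
    calc (2 : ℝ) = 2 ^ 1 := (pow_one _).symm
      _ ≤ 2 ^ (n + 1) := pow_le_pow_right₀ (by norm_num) (by omega)
  rw [abs_le]
  constructor <;> linarith

namespace NCnt

theorem norm_tau_sub_le (z w : ℂ × ℂ) : ‖tau z - tau w‖ ≤ 2 * dist z w := by
  have h : tau z - tau w = (z.1 - w.1) - (z.2 - w.2) := by unfold tau; ring
  rw [h, dist_eq_norm]
  refine (norm_sub_le _ _).trans ?_
  have h1 : ‖z.1 - w.1‖ ≤ ‖z - w‖ := norm_fst_le (z - w)
  have h2 : ‖z.2 - w.2‖ ≤ ‖z - w‖ := norm_snd_le (z - w)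
  linarith

theorem norm_ZZ_sub_le (z w : ℂ × ℂ) : ‖(z.1 + z.2) - (w.1 + w.2)‖ ≤ 2 * dist z w := by
  have h : (z.1 + z.2) - (w.1 + w.2) = (z.1 - w.1) + (z.2 - w.2) := by ring
  rw [h, dist_eq_norm]
  refine (norm_add_le _ _).trans ?_
  have h1 : ‖z.1 - w.1‖ ≤ ‖z - w‖ := norm_fst_le (z - w)
  have h2 : ‖z.2 - w.2‖ ≤ ‖z - w‖ := norm_snd_le (z - w)
  linarith

theorem abs_XX_sub_le (z w : ℂ × ℂ) : |XX z - XX w| ≤ 2 * dist z w := by
  unfold XX
  rw [← Complex.sub_re]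
  exact (Complex.abs_re_le_norm _).trans (norm_ZZ_sub_le z w)

theorem abs_eta_sub_le (z w : ℂ × ℂ) : |eta z - eta w| ≤ 2 * dist z w := by
  unfold eta
  rw [← Complex.sub_im]
  exact (Complex.abs_im_le_norm _).trans (norm_ZZ_sub_le z w)

end NCnt

open NCnt

/-- upper bound for `wmin` near a contact point -/
theorem wmin_lt {C : ℝ} (hC : 0 ≤ C) (F : Finset (ℂ × ℝ)) (hF : F.Nonempty) (hb : ∀ q ∈ F, ‖q.1‖ ≤ 1)
    {b : ℂ} {s : ℝ} {p z : ℂ × ℂ} (h0 : w_ C b s p = 0)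
    (hmin : ∀ q ∈ F, (b * tau p).re + s ≤ (q.1 * tau p).re + q.2)
    (hp1 : ‖tau p‖ ≤ 1 / 2) (hp2 : |eta p| ≤ 1 / 2) {r : ℝ} (hr : r ≤ 1 / 4) (hz : dist z p < r) :
    wmin C F hF z < (4 + 6 * C) * r := by
  have h1 := abs_le.1 (abs_XX_sub_le z p)
  have h2 := norm_tau_sub_le z p
  have h3 := abs_eta_sub_le z p
  obtain ⟨q, hq, hqe⟩ := exists_minAff F hF (tau z)
  have h4 : (b * tau p).re + s - 2 * dist z p ≤ minAff F hF (tau z) := by
    rw [hqe]
    have h5 := hmin q hq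
    have h6 : |(q.1 * (tau z - tau p)).re| ≤ 2 * dist z p := by
      refine (Complex.abs_re_le_norm _).trans ?_
      rw [norm_mul]
      calc ‖q.1‖ * ‖tau z - tau p‖ ≤ 1 * ‖tau z - tau p‖ :=
            mul_le_mul_of_nonneg_right (hb q hq) (norm_nonneg _)
        _ ≤ 2 * dist z p := by rw [one_mul]; exact h2
    have h7 : (q.1 * tau z).re = (q.1 * tau p).re + (q.1 * (tau z - tau p)).re := by
      rw [← Complex.add_re]; congr 1; ring
    have h8 := (abs_le.1 h6).1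
    linarith
  have hd : 0 ≤ dist z p := dist_nonneg
  have h9 : ‖tau p‖ ^ 2 - ‖tau z‖ ^ 2 ≤ 3 * dist z p := by
    have h10 : ‖tau p‖ ≤ ‖tau z‖ + 2 * dist z p := by
      have := norm_sub_norm_le (tau p) (tau z)
      rw [norm_sub_rev] at this
      linarith
    rcases le_total ‖tau p‖ (2 * dist z p) with hle | hle
    · nlinarith [norm_nonneg (tau p), norm_nonneg (tau z)]
    · nlinarith [norm_nonneg (tau p), norm_nonneg (tau z)]
  have h11 : (eta p) ^ 2 - (eta z) ^ 2 ≤ 3 * dist z p := by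
    have h12 : |eta p| ≤ |eta z| + 2 * dist z p := by
      have := abs_sub_abs_le_abs_sub (eta p) (eta z)
      rw [abs_sub_comm] at this
      linarith
    rw [← sq_abs (eta p), ← sq_abs (eta z)]
    rcases le_total |eta p| (2 * dist z p) with hle | hle
    · nlinarith [abs_nonneg (eta p), abs_nonneg (eta z)]
    · nlinarith [abs_nonneg (eta p), abs_nonneg (eta z)]
  unfold wmin
  unfold w_ at h0
  unfold par at *
  have h13 : C * (‖tau p‖ ^ 2 + eta p ^ 2) - C * (‖tau z‖ ^ 2 + eta z ^ 2) ≤ 6 * C * dist z p := by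
    nlinarith
  have h14 : XX z - C * (‖tau z‖ ^ 2 + eta z ^ 2) - minAff F hF (tau z)
      ≤ (4 + 6 * C) * dist z p := by nlinarith
  have h15 : (4 + 6 * C) * dist z p < (4 + 6 * C) * r := mul_lt_mul_of_pos_left hz (by linarith)
  linarith

/-- the counting step: contact points for all small slopes, separated at scale `κ`, each carrying
mass `≥ c₁ r²` in half balls, contradict the linear slab estimate. -/
theorem counting {C κ η₀ c₁ r₁ C' : ℝ} (hC : 0 ≤ C) (hκ : 0 < κ) (hη₀ : 0 < η₀) (hη₁ : η₀ ≤ 1)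
    (hc₁ : 0 < c₁) (hr₁ : 0 < r₁) (f : ℂ × ℂ → ℝ≥0∞) (s : ℂ → ℝ) (p : ℂ → ℂ × ℂ)
    (h0 : ∀ b, ‖b‖ ≤ η₀ → w_ C b (s b) (p b) = 0)
    (hmin : ∀ b b', ‖b‖ ≤ η₀ → ‖b'‖ ≤ η₀ →
      (b * tau (p b)).re + s b ≤ (b' * tau (p b)).re + s b')
    (hsep : ∀ b b', ‖b‖ ≤ η₀ → ‖b'‖ ≤ η₀ → κ * ‖b - b'‖ ≤ ‖tau (p b) - tau (p b')‖)
    (htau : ∀ b, ‖b‖ ≤ η₀ → ‖tau (p b)‖ ≤ 1 / 2) (heta : ∀ b, ‖b‖ ≤ η₀ → |eta (p b)| ≤ 1 / 2)
    (hmass : ∀ b, ‖b‖ ≤ η₀ → ∀ r, 0 < r → r ≤ r₁ → ENNReal.ofReal (c₁ * r ^ 2) ≤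
      ∫⁻ z in ball (p b) r ∩ {z | 0 < w_ C b (s b) z}, f z)
    (hslab : ∀ (F : Finset (ℂ × ℝ)) (hF : F.Nonempty), (∀ q ∈ F, ‖q.1‖ ≤ η₀ ∧ q.2 = s q.1) →
      ∀ ρ, 0 < ρ → ρ ≤ 1 → ∫⁻ z in {z | 0 < wmin C F hF z ∧ wmin C F hF z < ρ}, f z
        ≤ ENNReal.ofReal (C' * ρ)) : False := by
  classical
  set C2 : ℝ := 4 + 6 * C with hC2
  have hC2p : 0 < C2 := by positivity
  -- choice of `n`
  obtain ⟨n, hn⟩ := exists_nat_gt (max (8 * |C'| * C2 / (c₁ * κ * η₀)) (max (κ * η₀ / (8 * r₁))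
    (max (κ * η₀ * C2 / 8) (κ * η₀ / 2))))
  rw [max_lt_iff, max_lt_iff, max_lt_iff] at hn
  obtain ⟨hn1, hn2, hn3, hn4⟩ := hn
  have hn0 : (0 : ℝ) < n := lt_of_le_of_lt (by positivity) hn4
  have hnn : 0 < n := by exact_mod_cast hn0
  set e : ℝ := η₀ / (2 * n) with he
  have he0 : 0 < e := by positivity
  set r : ℝ := κ * e / 4 with hr
  have hr0 : 0 < r := by positivity
  have hrn : r = κ * η₀ / (8 * n) := by rw [hr, he]; field_simp; ring
  have hrr₁ : r ≤ r₁ := by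
    rw [hrn, div_le_iff₀ (by positivity)]
    rw [div_lt_iff₀ (by positivity)] at hn2
    nlinarith
  have hr4 : r ≤ 1 / 4 := by
    rw [hrn, div_le_iff₀ (by positivity)]
    linarith
  have hC2r : C2 * r ≤ 1 := by
    rw [hrn, mul_div_assoc', div_le_iff₀ (by positivity)]
    rw [div_lt_iff₀ (by norm_num)] at hn3
    nlinarith
  -- the grid
  set g : ℕ × ℕ → ℂ := fun q => (e : ℂ) * ((q.1 : ℂ) + (q.2 : ℂ) * Complex.I) with hg
  set Q : Finset (ℕ × ℕ) := Finset.range n ×ˢ Finset.range n with hQ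
  have hgn : ∀ q ∈ Q, ‖g q‖ ≤ η₀ := by
    intro q hq
    rw [hQ, Finset.mem_product, Finset.mem_range, Finset.mem_range] at hq
    have h1 : ((q.1 : ℕ) : ℝ) ≤ n := by exact_mod_cast hq.1.le
    have h2 : ((q.2 : ℕ) : ℝ) ≤ n := by exact_mod_cast hq.2.le
    rw [hg]
    simp only [norm_mul, Complex.norm_real, Real.norm_eq_abs, abs_of_pos he0]
    have h3 : ‖(q.1 : ℂ) + (q.2 : ℂ) * Complex.I‖ ≤ n + n := by
      refine (norm_add_le _ _).trans ?_
      rw [norm_mul, Complex.norm_I, mul_one, Complex.norm_natCast, Complex.norm_natCast]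
      exact add_le_add h1 h2
    calc e * ‖(q.1 : ℂ) + (q.2 : ℂ) * Complex.I‖ ≤ e * (n + n) :=
          mul_le_mul_of_nonneg_left h3 he0.le
      _ = η₀ := by rw [he]; field_simp; ring
  have hgd : ∀ q q' : ℕ × ℕ, q ≠ q' → e ≤ ‖g q - g q'‖ := by
    intro q q' hne
    have h1 : g q - g q' = (e : ℂ) * ((((q.1 : ℤ) - (q'.1 : ℤ) : ℤ) : ℂ)
        + (((q.2 : ℤ) - (q'.2 : ℤ) : ℤ) : ℂ) * Complex.I) := by
      rw [hg]; push_cast; ring
    rw [h1, norm_mul, Complex.norm_real, Real.norm_eq_abs, abs_of_pos he0]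
    refine le_mul_of_one_le_right he0.le ?_
    set A : ℤ := (q.1 : ℤ) - (q'.1 : ℤ)
    set D : ℤ := (q.2 : ℤ) - (q'.2 : ℤ)
    have hAD : A ≠ 0 ∨ D ≠ 0 := by
      by_contra hcon
      push Not at hcon
      apply hne
      ext
      · have := hcon.1; omega
      · have := hcon.2; omega
    rcases hAD with hA | hD
    · have h2 : |((A : ℂ) + (D : ℂ) * Complex.I).re| ≤ ‖(A : ℂ) + (D : ℂ) * Complex.I‖ :=
        Complex.abs_re_le_norm _
      refine le_trans ?_ h2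
      simp only [Complex.add_re, Complex.intCast_re, Complex.mul_re, Complex.I_re, mul_zero,
        Complex.intCast_im, Complex.I_im, mul_one, sub_self, add_zero]
      exact_mod_cast Int.one_le_abs hA
    · have h2 : |((A : ℂ) + (D : ℂ) * Complex.I).im| ≤ ‖(A : ℂ) + (D : ℂ) * Complex.I‖ :=
        Complex.abs_im_le_norm _
      refine le_trans ?_ h2
      simp only [Complex.add_im, Complex.intCast_re, Complex.mul_im, Complex.I_re, mul_zero,
        Complex.intCast_im, Complex.I_im, mul_one, add_zero, zero_add]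
      exact_mod_cast Int.one_le_abs hD
  set F : Finset (ℂ × ℝ) := Q.image fun q => (g q, s (g q)) with hFd
  have hQne : Q.Nonempty := ⟨(0, 0), by
    rw [hQ, Finset.mem_product, Finset.mem_range]; exact ⟨hnn, by simpa using hnn⟩⟩
  have hF : F.Nonempty := hQne.image _
  have hFs : ∀ q ∈ F, ‖q.1‖ ≤ η₀ ∧ q.2 = s q.1 := by
    intro q hq
    rw [hFd, Finset.mem_image] at hq
    obtain ⟨q', hq', rfl⟩ := hq
    exact ⟨hgn q' hq', rfl⟩
  have hslabF := hslab F hF hFs (C2 * r) (by positivity) hC2r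
  -- the half balls
  set T : ℕ × ℕ → Set (ℂ × ℂ) := fun q =>
    ball (p (g q)) r ∩ {z | 0 < w_ C (g q) (s (g q)) z} with hT
  have hw_cont : ∀ (b : ℂ) (s' : ℝ), Continuous fun z => w_ C b s' z := by
    intro b s'
    unfold w_ par XX eta tau
    fun_prop
  have hTm : ∀ q ∈ Q, MeasurableSet (T q) := fun q _ =>
    measurableSet_ball.inter (isOpen_lt continuous_const (hw_cont _ _)).measurableSet
  have hTd : Set.PairwiseDisjoint (↑Q : Set (ℕ × ℕ)) T := by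
    intro q hq q' hq' hne
    rw [Function.onFun, Set.disjoint_left]
    intro z hz hz'
    have h1 := hsep (g q) (g q') (hgn q hq) (hgn q' hq')
    have h2 := hgd q q' hne
    have h3 := norm_tau_sub_le (p (g q)) z
    have h4 := norm_tau_sub_le z (p (g q'))
    have h5 : ‖tau (p (g q)) - tau (p (g q'))‖ ≤ ‖tau (p (g q)) - tau z‖ + ‖tau z - tau (p (g q'))‖ :=
      norm_sub_le_norm_sub_add_norm_sub _ _ _
    have h6 : dist (p (g q)) z < r := by rw [dist_comm]; exact hz.1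
    have h7 : dist z (p (g q')) < r := hz'.1
    have h8 : κ * e ≤ κ * ‖g q - g q'‖ := mul_le_mul_of_nonneg_left h2 hκ.le
    have h9 : κ * e = 4 * r := by rw [hr]; ring
    linarith
  have hTsub : (⋃ q ∈ Q, T q) ⊆ {z | 0 < wmin C F hF z ∧ wmin C F hF z < C2 * r} := by
    intro z hz
    rw [mem_iUnion₂] at hz
    obtain ⟨q, hq, hz⟩ := hz
    have hqF : (g q, s (g q)) ∈ F := Finset.mem_image_of_mem _ hq
    constructor
    · have h1 := minAff_le F hF hqF (tau z)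
      have h2 : 0 < w_ C (g q) (s (g q)) z := hz.2
      simp only at h1
      unfold w_ at h2
      unfold wmin
      linarith
    · refine wmin_lt hC F hF (fun q' hq' => (hFs q' hq').1.trans hη₁) (h0 (g q) (hgn q hq))
        (fun q' hq' => ?_) (htau _ (hgn q hq)) (heta _ (hgn q hq)) hr4 hz.1
      have := hFs q' hq'
      rw [this.2]
      exact hmin (g q) q'.1 (hgn q hq) this.1
  have hsum : (∑ _q ∈ Q, ENNReal.ofReal (c₁ * r ^ 2)) ≤ ENNReal.ofReal (C' * (C2 * r)) := by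
    calc (∑ _q ∈ Q, ENNReal.ofReal (c₁ * r ^ 2)) ≤ ∑ q ∈ Q, ∫⁻ z in T q, f z :=
          Finset.sum_le_sum fun q hq => hmass (g q) (hgn q hq) r hr0 hrr₁
      _ = ∫⁻ z in ⋃ q ∈ Q, T q, f z := (lintegral_biUnion_finset hTd hTm f).symm
      _ ≤ ∫⁻ z in {z | 0 < wmin C F hF z ∧ wmin C F hF z < C2 * r}, f z :=
          lintegral_mono_set hTsub
      _ ≤ _ := hslabF
  rw [Finset.sum_const, hQ, Finset.card_product, Finset.card_range, nsmul_eq_mul,
    ← ENNReal.ofReal_natCast, ← ENNReal.ofReal_mul (by positivity)] at hsum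
  have hpos : 0 < ((n * n : ℕ) : ℝ) * (c₁ * r ^ 2) := by positivity
  rcases ENNReal.ofReal_le_ofReal_iff'.1 hsum with h | h
  · push_cast at h
    have h1 : C' * (C2 * r) ≤ |C'| * (C2 * r) :=
      mul_le_mul_of_nonneg_right (le_abs_self _) (by positivity)
    have h2 : (n : ℝ) * n * (c₁ * r ^ 2) ≤ |C'| * (C2 * r) := h.trans h1
    have h3 : (n : ℝ) * n * c₁ * r ≤ |C'| * C2 := by
      refine le_of_mul_le_mul_right ?_ hr0
      linarith
    rw [div_lt_iff₀ (by positivity)] at hn1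
    have h4 : (n : ℝ) * n * c₁ * r = n * (c₁ * κ * η₀) / 8 := by rw [hrn]; field_simp
    rw [h4] at h3
    linarith
  · linarith

end Crest.Agent.R266
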