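import Crest.Agent.R266.Stmts
import Crest.Agent.R266.NCount_Mg
import Crest.Agent.R266.Sep
import Crest.Agent.R266.Stokes
import Crest.Agent.R266.CE
import Crest.Agent.R266.DStmts
import Crest.Agent.R266.E0W_Mg

-- ▼ part R266/LemB
section

/-!
R266 / LemB: the slice mass lemma `St_B` (from Stokes).
-/

set_option autoImplicit false

open scoped Manifold ContDiff Topology ENNReal
open Set Metric Filter MeasureTheory

namespace Crest.Agent.R266
namespace LemB

section alg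

variable {Ω : Set (ℂ × ℂ)} {γ : ℂ × ℂ → ℂ × ℂ → ℂ × ℂ → ℝ}

/-- value of the form on a general vector -/
theorem form_val (h : CForm Ω γ) {z : ℂ × ℂ} (hz : z ∈ Ω) (s t : ℂ) :
    γ z (s, t) (s, t) = (s.re ^ 2 + s.im ^ 2) * γ z (1, 0) (1, 0)
      + (t.re ^ 2 + t.im ^ 2) * γ z (0, 1) (0, 1)
      + 2 * ((s.re * t.re + s.im * t.im) * γ z (1, 0) (0, 1)
        + (s.re * t.im - s.im * t.re) * γ z (1, 0) (0, Complex.I)) := by
  have hal := h.add_left z hz
  have hsl := h.smul_left z hz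
  have hsy := h.symm z hz
  have hhe := h.herm z hz
  have har : ∀ u v v', γ z u (v + v') = γ z u v + γ z u v' := by
    intro u v v'
    rw [hsy u (v + v'), hal, hsy v u, hsy v' u]
  have hsr : ∀ (c : ℝ) u v, γ z u (c • v) = c * γ z u v := by
    intro c u v
    rw [hsy u (c • v), hsl, hsy v u]
  have hneg : ∀ u v, γ z (-u) v = -γ z u v := by
    intro u v
    have := hsl (-1) u v
    simpa using this
  have hnegr : ∀ u v, γ z u (-v) = -γ z u v := by
    intro u v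
    have := hsr (-1) u v
    simpa using this
  have e1 : ((s, t) : ℂ × ℂ) = s.re • (1, 0) + (s.im • (Complex.I, 0)
      + (t.re • (0, 1) + t.im • (0, Complex.I))) := by
    apply Prod.ext
    · apply Complex.ext <;> simp
    · apply Complex.ext <;> simp
  -- the basis values
  have i1 : Complex.I • ((1, 0) : ℂ × ℂ) = (Complex.I, 0) := by
    simp [Prod.smul_mk]
  have i2 : Complex.I • ((Complex.I, 0) : ℂ × ℂ) = -(1, 0) := by
    simp [Prod.smul_mk]
  have i3 : Complex.I • ((0, 1) : ℂ × ℂ) = (0, Complex.I) := by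
    simp [Prod.smul_mk]
  have i4 : Complex.I • ((0, Complex.I) : ℂ × ℂ) = -(0, 1) := by
    simp [Prod.smul_mk]
  have b11 : γ z (Complex.I, 0) (Complex.I, 0) = γ z (1, 0) (1, 0) := by
    have := hhe (1, 0) (1, 0)
    rwa [i1] at this
  have b22 : γ z (0, Complex.I) (0, Complex.I) = γ z (0, 1) (0, 1) := by
    have := hhe (0, 1) (0, 1)
    rwa [i3] at this
  have b12 : γ z (Complex.I, 0) (0, Complex.I) = γ z (1, 0) (0, 1) := by
    have := hhe (1, 0) (0, 1)
    rwa [i1, i3] at this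
  have b12' : γ z (Complex.I, 0) (0, 1) = -γ z (1, 0) (0, Complex.I) := by
    have := hhe (1, 0) (0, Complex.I)
    rw [i1, i4, hnegr] at this
    linarith
  have c11 : γ z (1, 0) (Complex.I, 0) = 0 := by
    have := hhe (1, 0) (Complex.I, 0)
    rw [i1, i2, hnegr, hsy (Complex.I, 0) (1, 0)] at this
    linarith
  have c22 : γ z (0, 1) (0, Complex.I) = 0 := by
    have := hhe (0, 1) (0, Complex.I)
    rw [i3, i4, hnegr, hsy (0, Complex.I) (0, 1)] at this
    linarith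
  have s1 := hsy (Complex.I, 0) (1, 0)
  have s2 := hsy (0, 1) (1, 0)
  have s3 := hsy (0, Complex.I) (1, 0)
  have s4 := hsy (0, 1) (Complex.I, 0)
  have s5 := hsy (0, Complex.I) (Complex.I, 0)
  have s6 := hsy (0, Complex.I) (0, 1)
  rw [e1]
  simp only [hal, har, hsl, hsr, s1, s2, s3, s4, s5, s6, b11, b22, b12, b12', c11, c22]
  ring

theorem h11_nonneg (h : CForm Ω γ) {z : ℂ × ℂ} (hz : z ∈ Ω) : 0 ≤ γ z (1, 0) (1, 0) :=
  h.nonneg z hz _

theorem h22_nonneg (h : CForm Ω γ) {z : ℂ × ℂ} (hz : z ∈ Ω) : 0 ≤ γ z (0, 1) (0, 1) :=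
  h.nonneg z hz _

theorem abs_a_le (h : CForm Ω γ) {z : ℂ × ℂ} (hz : z ∈ Ω) :
    2 * |γ z (1, 0) (0, 1)| ≤ γ z (1, 0) (1, 0) + γ z (0, 1) (0, 1) := by
  have h1 := h.nonneg z hz (1, 1)
  have h2 := h.nonneg z hz (1, -1)
  rw [form_val h hz] at h1 h2
  simp at h1 h2
  rcases abs_cases (γ z (1, 0) (0, 1)) with h3 | h3 <;> linarith [h3.1]

theorem abs_b_le (h : CForm Ω γ) {z : ℂ × ℂ} (hz : z ∈ Ω) :
    2 * |γ z (1, 0) (0, Complex.I)| ≤ γ z (1, 0) (1, 0) + γ z (0, 1) (0, 1) := by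
  have h1 := h.nonneg z hz (1, Complex.I)
  have h2 := h.nonneg z hz (1, -Complex.I)
  rw [form_val h hz] at h1 h2
  simp at h1 h2
  rcases abs_cases (γ z (1, 0) (0, Complex.I)) with h3 | h3 <;> linarith [h3.1]

/-- crude upper bound for the wedge product -/
theorem wdg_le (h : CForm Ω γ) {z : ℂ × ℂ} (hz : z ∈ Ω) (β : ℂ × ℂ → ℂ × ℂ → ℝ) (K : ℝ)
    (h1 : |β (1, 0) (1, 0)| ≤ K) (h2 : |β (0, 1) (0, 1)| ≤ K) (h3 : |β (1, 0) (0, 1)| ≤ K)
    (h4 : |β (1, 0) (0, Complex.I)| ≤ K) :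
    |wdg (γ z) β| ≤ 3 * K * (γ z (1, 0) (1, 0) + γ z (0, 1) (0, 1)) := by
  have hK : 0 ≤ K := le_trans (abs_nonneg _) h1
  have p1 := h11_nonneg h hz
  have p2 := h22_nonneg h hz
  have pa := abs_a_le h hz
  have pb := abs_b_le h hz
  set x := γ z (1, 0) (1, 0)
  set y := γ z (0, 1) (0, 1)
  set a := γ z (1, 0) (0, 1)
  set b := γ z (1, 0) (0, Complex.I)
  have q1 : |x * β (0, 1) (0, 1)| ≤ x * K := by
    rw [abs_mul, abs_of_nonneg p1]
    exact mul_le_mul_of_nonneg_left h2 p1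
  have q2 : |y * β (1, 0) (1, 0)| ≤ y * K := by
    rw [abs_mul, abs_of_nonneg p2]
    exact mul_le_mul_of_nonneg_left h1 p2
  have q3 : |a * β (1, 0) (0, 1)| ≤ (x + y) / 2 * K := by
    rw [abs_mul]
    exact mul_le_mul (by linarith) h3 (abs_nonneg _) (by linarith)
  have q4 : |b * β (1, 0) (0, Complex.I)| ≤ (x + y) / 2 * K := by
    rw [abs_mul]
    exact mul_le_mul (by linarith) h4 (abs_nonneg _) (by linarith)
  rw [abs_le] at q1 q2 q3 q4 ⊢
  show -(3 * K * (x + y)) ≤ x * β (0, 1) (0, 1) + y * β (1, 0) (1, 0)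
    - 2 * (a * β (1, 0) (0, 1)) - 2 * (b * β (1, 0) (0, Complex.I)) ∧
    x * β (0, 1) (0, 1) + y * β (1, 0) (1, 0)
    - 2 * (a * β (1, 0) (0, 1)) - 2 * (b * β (1, 0) (0, Complex.I)) ≤ 3 * K * (x + y)
  constructor <;> nlinarith [q1.1, q1.2, q2.1, q2.2, q3.1, q3.2, q4.1, q4.2]

end alg

section weightfun

/-- the defining function `w` -/
noncomputable def wf (C : ℝ) (L : ℂ → ℝ) (z : ℂ × ℂ) : ℝ :=
  XX z - par C (tau z) (eta z) - L (tau z)

noncomputable def tauL : ℂ × ℂ →L[ℝ] ℂ :=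
  ContinuousLinearMap.fst ℝ ℂ ℂ - ContinuousLinearMap.snd ℝ ℂ ℂ

noncomputable def sumL : ℂ × ℂ →L[ℝ] ℂ :=
  ContinuousLinearMap.fst ℝ ℂ ℂ + ContinuousLinearMap.snd ℝ ℂ ℂ

noncomputable def XL : ℂ × ℂ →L[ℝ] ℝ := Complex.reCLM.comp sumL
noncomputable def eL : ℂ × ℂ →L[ℝ] ℝ := Complex.imCLM.comp sumL
noncomputable def trL : ℂ × ℂ →L[ℝ] ℝ := Complex.reCLM.comp tauL
noncomputable def tiL : ℂ × ℂ →L[ℝ] ℝ := Complex.imCLM.comp tauL

theorem wf_eq (C : ℝ) (L : ℂ → ℝ) :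
    wf C L = fun z => XL z - C * (trL z * trL z + tiL z * tiL z + eL z * eL z) - L (tauL z) := by
  funext z
  have : ‖tau z‖ ^ 2 = trL z * trL z + tiL z * tiL z := by
    rw [← Complex.normSq_eq_norm_sq, Complex.normSq_apply]
    simp only [trL, tiL, tauL, tau, ContinuousLinearMap.comp_apply, Complex.reCLM_apply,
      Complex.imCLM_apply, _root_.sub_apply, ContinuousLinearMap.coe_fst',
      ContinuousLinearMap.coe_snd']
  unfold wf par
  rw [this, pow_two (eta z)]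
  rfl

theorem wf_contDiff (C : ℝ) {L : ℂ → ℝ} (hL : ContDiff ℝ ∞ L) : ContDiff ℝ ∞ (wf C L) := by
  rw [wf_eq]
  exact (XL.contDiff.sub (contDiff_const.mul (((trL.contDiff.mul trL.contDiff).add
    (tiL.contDiff.mul tiL.contDiff)).add
    (eL.contDiff.mul eL.contDiff)))).sub (hL.comp tauL.contDiff)

theorem fderiv_wf (C : ℝ) {L : ℂ → ℝ} (hL : ContDiff ℝ ∞ L) (z u : ℂ × ℂ) :
    fderiv ℝ (wf C L) z u = XX u - 2 * C * ((tau z).re * (tau u).re + (tau z).im * (tau u).im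
      + eta z * eta u) - fderiv ℝ L (tau z) (tau u) := by
  have hd : DifferentiableAt ℝ L (tauL z) := (hL.differentiable (by norm_num)) _
  have h1 := (XL.hasFDerivAt (x := z)).sub (((((trL.hasFDerivAt (x := z)).mul
    (trL.hasFDerivAt (x := z))).add
    ((tiL.hasFDerivAt (x := z)).mul (tiL.hasFDerivAt (x := z)))).add
    ((eL.hasFDerivAt (x := z)).mul (eL.hasFDerivAt (x := z)))).const_mul C)
  have h2 := h1.sub (hd.hasFDerivAt.comp z (tauL.hasFDerivAt (x := z)))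
  have h3 : HasFDerivAt (fun z => XL z - C * (trL z * trL z + tiL z * tiL z + eL z * eL z)
      - L (tauL z)) _ z := h2
  rw [← wf_eq C L] at h3
  rw [h3.fderiv]
  simp only [_root_.sub_apply, _root_.smul_apply,
    _root_.add_apply, ContinuousLinearMap.comp_apply, smul_eq_mul]
  simp only [XL, eL, trL, tiL, tauL, sumL, tau, eta, XX, ContinuousLinearMap.comp_apply,
    Complex.reCLM_apply, Complex.imCLM_apply, _root_.sub_apply,
    _root_.add_apply, ContinuousLinearMap.coe_fst', ContinuousLinearMap.coe_snd']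
  ring

theorem hess_wf (C : ℝ) {L : ℂ → ℝ} (hL : ContDiff ℝ ∞ L) (z u v : ℂ × ℂ) :
    hess (wf C L) z u v = - 2 * C * ((tau u).re * (tau v).re + (tau u).im * (tau v).im
      + eta u * eta v) - fderiv ℝ (fun s => fderiv ℝ L s (tau v)) (tau z) (tau u) := by
  unfold hess
  have e : (fun w => fderiv ℝ (wf C L) w v) = fun w => XX v - 2 * C * (trL w * (tau v).re
      + tiL w * (tau v).im + eL w * eta v) - fderiv ℝ L (tauL w) (tau v) := by
    funext w
    rw [fderiv_wf C hL]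
    rfl
  have hd : DifferentiableAt ℝ (fun s => fderiv ℝ L s (tau v)) (tauL z) := by
    have : ContDiff ℝ ∞ (fun s => fderiv ℝ L s (tau v)) :=
      (hL.fderiv_right (m := ∞) (by norm_num)).clm_apply contDiff_const
    exact (this.differentiable (by norm_num)) _
  have h1 := ((((trL.hasFDerivAt (x := z)).mul_const (tau v).re).add
    ((tiL.hasFDerivAt (x := z)).mul_const (tau v).im)).add
    ((eL.hasFDerivAt (x := z)).mul_const (eta v))).const_mul (2 * C)
  have h2 := ((hasFDerivAt_const (XX v) z).sub h1).sub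
    (hd.hasFDerivAt.comp z (tauL.hasFDerivAt (x := z)))
  have h3 : HasFDerivAt (fun w => XX v - 2 * C * (trL w * (tau v).re
      + tiL w * (tau v).im + eL w * eta v) - fderiv ℝ L (tauL w) (tau v)) _ z := h2
  rw [e, h3.fderiv]
  simp only [_root_.sub_apply, _root_.smul_apply,
    _root_.add_apply, ContinuousLinearMap.comp_apply, smul_eq_mul,
    _root_.zero_apply]
  simp only [eL, trL, tiL, tauL, sumL, tau, eta, ContinuousLinearMap.comp_apply,
    Complex.reCLM_apply, Complex.imCLM_apply, _root_.sub_apply,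
    _root_.add_apply, ContinuousLinearMap.coe_fst', ContinuousLinearMap.coe_snd']
  ring

end weightfun

section pointwise

theorem smul_X1 : Complex.I • ((1, 0) : ℂ × ℂ) = (Complex.I, 0) := by
  simp [Prod.smul_mk]
theorem smul_Y1 : Complex.I • ((0, 1) : ℂ × ℂ) = (0, Complex.I) := by
  simp [Prod.smul_mk]
theorem smul_Y2 : Complex.I • ((0, Complex.I) : ℂ × ℂ) = -(0, 1) := by
  simp [Prod.smul_mk]

variable {Ω : Set (ℂ × ℂ)} {γ : ℂ × ℂ → ℂ × ℂ → ℂ × ℂ → ℝ}

/-- trace of the form -/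
noncomputable def TT (γ : ℂ × ℂ → ℂ × ℂ → ℂ × ℂ → ℝ) (z : ℂ × ℂ) : ℝ :=
  γ z (1, 0) (1, 0) + γ z (0, 1) (0, 1)

theorem TT_nonneg (h : CForm Ω γ) {z : ℂ × ℂ} (hz : z ∈ Ω) : 0 ≤ TT γ z :=
  add_nonneg (h11_nonneg h hz) (h22_nonneg h hz)

theorem wdg_tens (h : CForm Ω γ) {z : ℂ × ℂ} (hz : z ∈ Ω) (f : ℂ × ℂ → ℝ) :
    wdg (γ z) (tens f z) =
      γ z ((⟨fderiv ℝ f z (0, 1), -fderiv ℝ f z (0, Complex.I)⟩ : ℂ),
        (⟨-fderiv ℝ f z (1, 0), fderiv ℝ f z (Complex.I, 0)⟩ : ℂ))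
       ((⟨fderiv ℝ f z (0, 1), -fderiv ℝ f z (0, Complex.I)⟩ : ℂ),
        (⟨-fderiv ℝ f z (1, 0), fderiv ℝ f z (Complex.I, 0)⟩ : ℂ)) := by
  rw [form_val h hz]
  simp only [wdg, tens, smul_X1, smul_Y1, smul_Y2, map_neg]
  ring

theorem tens_lower (h : CForm Ω γ) {c₀ : ℝ} (hc : 0 < c₀) (hs : Slack c₀ Ω γ) {z : ℂ × ℂ}
    (hz : z ∈ Ω) (f : ℂ × ℂ → ℝ) (h1 : 3 / 4 ≤ fderiv ℝ f z (1, 0))
    (h2 : 3 / 4 ≤ fderiv ℝ f z (0, 1)) :
    9 / 16 * c₀ * TT γ z ≤ wdg (γ z) (tens f z) := by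
  rw [wdg_tens h hz]
  refine le_trans ?_ (hs z hz _ _)
  have k1 := form_val h hz (⟨fderiv ℝ f z (0, 1), -fderiv ℝ f z (0, Complex.I)⟩ : ℂ) 0
  have k2 := form_val h hz 0 (⟨-fderiv ℝ f z (1, 0), fderiv ℝ f z (Complex.I, 0)⟩ : ℂ)
  rw [k1, k2]
  simp only [Complex.zero_re, Complex.zero_im]
  have p1 := h11_nonneg h hz
  have p2 := h22_nonneg h hz
  unfold TT
  set x := γ z (1, 0) (1, 0)
  set y := γ z (0, 1) (0, 1)
  set p := fderiv ℝ f z (1, 0)
  set q := fderiv ℝ f z (0, 1)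
  set p' := fderiv ℝ f z (Complex.I, 0)
  set q' := fderiv ℝ f z (0, Complex.I)
  have e1 : 9 / 16 ≤ q ^ 2 + (-q') ^ 2 := by nlinarith
  have e2 : 9 / 16 ≤ (-p) ^ 2 + p' ^ 2 := by nlinarith
  have e3 : 9 / 16 * x ≤ (q ^ 2 + (-q') ^ 2) * x := mul_le_mul_of_nonneg_right e1 p1
  have e4 : 9 / 16 * y ≤ ((-p) ^ 2 + p' ^ 2) * y := mul_le_mul_of_nonneg_right e2 p2
  nlinarith [mul_le_mul_of_nonneg_left (add_le_add e3 e4) hc.le]

theorem fderiv_apply_eq {L : ℂ → ℝ} (hL : ContDiff ℝ ∞ L) (t p q : ℂ) :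
    fderiv ℝ (fun s => fderiv ℝ L s q) t p = fderiv ℝ (fderiv ℝ L) t p q := by
  have hd : DifferentiableAt ℝ (fderiv ℝ L) t := by
    have : ContDiff ℝ ∞ (fderiv ℝ L) := hL.fderiv_right (m := ∞) (by norm_num)
    exact (this.differentiable (by norm_num)) _
  have h1 := hd.hasFDerivAt.clm_apply (hasFDerivAt_const q t)
  rw [h1.fderiv]
  simp

theorem levi_lower (h : CForm Ω γ) {z : ℂ × ℂ} (hz : z ∈ Ω) {C : ℝ} (hC : 0 < C) {L : ℂ → ℝ}
    (hL : ContDiff ℝ ∞ L)
    (hsub : ∀ t, fderiv ℝ (fun s => fderiv ℝ L s 1) t 1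
        + fderiv ℝ (fun s => fderiv ℝ L s Complex.I) t Complex.I ≤ 0) :
    -(8 * C * TT γ z) ≤ wdg (γ z) (levi (wf C L) z) := by
  have hs := hsub (tau z)
  have hsymm : fderiv ℝ (fderiv ℝ L) (tau z) 1 Complex.I
      = fderiv ℝ (fderiv ℝ L) (tau z) Complex.I 1 := by
    have := (hL.contDiffAt (x := tau z)).isSymmSndFDerivAt
      (by simp; exact WithTop.coe_le_coe.2 le_top)
    exact this.eq 1 Complex.I
  have p1 := h11_nonneg h hz
  have p2 := h22_nonneg h hz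
  have pa := abs_a_le h hz
  unfold TT
  unfold wdg levi
  simp only [hess_wf C hL, smul_X1, smul_Y1, smul_Y2, fderiv_apply_eq hL] at hs ⊢
  have t1 : tau (1, 0) = 1 := by simp [tau]
  have t2 : tau (0, 1) = -1 := by simp [tau]
  have t3 : tau (Complex.I, 0) = Complex.I := by simp [tau]
  have t4 : tau (0, Complex.I) = -Complex.I := by simp [tau]
  have t5 : tau (-(0, 1)) = 1 := by simp [tau]
  have u1 : eta (1, 0) = 0 := by simp [eta]
  have u2 : eta (0, 1) = 0 := by simp [eta]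
  have u3 : eta (Complex.I, 0) = 1 := by simp [eta]
  have u4 : eta (0, Complex.I) = 1 := by simp [eta]
  have u5 : eta (-(0, 1)) = 0 := by simp [eta]
  simp only [t1, t2, t3, t4, t5, u1, u2, u3, u4, u5, map_neg, _root_.neg_apply, Complex.neg_re,
    Complex.neg_im, Complex.one_re, Complex.one_im, Complex.I_re, Complex.I_im, neg_neg, hsymm]
  set x := γ z (1, 0) (1, 0)
  set y := γ z (0, 1) (0, 1)
  set a := γ z (1, 0) (0, 1)
  set b := γ z (1, 0) (0, Complex.I)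
  set A := fderiv ℝ (fderiv ℝ L) (tau z) 1 1
  set B := fderiv ℝ (fderiv ℝ L) (tau z) Complex.I Complex.I
  set D := fderiv ℝ (fderiv ℝ L) (tau z) Complex.I 1
  have ha := abs_le.1 (show |a| ≤ (x + y) / 2 by linarith)
  have k1 : 0 ≤ -(A + B) * (x + y + 2 * a) := mul_nonneg (by linarith) (by linarith [ha.1])
  have k2 : 0 ≤ C * (x + y - 2 * a) := mul_nonneg hC.le (by linarith [ha.2])
  nlinarith [k1, k2]

theorem abs_fderiv_wf (C : ℝ) {L : ℂ → ℝ} (hL : ContDiff ℝ ∞ L) (hC : 0 < C) {ε : ℝ}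
    (hε : 0 < ε) (hε' : (6 * C + 1) * ε ≤ 1 / 4) (z : ℂ × ℂ)
    (h1 : ‖tau z‖ ≤ ε) (h2 : |eta z| ≤ ε) (h3 : ‖fderiv ℝ L (tau z)‖ ≤ ε) (u : ℂ × ℂ)
    (h4 : ‖tau u‖ ≤ 1) (h5 : |eta u| ≤ 1) :
    |fderiv ℝ (wf C L) z u - XX u| ≤ 1 / 4 := by
  rw [fderiv_wf C hL]
  have a1 : |(tau z).re| ≤ ε := (Complex.abs_re_le_norm _).trans h1
  have a2 : |(tau z).im| ≤ ε := (Complex.abs_im_le_norm _).trans h1
  have a3 : |(tau u).re| ≤ 1 := (Complex.abs_re_le_norm _).trans h4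
  have a4 : |(tau u).im| ≤ 1 := (Complex.abs_im_le_norm _).trans h4
  have a5 : |fderiv ℝ L (tau z) (tau u)| ≤ ε := by
    have := (fderiv ℝ L (tau z)).le_opNorm (tau u)
    rw [Real.norm_eq_abs] at this
    refine this.trans ?_
    calc ‖fderiv ℝ L (tau z)‖ * ‖tau u‖ ≤ ε * 1 := mul_le_mul h3 h4 (norm_nonneg _) hε.le
      _ = ε := mul_one _
  have m1 : |(tau z).re * (tau u).re| ≤ ε * 1 := by
    rw [abs_mul]; exact mul_le_mul a1 a3 (abs_nonneg _) hε.le
  have m2 : |(tau z).im * (tau u).im| ≤ ε * 1 := by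
    rw [abs_mul]; exact mul_le_mul a2 a4 (abs_nonneg _) hε.le
  have m3 : |eta z * eta u| ≤ ε * 1 := by
    rw [abs_mul]; exact mul_le_mul h2 h5 (abs_nonneg _) hε.le
  rw [abs_le] at *
  have n1 : C * ((tau z).re * (tau u).re + (tau z).im * (tau u).im + eta z * eta u) ≤ C * (3 * ε) :=
    mul_le_mul_of_nonneg_left (by linarith [m1.2, m2.2, m3.2]) hC.le
  have n2 : C * (-(3 * ε)) ≤ C * ((tau z).re * (tau u).re + (tau z).im * (tau u).im
      + eta z * eta u) :=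
    mul_le_mul_of_nonneg_left (by linarith [m1.1, m2.1, m3.1]) hC.le
  constructor <;> nlinarith [n1, n2, a5.1, a5.2]

/-- second derivatives of the product `χ · Λ(w)` -/
theorem hess_prod {χ w : ℂ × ℂ → ℝ} {Λ μ μ' : ℝ → ℝ} (hχ : ContDiff ℝ ∞ χ)
    (hw : ContDiff ℝ ∞ w) (h1 : ∀ t, HasDerivAt Λ (μ t) t) (h2 : ∀ t, HasDerivAt μ (μ' t) t)
    (z u v : ℂ × ℂ) :
    hess (fun z => χ z * Λ (w z)) z u v =
      Λ (w z) * hess χ z u v + μ (w z) * (fderiv ℝ w z u * fderiv ℝ χ z v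
        + fderiv ℝ χ z u * fderiv ℝ w z v)
      + χ z * (μ' (w z) * (fderiv ℝ w z u * fderiv ℝ w z v) + μ (w z) * hess w z u v) := by
  have dχ : ∀ y, HasFDerivAt χ (fderiv ℝ χ y) y := fun y =>
    ((hχ.differentiable (by norm_num)) y).hasFDerivAt
  have dw : ∀ y, HasFDerivAt w (fderiv ℝ w y) y := fun y =>
    ((hw.differentiable (by norm_num)) y).hasFDerivAt
  have e1 : ∀ y, fderiv ℝ (fun z => χ z * Λ (w z)) y v
      = χ y * (μ (w y) * fderiv ℝ w y v) + Λ (w y) * fderiv ℝ χ y v := by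
    intro y
    have h3 := (dχ y).mul ((h1 (w y)).comp_hasFDerivAt y (dw y))
    have h4 : fderiv ℝ (fun z => χ z * Λ (w z)) y = _ := h3.fderiv
    rw [h4]
    simp
  have dχ' : DifferentiableAt ℝ (fun y => fderiv ℝ χ y v) z := by
    have : ContDiff ℝ ∞ (fun y => fderiv ℝ χ y v) :=
      (hχ.fderiv_right (m := ∞) (by norm_num)).clm_apply contDiff_const
    exact (this.differentiable (by norm_num)) _
  have dw' : DifferentiableAt ℝ (fun y => fderiv ℝ w y v) z := by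
    have : ContDiff ℝ ∞ (fun y => fderiv ℝ w y v) :=
      (hw.fderiv_right (m := ∞) (by norm_num)).clm_apply contDiff_const
    exact (this.differentiable (by norm_num)) _
  unfold hess
  have e2 : (fun y => fderiv ℝ (fun z => χ z * Λ (w z)) y v)
      = fun y => χ y * (μ (w y) * fderiv ℝ w y v) + Λ (w y) * fderiv ℝ χ y v := funext e1
  rw [e2]
  have h5 := ((dχ z).mul (((h2 (w z)).comp_hasFDerivAt z (dw z)).mul dw'.hasFDerivAt)).add
    (((h1 (w z)).comp_hasFDerivAt z (dw z)).mul dχ'.hasFDerivAt)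
  have h6 : fderiv ℝ (fun y => χ y * (μ (w y) * fderiv ℝ w y v) + Λ (w y) * fderiv ℝ χ y v) z
      = _ := h5.fderiv
  rw [h6]
  simp only [_root_.add_apply, _root_.smul_apply, smul_eq_mul, Function.comp_apply, Pi.mul_apply]
  ring

end pointwise

section oneD

theorem antider {g : ℝ → ℝ} (hg : ContDiff ℝ ∞ g) :
    ContDiff ℝ ∞ (fun t => ∫ u in (0 : ℝ)..t, g u) ∧
      ∀ t, HasDerivAt (fun t => ∫ u in (0 : ℝ)..t, g u) (g t) t := by
  have h1 : ∀ t, HasDerivAt (fun t => ∫ u in (0 : ℝ)..t, g u) (g t) t := fun t =>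
    (hg.continuous.integral_hasStrictDerivAt 0 t).hasDerivAt
  refine ⟨?_, h1⟩
  rw [contDiff_infty_iff_deriv]
  refine ⟨fun t => (h1 t).differentiableAt, ?_⟩
  have : deriv (fun t => ∫ u in (0 : ℝ)..t, g u) = g := funext fun t => (h1 t).deriv
  rw [this]
  exact hg

theorem integral_zero_of_le {g : ℝ → ℝ} {s t : ℝ} (hs : 0 < s) (h : ∀ u ≤ s, g u = 0)
    (ht : t ≤ s) : ∫ u in (0 : ℝ)..t, g u = 0 := by
  have : ∫ u in (0 : ℝ)..t, g u = ∫ u in (0 : ℝ)..t, (0 : ℝ) := by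
    apply intervalIntegral.integral_congr
    intro u hu
    rw [mem_uIcc] at hu
    apply h
    rcases hu with hu | hu
    · linarith [hu.2]
    · linarith [hu.2]
  rw [this]
  simp

/-- the one-variable weight -/
theorem weight {c₁ A : ℝ} (hc : 0 < c₁) (hA : 0 ≤ A) : ∃ K : ℝ, 0 < K ∧ ∀ (s r : ℝ), 0 < s →
    s ≤ r → ∃ Λ μ μ' : ℝ → ℝ, ContDiff ℝ ∞ Λ ∧ (∀ t, HasDerivAt Λ (μ t) t) ∧
      (∀ t, HasDerivAt μ (μ' t) t) ∧ Continuous μ' ∧
      (∀ t, t ≤ s / 2 → Λ t = 0 ∧ μ t = 0 ∧ μ' t = 0) ∧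
      (∀ t, t ≤ 2 → (0 ≤ Λ t ∧ Λ t ≤ K) ∧ (0 ≤ μ t ∧ μ t ≤ K)) ∧
      (∀ t, 0 ≤ c₁ * μ' t - A * μ t) ∧ (∀ t, s ≤ t → t ≤ r → 1 / r ≤ c₁ * μ' t - A * μ t) := by
  set lam : ℝ := A / c₁ with hlam
  have hl0 : 0 ≤ lam := div_nonneg hA hc.le
  refine ⟨6 * Real.exp (lam * 2) / c₁, by positivity, ?_⟩
  intro s r hs hsr
  have hr : 0 < r := hs.trans_le hsr
  set θ : ℝ → ℝ := fun t => Real.smoothTransition (2 * t / s - 1) *
    Real.smoothTransition ((3 * r - t) / r) with hθ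
  have θc : ContDiff ℝ ∞ θ := by
    apply ContDiff.mul
    · exact Real.smoothTransition.contDiff.comp (by fun_prop)
    · exact Real.smoothTransition.contDiff.comp (by fun_prop)
  have θ0 : ∀ t, 0 ≤ θ t := fun t =>
    mul_nonneg (Real.smoothTransition.nonneg _) (Real.smoothTransition.nonneg _)
  have θ1 : ∀ t, θ t ≤ 1 := fun t =>
    mul_le_one₀ (Real.smoothTransition.le_one _) (Real.smoothTransition.nonneg _)
      (Real.smoothTransition.le_one _)
  have θs : ∀ t, t ≤ s / 2 → θ t = 0 := by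
    intro t ht
    have : Real.smoothTransition (2 * t / s - 1) = 0 := by
      apply Real.smoothTransition.zero_of_nonpos
      have : 2 * t / s ≤ 1 := by
        rw [div_le_one hs]; linarith
      linarith
    simp only [hθ, this, zero_mul]
  have θr : ∀ t, 3 * r ≤ t → θ t = 0 := by
    intro t ht
    have : Real.smoothTransition ((3 * r - t) / r) = 0 := by
      apply Real.smoothTransition.zero_of_nonpos
      exact div_nonpos_of_nonpos_of_nonneg (by linarith) hr.le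
    simp only [hθ, this, mul_zero]
  have θe : ∀ t, s ≤ t → t ≤ r → θ t = 1 := by
    intro t h1 h2
    have e1 : Real.smoothTransition (2 * t / s - 1) = 1 := by
      apply Real.smoothTransition.one_of_one_le
      have : 2 ≤ 2 * t / s := by
        rw [le_div_iff₀ hs]; linarith
      linarith
    have e2 : Real.smoothTransition ((3 * r - t) / r) = 1 := by
      apply Real.smoothTransition.one_of_one_le
      rw [le_div_iff₀ hr]; linarith
    simp only [hθ, e1, e2, mul_one]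
  set g : ℝ → ℝ := fun u => Real.exp (-(lam * u)) * θ u with hg
  have gc : ContDiff ℝ ∞ g := by
    apply ContDiff.mul _ θc
    exact Real.contDiff_exp.comp (by fun_prop)
  have g0 : ∀ t, 0 ≤ g t := fun t => mul_nonneg (Real.exp_pos _).le (θ0 t)
  have g1 : ∀ t, 0 ≤ t → g t ≤ 1 := by
    intro t ht
    refine mul_le_one₀ ?_ (θ0 t) (θ1 t)
    rw [Real.exp_le_one_iff]
    have := mul_nonneg hl0 ht
    linarith
  have gs : ∀ t, t ≤ s / 2 → g t = 0 := fun t ht => by simp only [hg, θs t ht, mul_zero]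
  have gr : ∀ t, 3 * r ≤ t → g t = 0 := fun t ht => by simp only [hg, θr t ht, mul_zero]
  obtain ⟨κc, κd⟩ := antider gc
  set κ : ℝ → ℝ := fun t => ∫ u in (0 : ℝ)..t, g u with hκ
  have κs : ∀ t, t ≤ s / 2 → κ t = 0 := fun t ht => integral_zero_of_le (half_pos hs) gs ht
  have κ0 : ∀ t, 0 ≤ t → 0 ≤ κ t := fun t ht =>
    intervalIntegral.integral_nonneg ht (fun u _ => g0 u)
  have κa : ∀ t, 0 ≤ t → κ t ≤ t := by
    intro t ht
    have : κ t ≤ ∫ u in (0 : ℝ)..t, (1 : ℝ) := by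
      apply intervalIntegral.integral_mono_on ht
      · exact gc.continuous.intervalIntegrable _ _
      · exact continuous_const.intervalIntegrable _ _
      · intro u hu
        exact g1 u hu.1
    simpa using this
  have κ1 : ∀ t, 0 ≤ t → κ t ≤ 3 * r := by
    intro t ht
    by_cases h : t ≤ 3 * r
    · exact (κa t ht).trans h
    · push Not at h
      have e1 : κ t = κ (3 * r) + ∫ u in (3 * r)..t, g u := by
        simp only [hκ]
        rw [intervalIntegral.integral_add_adjacent_intervals]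
        · exact gc.continuous.intervalIntegrable _ _
        · exact gc.continuous.intervalIntegrable _ _
      have e2 : ∫ u in (3 * r)..t, g u = ∫ u in (3 * r)..t, (0 : ℝ) := by
        apply intervalIntegral.integral_congr
        intro u hu
        rw [uIcc_of_le h.le] at hu
        exact gr u hu.1
      rw [e1, e2]
      simp only [intervalIntegral.integral_zero, add_zero]
      exact κa _ (by positivity)
  set μ : ℝ → ℝ := fun t => 1 / (c₁ * r) * (Real.exp (lam * t) * κ t) with hμ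
  have μc : ContDiff ℝ ∞ μ := by
    apply contDiff_const.mul
    apply ContDiff.mul _ κc
    exact Real.contDiff_exp.comp (by fun_prop)
  have hcr : 0 < c₁ * r := mul_pos hc hr
  have μd : ∀ t, HasDerivAt μ (lam * μ t + θ t / (c₁ * r)) t := by
    intro t
    have h1 : HasDerivAt (fun t => Real.exp (lam * t)) (Real.exp (lam * t) * lam) t := by
      have := ((hasDerivAt_id t).const_mul lam).exp
      simpa using this
    have h2 := (h1.mul (κd t)).const_mul (1 / (c₁ * r))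
    refine h2.congr_deriv ?_
    have e : Real.exp (lam * t) * g t = θ t := by
      simp only [hg]
      rw [← mul_assoc, ← Real.exp_add]
      simp
    rw [e]
    simp only [hμ]
    field_simp
  have μs : ∀ t, t ≤ s / 2 → μ t = 0 := fun t ht => by simp only [hμ, κs t ht, mul_zero]
  have μb : ∀ t, 0 ≤ t → t ≤ 2 → 0 ≤ μ t ∧ μ t ≤ 3 * Real.exp (lam * 2) / c₁ := by
    intro t h0 h2
    constructor
    · have := κ0 t h0
      positivity
    · have e1 : Real.exp (lam * t) ≤ Real.exp (lam * 2) :=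
        Real.exp_le_exp.2 (mul_le_mul_of_nonneg_left h2 hl0)
      have e2 : Real.exp (lam * t) * κ t ≤ Real.exp (lam * 2) * (3 * r) :=
        mul_le_mul e1 (κ1 t h0) (κ0 t h0) (Real.exp_pos _).le
      calc μ t ≤ 1 / (c₁ * r) * (Real.exp (lam * 2) * (3 * r)) :=
            mul_le_mul_of_nonneg_left e2 (by positivity)
        _ = 3 * Real.exp (lam * 2) / c₁ := by field_simp
  obtain ⟨Λc, Λd⟩ := antider μc
  set Λ : ℝ → ℝ := fun t => ∫ u in (0 : ℝ)..t, μ u with hΛ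
  have Λs : ∀ t, t ≤ s / 2 → Λ t = 0 := fun t ht => integral_zero_of_le (half_pos hs) μs ht
  have Λb : ∀ t, 0 ≤ t → t ≤ 2 → 0 ≤ Λ t ∧ Λ t ≤ 6 * Real.exp (lam * 2) / c₁ := by
    intro t h0 h2
    constructor
    · exact intervalIntegral.integral_nonneg h0 (fun u hu => (μb u hu.1 (hu.2.trans h2)).1)
    · have : Λ t ≤ ∫ u in (0 : ℝ)..t, (3 * Real.exp (lam * 2) / c₁) := by
        apply intervalIntegral.integral_mono_on h0
        · exact μc.continuous.intervalIntegrable _ _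
        · exact continuous_const.intervalIntegrable _ _
        · intro u hu
          exact (μb u hu.1 (hu.2.trans h2)).2
      rw [intervalIntegral.integral_const, smul_eq_mul, sub_zero] at this
      refine this.trans ?_
      have e : 0 ≤ 3 * Real.exp (lam * 2) / c₁ := by positivity
      calc t * (3 * Real.exp (lam * 2) / c₁) ≤ 2 * (3 * Real.exp (lam * 2) / c₁) :=
            mul_le_mul_of_nonneg_right h2 e
        _ = 6 * Real.exp (lam * 2) / c₁ := by ring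
  have hKK : 3 * Real.exp (lam * 2) / c₁ ≤ 6 * Real.exp (lam * 2) / c₁ := by
    apply div_le_div_of_nonneg_right _ hc.le
    have := Real.exp_pos (lam * 2)
    linarith
  have hkey : ∀ t, c₁ * (lam * μ t + θ t / (c₁ * r)) - A * μ t = θ t / r := by
    intro t
    rw [hlam]
    field_simp
    ring
  refine ⟨Λ, μ, fun t => lam * μ t + θ t / (c₁ * r), Λc, Λd, μd, ?_,
    fun t ht => ⟨Λs t ht, μs t ht, ?_⟩, ?_, ?_, ?_⟩
  · exact (continuous_const.mul μc.continuous).add (θc.continuous.div_const _)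
  · show lam * μ t + θ t / (c₁ * r) = 0
    rw [μs t ht, θs t ht]
    simp
  · intro t ht
    by_cases h : 0 ≤ t
    · exact ⟨Λb t h ht, (μb t h ht).1, (μb t h ht).2.trans hKK⟩
    · push Not at h
      have hK : 0 ≤ 6 * Real.exp (lam * 2) / c₁ := by positivity
      rw [Λs t (by linarith), μs t (by linarith)]
      exact ⟨⟨le_refl _, hK⟩, le_refl _, hK⟩
  · intro t
    show 0 ≤ c₁ * (lam * μ t + θ t / (c₁ * r)) - A * μ t
    rw [hkey]
    exact div_nonneg (θ0 t) hr.le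
  · intro t h1 h2
    show 1 / r ≤ c₁ * (lam * μ t + θ t / (c₁ * r)) - A * μ t
    rw [hkey, θe t h1 h2]

end oneD

section final

variable {Ω : Set (ℂ × ℂ)} {γ : ℂ × ℂ → ℂ × ℂ → ℂ × ℂ → ℝ}

theorem cont_of_supp {Ω K : Set (ℂ × ℂ)} (hΩ : IsOpen Ω) (hK : IsCompact K) (hKΩ : K ⊆ Ω)
    {F : ℂ × ℂ → ℝ} (hF : ContinuousOn F Ω) (h0 : ∀ z, z ∉ K → F z = 0) :
    Continuous F ∧ HasCompactSupport F := by
  constructor
  · rw [continuous_iff_continuousAt]
    intro z
    by_cases hz : z ∈ K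
    · exact hF.continuousAt (hΩ.mem_nhds (hKΩ hz))
    · have : F =ᶠ[𝓝 z] fun _ => 0 := by
        filter_upwards [hK.isClosed.isOpen_compl.mem_nhds hz] with y hy
        exact h0 y hy
      exact this.continuousAt
  · exact HasCompactSupport.intro hK h0

theorem cont_hess {f : ℂ × ℂ → ℝ} (hf : ContDiff ℝ ∞ f) (u v : ℂ × ℂ) :
    Continuous (fun z => hess f z u v) := by
  have h1 : ContDiff ℝ ∞ (fun y => fderiv ℝ f y v) :=
    (hf.fderiv_right (m := ∞) (by norm_num)).clm_apply contDiff_const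
  have h2 : ContDiff ℝ ∞ (fun z => fderiv ℝ (fun y => fderiv ℝ f y v) z u) :=
    (h1.fderiv_right (m := ∞) (by norm_num)).clm_apply contDiff_const
  exact h2.continuous

theorem cont_levi {f : ℂ × ℂ → ℝ} (hf : ContDiff ℝ ∞ f) (u v : ℂ × ℂ) :
    Continuous (fun z => levi f z u v) :=
  (cont_hess hf _ _).add (cont_hess hf _ _)

theorem hess_zero_of_ev {f : ℂ × ℂ → ℝ} {z : ℂ × ℂ} {c : ℝ} (h : ∀ᶠ y in 𝓝 z, f y = c)
    (u v : ℂ × ℂ) : hess f z u v = 0 := by
  unfold hess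
  have h1 : (fun w => fderiv ℝ f w v) =ᶠ[𝓝 z] fun _ => 0 := by
    have := h.eventually_nhds
    filter_upwards [this] with y hy
    have h2 : f =ᶠ[𝓝 y] fun _ => c := hy
    rw [h2.fderiv_eq]
    simp
  rw [h1.fderiv_eq]
  simp

theorem fderiv_zero_of_ev {f : ℂ × ℂ → ℝ} {z : ℂ × ℂ} {c : ℝ} (h : ∀ᶠ y in 𝓝 z, f y = c) :
    fderiv ℝ f z = 0 := by
  have h2 : f =ᶠ[𝓝 z] fun _ => c := h
  rw [h2.fderiv_eq]
  simp

theorem cont_TT (h : CForm Ω γ) : ContinuousOn (TT γ) Ω :=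
  (h.smooth _ _).continuousOn.add (h.smooth _ _).continuousOn

theorem cont_wdg (h : CForm Ω γ) {f : ℂ × ℂ → ℝ} (hf : ContDiff ℝ ∞ f) :
    ContinuousOn (fun z => wdg (γ z) (levi f z)) Ω := by
  unfold wdg
  have a := fun u v => (h.smooth u v).continuousOn
  have b := fun u v => (cont_levi hf u v).continuousOn (s := Ω)
  exact ((((a _ _).mul (b _ _)).add ((a _ _).mul (b _ _))).sub
    (continuousOn_const.mul ((a _ _).mul (b _ _)))).sub
    (continuousOn_const.mul ((a _ _).mul (b _ _)))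

/-- the mixed term -/
noncomputable def cr (χ w : ℂ × ℂ → ℝ) (z u v : ℂ × ℂ) : ℝ :=
  (fderiv ℝ w z u * fderiv ℝ χ z v + fderiv ℝ χ z u * fderiv ℝ w z v) +
  (fderiv ℝ w z (Complex.I • u) * fderiv ℝ χ z (Complex.I • v)
    + fderiv ℝ χ z (Complex.I • u) * fderiv ℝ w z (Complex.I • v))

theorem wdg_prod {χ w : ℂ × ℂ → ℝ} {Λ μ μ' : ℝ → ℝ} (hχ : ContDiff ℝ ∞ χ)
    (hw : ContDiff ℝ ∞ w) (h1 : ∀ t, HasDerivAt Λ (μ t) t) (h2 : ∀ t, HasDerivAt μ (μ' t) t)
    (z : ℂ × ℂ) :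
    wdg (γ z) (levi (fun z => χ z * Λ (w z)) z) =
      Λ (w z) * wdg (γ z) (levi χ z) + μ (w z) * wdg (γ z) (cr χ w z)
      + χ z * (μ' (w z) * wdg (γ z) (tens w z) + μ (w z) * wdg (γ z) (levi w z)) := by
  unfold wdg levi cr tens
  simp only [hess_prod hχ hw h1 h2]
  ring

theorem abs_cr_le {χ w : ℂ × ℂ → ℝ} {z u v : ℂ × ℂ} {δ : ℝ}
    (a1 : |fderiv ℝ w z u| ≤ 2) (a2 : |fderiv ℝ w z v| ≤ 2)
    (a3 : |fderiv ℝ w z (Complex.I • u)| ≤ 2) (a4 : |fderiv ℝ w z (Complex.I • v)| ≤ 2)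
    (b1 : |fderiv ℝ χ z u| ≤ δ) (b2 : |fderiv ℝ χ z v| ≤ δ)
    (b3 : |fderiv ℝ χ z (Complex.I • u)| ≤ δ) (b4 : |fderiv ℝ χ z (Complex.I • v)| ≤ δ) :
    |cr χ w z u v| ≤ 8 * δ := by
  have hδ : 0 ≤ δ := (abs_nonneg _).trans b1
  have m : ∀ x y : ℝ, |x| ≤ 2 → |y| ≤ δ → |x * y| ≤ 2 * δ := fun x y hx hy => by
    rw [abs_mul]; exact mul_le_mul hx hy (abs_nonneg _) (by norm_num)
  have m1 := m _ _ a1 b2
  have m2 := m _ _ a2 b1
  have m3 := m _ _ a3 b4
  have m4 := m _ _ a4 b3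
  unfold cr
  rw [abs_le] at *
  constructor <;> nlinarith [m1.1, m1.2, m2.1, m2.2, m3.1, m3.2, m4.1, m4.2]

theorem wdg_cr_le (h : CForm Ω γ) {z : ℂ × ℂ} (hz : z ∈ Ω) {χ w : ℂ × ℂ → ℝ} {δ : ℝ}
    (d3 : |fderiv ℝ w z (1, 0)| ≤ 2) (d4 : |fderiv ℝ w z (0, 1)| ≤ 2)
    (d5 : |fderiv ℝ w z (Complex.I, 0)| ≤ 2) (d6 : |fderiv ℝ w z (0, Complex.I)| ≤ 2)
    (hδ : ‖fderiv ℝ χ z‖ ≤ δ) :
    |wdg (γ z) (cr χ w z)| ≤ 24 * δ * TT γ z := by
  have hδ0 : 0 ≤ δ := (norm_nonneg _).trans hδ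
  have hd : ∀ u : ℂ × ℂ, ‖u‖ ≤ 1 → |fderiv ℝ χ z u| ≤ δ := by
    intro u hu
    have h1 := (fderiv ℝ χ z).le_opNorm u
    rw [Real.norm_eq_abs] at h1
    calc |fderiv ℝ χ z u| ≤ ‖fderiv ℝ χ z‖ * ‖u‖ := h1
      _ ≤ δ * 1 := mul_le_mul hδ hu (norm_nonneg _) hδ0
      _ = δ := mul_one _
  have g1 := hd (1, 0) (by simp)
  have g2 := hd (0, 1) (by simp)
  have g3 := hd (Complex.I, 0) (by simp)
  have g4 := hd (0, Complex.I) (by simp)
  have g5 := hd (-(0, 1)) (by simp)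
  have d7 : |fderiv ℝ w z (-(0, 1))| ≤ 2 := by
    rw [map_neg, abs_neg]; exact d4
  refine (wdg_le h hz (cr χ w z) (8 * δ) ?_ ?_ ?_ ?_).trans ?_
  · exact abs_cr_le d3 d3 (by rw [smul_X1]; exact d5) (by rw [smul_X1]; exact d5)
      g1 g1 (by rw [smul_X1]; exact g3) (by rw [smul_X1]; exact g3)
  · exact abs_cr_le d4 d4 (by rw [smul_Y1]; exact d6) (by rw [smul_Y1]; exact d6)
      g2 g2 (by rw [smul_Y1]; exact g4) (by rw [smul_Y1]; exact g4)
  · exact abs_cr_le d3 d4 (by rw [smul_X1]; exact d5) (by rw [smul_Y1]; exact d6)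
      g1 g2 (by rw [smul_X1]; exact g3) (by rw [smul_Y1]; exact g4)
  · exact abs_cr_le d3 d6 (by rw [smul_X1]; exact d5) (by rw [smul_Y2]; exact d7)
      g1 g4 (by rw [smul_X1]; exact g3) (by rw [smul_Y2]; exact g5)
  · refine le_of_eq ?_
    unfold TT
    ring

theorem alg_final {C c₀ x lam m m' T K t l a b e d M : ℝ} (hC : 0 < C) (hc₀ : 0 < c₀)
    (hx : 0 ≤ x) (hL0 : 0 ≤ lam) (hLK : lam ≤ K) (hm0 : 0 ≤ m) (hmK : m ≤ K)
    (hpos : 0 ≤ 9 / 16 * c₀ * m' - 8 * C * m) (ht : 9 / 16 * c₀ * T ≤ t)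
    (hl : -(8 * C * T) ≤ l) (hK : 0 < K) (ha : |a| ≤ 3 * e * |M|) (hb : |b| ≤ 24 * d * |M|) :
    x * ((9 / 16 * c₀ * m' - 8 * C * m) * T) ≤
      lam * a + m * b + x * (m' * t + m * l) + K * (3 * e + 24 * d) * |M| := by
  have hμ'0 : 0 ≤ m' := by
    have h2 : 0 ≤ 8 * C * m := by positivity
    have h3 : 0 ≤ 9 / 16 * c₀ * m' := by linarith
    by_contra h4
    push Not at h4
    have : 9 / 16 * c₀ * m' < 0 := mul_neg_of_pos_of_neg (by positivity) h4
    linarith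
  have k1 := mul_le_mul_of_nonneg_left ht hμ'0
  have k2 := mul_le_mul_of_nonneg_left hl hm0
  have e1 : (9 / 16 * c₀ * m' - 8 * C * m) * T ≤ m' * t + m * l := by linarith
  have e2 := mul_le_mul_of_nonneg_left e1 hx
  have e4 : -(K * (3 * e * |M|)) ≤ lam * a := by
    have k1 : |lam * a| ≤ K * (3 * e * |M|) := by
      rw [abs_mul, abs_of_nonneg hL0]
      exact mul_le_mul hLK ha (abs_nonneg _) hK.le
    exact (abs_le.1 k1).1
  have e5 : -(K * (24 * d * |M|)) ≤ m * b := by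
    have k1 : |m * b| ≤ K * (24 * d * |M|) := by
      rw [abs_mul, abs_of_nonneg hm0]
      exact mul_le_mul hmK hb (abs_nonneg _) hK.le
    exact (abs_le.1 k1).1
  have e6 : K * (3 * e + 24 * d) * |M| = K * (3 * e * |M|) + K * (24 * d * |M|) := by ring
  linarith

/-- the differential of `w` on the basis vectors -/
theorem dw_bounds {C : ℝ} {L : ℂ → ℝ} (hL : ContDiff ℝ ∞ L) (hC : 0 < C) {ε : ℝ}
    (hε : 0 < ε) (hε' : (6 * C + 1) * ε ≤ 1 / 4) (z : ℂ × ℂ)
    (h1 : ‖tau z‖ ≤ ε) (h2 : |eta z| ≤ ε) (h3 : ‖fderiv ℝ L (tau z)‖ ≤ ε) :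
    3 / 4 ≤ fderiv ℝ (wf C L) z (1, 0) ∧ 3 / 4 ≤ fderiv ℝ (wf C L) z (0, 1) ∧
    |fderiv ℝ (wf C L) z (1, 0)| ≤ 2 ∧ |fderiv ℝ (wf C L) z (0, 1)| ≤ 2 ∧
    |fderiv ℝ (wf C L) z (Complex.I, 0)| ≤ 2 ∧ |fderiv ℝ (wf C L) z (0, Complex.I)| ≤ 2 := by
  have k := abs_fderiv_wf C hL hC hε hε' z h1 h2 h3
  have k1 := k (1, 0) (by simp [tau]) (by simp [eta])
  have k2 := k (0, 1) (by simp [tau]) (by simp [eta])
  have k3 := k (Complex.I, 0) (by simp [tau]) (by simp [eta])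
  have k4 := k (0, Complex.I) (by simp [tau]) (by simp [eta])
  have x1 : XX (1, 0) = 1 := by simp [XX]
  have x2 : XX (0, 1) = 1 := by simp [XX]
  have x3 : XX (Complex.I, 0) = 0 := by simp [XX]
  have x4 : XX (0, Complex.I) = 0 := by simp [XX]
  rw [x1] at k1
  rw [x2] at k2
  rw [x3] at k3
  rw [x4] at k4
  rw [abs_le] at *
  simp only [abs_le]
  refine ⟨?_, ?_, ⟨?_, ?_⟩, ⟨?_, ?_⟩, ⟨?_, ?_⟩, ⟨?_, ?_⟩⟩ <;>
    linarith [k1.1, k1.2, k2.1, k2.2, k3.1, k3.2, k4.1, k4.2]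

theorem exists_eps {C : ℝ} (hC : 0 < C) : ∃ ε > 0, (6 * C + 1) * ε ≤ 1 / 4 := by
  refine ⟨1 / (4 * (6 * C + 1)), by positivity, ?_⟩
  have : 0 < 6 * C + 1 := by positivity
  field_simp
  exact le_refl _

theorem B_holds (hst : St_stokes) : St_B := by
  intro c₀ hc₀ C hC
  obtain ⟨ε, hε, hε'⟩ := exists_eps hC
  refine ⟨ε, hε, ?_⟩
  intro χ S M hχ hχc hχ1 hχt hχS
  -- bounds for `χ`
  obtain ⟨δ, hδ⟩ : ∃ δ : ℝ, ∀ z, ‖fderiv ℝ χ z‖ ≤ δ :=
    (hχc.fderiv (𝕜 := ℝ)).exists_bound_of_continuous (hχ.continuous_fderiv (by norm_num))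
  have hδ0 : 0 ≤ δ := (norm_nonneg _).trans (hδ 0)
  have hlc : ∀ u v, HasCompactSupport (fun z => levi χ z u v) := by
    intro u v
    apply HasCompactSupport.intro hχc
    intro z hz
    have : ∀ᶠ y in 𝓝 z, χ y = 0 := notMem_tsupport_iff_eventuallyEq.1 hz
    unfold levi
    rw [hess_zero_of_ev this, hess_zero_of_ev this, add_zero]
  have hlb : ∀ u v, ∃ β : ℝ, ∀ z, |levi χ z u v| ≤ β := fun u v =>
    (hlc u v).exists_bound_of_continuous (cont_levi hχ u v)
  obtain ⟨β1, hβ1⟩ := hlb (1, 0) (1, 0)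
  obtain ⟨β2, hβ2⟩ := hlb (0, 1) (0, 1)
  obtain ⟨β3, hβ3⟩ := hlb (1, 0) (0, 1)
  obtain ⟨β4, hβ4⟩ := hlb (1, 0) (0, Complex.I)
  set β : ℝ := |β1| + |β2| + |β3| + |β4| with hβdef
  have hβ0 : 0 ≤ β := by positivity
  have hb1 : ∀ z, |levi χ z (1, 0) (1, 0)| ≤ β := fun z => (hβ1 z).trans (by
    linarith [le_abs_self β1, abs_nonneg β2, abs_nonneg β3, abs_nonneg β4])
  have hb2 : ∀ z, |levi χ z (0, 1) (0, 1)| ≤ β := fun z => (hβ2 z).trans (by
    linarith [le_abs_self β2, abs_nonneg β1, abs_nonneg β3, abs_nonneg β4])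
  have hb3 : ∀ z, |levi χ z (1, 0) (0, 1)| ≤ β := fun z => (hβ3 z).trans (by
    linarith [le_abs_self β3, abs_nonneg β1, abs_nonneg β2, abs_nonneg β4])
  have hb4 : ∀ z, |levi χ z (1, 0) (0, Complex.I)| ≤ β := fun z => (hβ4 z).trans (by
    linarith [le_abs_self β4, abs_nonneg β1, abs_nonneg β2, abs_nonneg β3])
  obtain ⟨K, hK, hweight⟩ := weight (c₁ := 9 / 16 * c₀) (A := 8 * C) (by positivity) (by positivity)
  set E : ℝ := K * (3 * β + 24 * δ) * |M| with hE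
  have hE0 : 0 ≤ E := by positivity
  refine ⟨E * volume.real (tsupport χ), ?_⟩
  intro Ω γ L hΩ hγ hsl hL hL1 hL2 hL3 hin hM r hr hr1
  set w : ℂ × ℂ → ℝ := wf C L with hw
  have hwc : ContDiff ℝ ∞ w := wf_contDiff C hL
  have hin' : ∀ z ∈ tsupport χ, 0 < w z → z ∈ Ω := hin
  have hM' : ∀ z ∈ S ∩ tsupport χ, 0 < w z → TT γ z ≤ M := hM
  have hw2 : ∀ z ∈ tsupport χ, w z ≤ 2 := by
    intro z hz
    have h1 := (hχt z hz).2.2
    have h2 := hL2 (tau z) (hχt z hz).1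
    have h3 : 0 ≤ par C (tau z) (eta z) := by unfold par; positivity
    rw [abs_le] at h1 h2
    show XX z - par C (tau z) (eta z) - L (tau z) ≤ 2
    linarith [h1.2, h2.1]
  -- main estimate for positive `s`
  have main : ∀ s, 0 < s → s ≤ r → ∫⁻ z in {z | s ≤ w z ∧ w z < r},
      ENNReal.ofReal (χ z * TT γ z) ≤ ENNReal.ofReal (E * volume.real (tsupport χ) * r) := by
    intro s hs hsr
    obtain ⟨Λ, μ, μ', Λc, Λd, μd, μ'c, h0, hK1, hpos, hbig⟩ := hweight s r hs hsr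
    set f : ℂ × ℂ → ℝ := fun z => χ z * Λ (w z) with hf
    have hfc : ContDiff ℝ ∞ f := hχ.mul (Λc.comp hwc)
    set Ks : Set (ℂ × ℂ) := tsupport χ ∩ {z | s / 2 ≤ w z} with hKs
    have hKsc : IsCompact Ks :=
      hχc.isCompact.inter_right (isClosed_le continuous_const hwc.continuous)
    have hKsΩ : Ks ⊆ Ω := fun z hz => hin' z hz.1 (lt_of_lt_of_le (half_pos hs) hz.2)
    have hsf : tsupport f ⊆ Ks := by
      apply closure_minimal _ hKsc.isClosed
      intro z hz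
      rw [Function.mem_support] at hz
      have h1 : χ z ≠ 0 := left_ne_zero_of_mul hz
      have h2 : Λ (w z) ≠ 0 := right_ne_zero_of_mul hz
      refine ⟨subset_tsupport _ h1, ?_⟩
      by_contra h3
      have h3' : w z ≤ s / 2 := by
        have : ¬ (s / 2 ≤ w z) := h3
        push Not at this
        exact this.le
      exact h2 (h0 _ h3').1
    have hfcs : HasCompactSupport f := hKsc.of_isClosed_subset (isClosed_tsupport f) hsf
    have hI0 := hst Ω γ f hΩ hγ hfc hfcs (hsf.trans hKsΩ)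
    set I : ℂ × ℂ → ℝ := fun z => wdg (γ z) (levi f z) with hI
    have hIz : ∀ z, z ∉ Ks → I z = 0 := by
      intro z hz
      have : ∀ᶠ y in 𝓝 z, f y = 0 := notMem_tsupport_iff_eventuallyEq.1 (fun h => hz (hsf h))
      simp only [hI, wdg, levi, hess_zero_of_ev this]
      ring
    have hIc := cont_of_supp hΩ hKsc hKsΩ (cont_wdg hγ hfc) hIz
    set g : ℂ × ℂ → ℝ := fun z => χ z * ((9 / 16 * c₀ * μ' (w z) - 8 * C * μ (w z)) * TT γ z)
      with hg
    have hμc : Continuous μ := continuous_iff_continuousAt.2 fun t => (μd t).continuousAt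
    have hgz : ∀ z, z ∉ Ks → g z = 0 := by
      intro z hz
      by_cases h1 : z ∈ tsupport χ
      · have h3' : w z ≤ s / 2 := by
          by_contra h3
          push Not at h3
          exact hz ⟨h1, h3.le⟩
        simp only [hg, (h0 _ h3').2.1, (h0 _ h3').2.2]
        ring
      · simp only [hg, image_eq_zero_of_notMem_tsupport h1, zero_mul]
    have hgc : Continuous g ∧ HasCompactSupport g := by
      apply cont_of_supp hΩ hKsc hKsΩ _ hgz
      apply hχ.continuous.continuousOn.mul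
      apply ContinuousOn.mul _ (cont_TT hγ)
      exact ((continuous_const.mul (μ'c.comp hwc.continuous)).sub
        (continuous_const.mul (hμc.comp hwc.continuous))).continuousOn
    have hg0 : ∀ z, 0 ≤ g z := by
      intro z
      by_cases hz : z ∈ Ks
      · exact mul_nonneg (hχ1 z).1 (mul_nonneg (hpos _) (TT_nonneg hγ (hKsΩ hz)))
      · rw [hgz z hz]
    -- pointwise inequality
    have hpt : ∀ z, g z ≤ I z + (tsupport χ).indicator (fun _ => E) z := by
      intro z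
      by_cases hz : z ∈ Ks
      · have hzΩ := hKsΩ hz
        have hzt := hz.1
        have hwz : 0 < w z := lt_of_lt_of_le (half_pos hs) hz.2
        rw [indicator_of_mem hzt]
        have hI2 : I z = Λ (w z) * wdg (γ z) (levi χ z) + μ (w z) * wdg (γ z) (cr χ w z)
            + χ z * (μ' (w z) * wdg (γ z) (tens w z) + μ (w z) * wdg (γ z) (levi w z)) :=
          wdg_prod hχ hwc Λd μd z
        obtain ⟨⟨hL0, hLK⟩, hm0, hmK⟩ := hK1 (w z) (hw2 z hzt)
        obtain ⟨d1, d2, d3, d4, d5, d6⟩ := dw_bounds hL hC hε hε' z (hχt z hzt).1 (hχt z hzt).2.1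
          (hL1 (tau z))
        have hT0 := TT_nonneg hγ hzΩ
        have ht := tens_lower hγ hc₀ hsl hzΩ w d1 d2
        have hl := levi_lower hγ hzΩ hC hL hL3
        have hμ'0 : 0 ≤ μ' (w z) := by
          have h1 := hpos (w z)
          have h2 : 0 ≤ 8 * C * μ (w z) := by positivity
          have h3 : 0 ≤ 9 / 16 * c₀ * μ' (w z) := by linarith
          by_contra h4
          push Not at h4
          have : 9 / 16 * c₀ * μ' (w z) < 0 := mul_neg_of_pos_of_neg (by positivity) h4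
          linarith
        have e3 : |wdg (γ z) (levi χ z)| ≤ 3 * β * |M| ∧ |wdg (γ z) (cr χ w z)| ≤ 24 * δ * |M| := by
          by_cases hS : z ∈ S
          · have hTM : TT γ z ≤ |M| := (hM' z ⟨hS, hzt⟩ hwz).trans (le_abs_self M)
            constructor
            · refine (wdg_le hγ hzΩ (levi χ z) β (hb1 z) (hb2 z) (hb3 z) (hb4 z)).trans ?_
              exact mul_le_mul_of_nonneg_left hTM (by positivity)
            · refine (wdg_cr_le hγ hzΩ d3 d4 d5 d6 (hδ z)).trans ?_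
              exact mul_le_mul_of_nonneg_left hTM (by positivity)
          · have hev := hχS z hS
            have z1 : wdg (γ z) (levi χ z) = 0 := by
              simp only [wdg, levi, hess_zero_of_ev hev]; ring
            have z2 : wdg (γ z) (cr χ w z) = 0 := by
              simp only [wdg, cr, fderiv_zero_of_ev hev, _root_.zero_apply]; ring
            rw [z1, z2, abs_zero]
            exact ⟨by positivity, by positivity⟩
        rw [hI2, hE]
        exact alg_final hC hc₀ (hχ1 z).1 hL0 hLK hm0 hmK (hpos (w z)) ht hl hK e3.1 e3.2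
      · rw [hgz z hz, hIz z hz, zero_add]
        exact indicator_nonneg (fun _ _ => hE0) z
    -- integrate
    have hgi : Integrable g := hgc.1.integrable_of_hasCompactSupport hgc.2
    have hIi : Integrable I := hIc.1.integrable_of_hasCompactSupport hIc.2
    have htm : MeasurableSet (tsupport χ) := (isClosed_tsupport χ).measurableSet
    have htf : volume (tsupport χ) < ⊤ := hχc.isCompact.measure_lt_top
    have hEi : Integrable ((tsupport χ).indicator (fun _ : ℂ × ℂ => E)) :=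
      (integrable_indicator_iff htm).2 (integrableOn_const htf.ne)
    have hint : ∫ z, g z ≤ E * volume.real (tsupport χ) := by
      have h1 : ∫ z, g z ≤ ∫ z, (I z + (tsupport χ).indicator (fun _ => E) z) :=
        integral_mono hgi (hIi.add hEi) hpt
      rw [integral_add hIi hEi, hI0, integral_indicator htm, setIntegral_const, zero_add,
        smul_eq_mul, mul_comm] at h1
      exact h1
    have hmeas : MeasurableSet {z | s ≤ w z ∧ w z < r} :=
      (measurableSet_le measurable_const hwc.continuous.measurable).inter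
        (measurableSet_lt hwc.continuous.measurable measurable_const)
    calc ∫⁻ z in {z | s ≤ w z ∧ w z < r}, ENNReal.ofReal (χ z * TT γ z)
        ≤ ∫⁻ z in {z | s ≤ w z ∧ w z < r}, ENNReal.ofReal (r * g z) := by
          apply setLIntegral_mono' hmeas
          intro z hz
          apply ENNReal.ofReal_le_ofReal
          by_cases hzt : z ∈ tsupport χ
          · have hzΩ := hin' z hzt (lt_of_lt_of_le hs hz.1)
            have hT0 := TT_nonneg hγ hzΩ
            have h1 := hbig (w z) hz.1 hz.2.le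
            have h2 : 1 ≤ r * (9 / 16 * c₀ * μ' (w z) - 8 * C * μ (w z)) := by
              rw [div_le_iff₀ hr] at h1
              linarith
            have h3 : 0 ≤ χ z * TT γ z := mul_nonneg (hχ1 z).1 hT0
            calc χ z * TT γ z = 1 * (χ z * TT γ z) := (one_mul _).symm
              _ ≤ (r * (9 / 16 * c₀ * μ' (w z) - 8 * C * μ (w z))) * (χ z * TT γ z) :=
                mul_le_mul_of_nonneg_right h2 h3
              _ = r * g z := by simp only [hg]; ring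
          · rw [image_eq_zero_of_notMem_tsupport hzt, zero_mul]
            exact mul_nonneg hr.le (hg0 z)
      _ ≤ ∫⁻ z, ENNReal.ofReal (r * g z) := setLIntegral_le_lintegral _ _
      _ = ENNReal.ofReal (∫ z, r * g z) := by
          rw [ofReal_integral_eq_lintegral_ofReal (hgi.const_mul r)]
          exact Eventually.of_forall fun z => mul_nonneg hr.le (hg0 z)
      _ ≤ ENNReal.ofReal (E * volume.real (tsupport χ) * r) := by
          apply ENNReal.ofReal_le_ofReal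
          rw [integral_const_mul, mul_comm]
          exact mul_le_mul_of_nonneg_right hint hr.le
  -- pass to the limit
  set A : ℕ → Set (ℂ × ℂ) := fun n => {z | r / (n + 1) ≤ w z ∧ w z < r} with hA
  have hAmono : Monotone A := by
    intro m n hmn z hz
    refine ⟨le_trans ?_ hz.1, hz.2⟩
    apply div_le_div_of_nonneg_left hr.le (by positivity)
    have : (m : ℝ) ≤ n := by exact_mod_cast hmn
    linarith
  have hAU : {z | 0 < w z ∧ w z < r} = ⋃ n, A n := by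
    ext z
    simp only [Set.mem_ofPred_eq, mem_iUnion, hA]
    constructor
    · rintro ⟨h1, h2⟩
      obtain ⟨n, hn⟩ := exists_nat_gt (r / w z)
      refine ⟨n, ?_, h2⟩
      rw [div_lt_iff₀ h1] at hn
      rw [div_le_iff₀ (by positivity)]
      nlinarith
    · rintro ⟨n, h1, h2⟩
      exact ⟨lt_of_lt_of_le (by positivity) h1, h2⟩
  show ∫⁻ z in {z | 0 < w z ∧ w z < r}, ENNReal.ofReal (χ z * TT γ z) ≤ _
  rw [hAU, setLIntegral_iUnion_of_directed _ hAmono.directed_le]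
  apply iSup_le
  intro n
  apply main
  · positivity
  · rw [div_le_iff₀ (by positivity)]
    nlinarith [hr, (Nat.cast_nonneg n : (0 : ℝ) ≤ n)]

end final

end LemB

theorem B_holds (hst : St_stokes) : St_B := LemB.B_holds hst

end Crest.Agent.R266
end

-- ▼ part R266/NC
section

/-!
R266 / NC: final assembly of the no-contact theorem `St_NC` (helper399).
-/

set_option autoImplicit false

open scoped Manifold ContDiff Topology ENNReal
open Set Metric Filter MeasureTheory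

namespace Crest.Agent.R266

section
variable {n₁ n₂ : ℕ} {X : Type} [TopologicalSpace X]

namespace NCfin

theorem two_norm_le_coords (p : ℂ × ℂ) : 2 * ‖p‖ ≤ |XX p| + |eta p| + ‖tau p‖ := by
  have hZ : ‖p.1 + p.2‖ ≤ |XX p| + |eta p| := Complex.norm_le_abs_re_add_abs_im _
  have h1 : 2 * ‖p.1‖ ≤ ‖p.1 + p.2‖ + ‖p.1 - p.2‖ := by
    have h : (2 : ℂ) * p.1 = (p.1 + p.2) + (p.1 - p.2) := by ring
    calc 2 * ‖p.1‖ = ‖(2 : ℂ) * p.1‖ := by rw [norm_mul]; norm_num
      _ ≤ _ := by rw [h]; exact norm_add_le _ _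
  have h2 : 2 * ‖p.2‖ ≤ ‖p.1 + p.2‖ + ‖p.1 - p.2‖ := by
    have h : (2 : ℂ) * p.2 = (p.1 + p.2) - (p.1 - p.2) := by ring
    calc 2 * ‖p.2‖ = ‖(2 : ℂ) * p.2‖ := by rw [norm_mul]; norm_num
      _ ≤ _ := by rw [h]; exact norm_sub_le _ _
  have h3 : ‖p.1 - p.2‖ = ‖tau p‖ := rfl
  rw [Prod.norm_def]
  rcases max_cases ‖p.1‖ ‖p.2‖ with h | h <;> rw [h.1] <;> linarith

theorem w_eq_wmin {C : ℝ} {F : Finset (ℂ × ℝ)} {hF : F.Nonempty} {z : ℂ × ℂ}
    (h : 0 < wmin C F hF z) : ∃ q ∈ F, 0 < w_ C q.1 q.2 z := by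
  obtain ⟨q, hq, hqe⟩ := exists_minAff F hF (tau z)
  refine ⟨q, hq, ?_⟩
  unfold wmin at h
  unfold w_
  rw [hqe] at h
  linarith

end NCfin

open NCfin Cont in
/-- **no-contact theorem** -/
theorem NC_of {A : PFol n₁ n₂ X} (K : KMet A) (hP : St_pull K) (hS : St_slack K)
    (hCst : ∀ C : ℝ, 0 ≤ C → St_C K C) (hmax : St_max A) (hD : St_D K) (hB : St_B) :
    St_NC A := by
  intro ε C₀ G₀ hε hC₀ hG₀
  by_contra hirr
  -- shrink the box
  obtain ⟨ε', hε', hεε', h4⟩ : ∃ ε' : ℝ, 0 < ε' ∧ ε' ≤ ε ∧ 4 * C₀ * ε' < 1 := by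
    refine ⟨min ε (1 / (8 * C₀)), by positivity, min_le_left _ _, ?_⟩
    calc 4 * C₀ * min ε (1 / (8 * C₀)) ≤ 4 * C₀ * (1 / (8 * C₀)) := by
          gcongr; exact min_le_right _ _
      _ = 1 / 2 := by field_simp; norm_num
      _ < 1 := by norm_num
  have hsubGD : GD ε' (par C₀) ⊆ GD ε (par C₀) := fun z hz =>
    ⟨hz.1.trans_le hεε', hz.2.1.trans_le hεε', hz.2.2.1, hz.2.2.2.trans_le hεε'⟩
  have hG₀' : IsPC A (GD ε' (par C₀)) G₀ := fun z hz => hG₀ z (hsubGD hz)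
  obtain ⟨m, G, hle, hM, hGG⟩ := hmax ε' C₀ G₀ hε' hC₀ h4 hG₀'
  have hirr' : ¬ ∃ ρ > 0, ∃ G' : ℂ × ℂ → X, IsPC A (ball 0 ρ) G' ∧
      ∀ z ∈ ball (0 : ℂ × ℂ) ρ ∩ GD ε' (par C₀), G' z = G₀ z := by
    rintro ⟨ρ, hρ, G', hG', hag⟩
    apply hirr
    refine ⟨min ρ (ε' / 2), by positivity, G',
      fun z hz => hG' z (ball_subset_ball (min_le_left _ _) hz), fun z hz => ?_⟩
    have hz1 : ‖z‖ < ρ := by
      have := hz.1; rw [mem_ball_zero_iff] at this; exact this.trans_le (min_le_left _ _)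
    have hz2 : ‖z‖ < ε' / 2 := by
      have := hz.1; rw [mem_ball_zero_iff] at this; exact this.trans_le (min_le_right _ _)
    refine hag z ⟨by rwa [mem_ball_zero_iff], ?_, ?_, hz.2.2.2.1, ?_⟩
    · have h1 := NCnt.norm_tau_sub_le z 0
      have h2 : tau (0 : ℂ × ℂ) = 0 := by simp [tau]
      rw [h2, sub_zero, dist_zero_right] at h1
      linarith
    · have h1 := NCnt.abs_eta_sub_le z 0
      have h2 : eta (0 : ℂ × ℂ) = 0 := by simp [eta]
      rw [h2, sub_zero, dist_zero_right] at h1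
      linarith
    · have h1 := NCnt.abs_XX_sub_le z 0
      have h2 : XX (0 : ℂ × ℂ) = 0 := by simp [XX]
      rw [h2, sub_zero, dist_zero_right] at h1
      have h3 := le_abs_self (XX z)
      linarith
  have hm0 : m 0 0 = 0 := m_zero hε' hM hle hGG hirr'
  -- constants
  set C : ℝ := C₀ + 1 with hCdef
  have hC : 0 < C := by linarith
  have hCC : C - C₀ = 1 := by rw [hCdef]; ring
  obtain ⟨c₀, hc₀, κs, hκs, hslk⟩ := hS
  obtain ⟨ε₀, hε₀, hBm⟩ := slab_min hB c₀ hc₀ C hC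
  obtain ⟨χ, S, M, β, ρ, hχ, hχc, hχ1, hχs, hχS, hβ, hρ, hχρ, hχM⟩ :=
    safe K hP (C := C) hε' hC₀.le (by linarith) hM hle hε₀
  obtain ⟨C', hC'⟩ := hBm χ S M hχ hχc hχ1
    (fun z hz => ⟨(hχs z hz).1, (hχs z hz).2.1, (hχs z hz).2.2.1⟩) hχS
  obtain ⟨b₁, hb₁, c₁, hc₁, r₁, hr₁, hmass⟩ := lower_mass K hε' (hCst C hC.le) hM
  obtain ⟨b₀, hb₀, kap, hkap, hsep⟩ := separation hD ε' ε' C hε' le_rfl hC
  obtain ⟨η₀, hη₀, hη1, hη2, hη3, hη4, hη5, hη6, hη7, hη8, hη9⟩ : ∃ η₀ : ℝ, 0 < η₀ ∧ η₀ ≤ 1 / 2 ∧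
      η₀ ≤ ε' / 2 ∧ η₀ ≤ b₁ ∧ η₀ ≤ b₁ / (2 * C + 2) ∧ η₀ ≤ ρ / (4 * (C + 2)) ∧ η₀ ≤ b₀ ∧
      η₀ ≤ ε₀ ∧ η₀ ≤ 1 / (4 * (ε₀ + 1)) ∧ η₀ ≤ β := by
    have h : ∀ᶠ η in 𝓝[>] (0 : ℝ), 0 < η ∧ η ≤ 1 / 2 ∧
      η ≤ ε' / 2 ∧ η ≤ b₁ ∧ η ≤ b₁ / (2 * C + 2) ∧ η ≤ ρ / (4 * (C + 2)) ∧ η ≤ b₀ ∧
      η ≤ ε₀ ∧ η ≤ 1 / (4 * (ε₀ + 1)) ∧ η ≤ β := by
      filter_upwards [Ioc_mem_nhdsGT (show (0 : ℝ) < 1 / 2 by norm_num),
        Ioc_mem_nhdsGT (show (0 : ℝ) < ε' / 2 by positivity), Ioc_mem_nhdsGT hb₁,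
        Ioc_mem_nhdsGT (show (0 : ℝ) < b₁ / (2 * C + 2) by positivity),
        Ioc_mem_nhdsGT (show (0 : ℝ) < ρ / (4 * (C + 2)) by positivity), Ioc_mem_nhdsGT hb₀,
        Ioc_mem_nhdsGT hε₀, Ioc_mem_nhdsGT (show (0 : ℝ) < 1 / (4 * (ε₀ + 1)) by positivity),
        Ioc_mem_nhdsGT hβ] with η a1 a2 a3 a4 a5 a6 a7 a8 a9
      exact ⟨a1.1, a1.2, a2.2, a3.2, a4.2, a5.2, a6.2, a7.2, a8.2, a9.2⟩
    exact h.exists
  have hη4' : (2 * C + 2) * η₀ ≤ b₁ := by
    rw [le_div_iff₀ (by positivity)] at hη4; linarith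
  have hη5' : 4 * ((C + 2) * η₀) ≤ ρ := by
    rw [le_div_iff₀ (by positivity)] at hη5; linarith
  have hη8' : 4 * (ε₀ * η₀) ≤ 1 := by
    rw [le_div_iff₀ (by positivity)] at hη8; nlinarith
  have hηsq : η₀ ^ 2 ≤ η₀ := by nlinarith
  -- contact points
  have key : ∀ b : ℂ, ‖b‖ ≤ η₀ → ∃ (p : ℂ × ℂ) (s : ℝ), ‖tau p‖ ≤ ‖b‖ ∧ |eta p| ≤ ‖b‖ ∧ 0 ≤ s ∧
      s ≤ η₀ / 4 ∧ XX p = m (tau p) (eta p) ∧ w_ C b s p = 0 ∧
      |XX p| ≤ (2 * C + 2) * η₀ ∧
      ∀ t e, m t e ≤ par C t e + (b * t).re + s := by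
    intro b hb
    obtain ⟨p, s, h1, h2, h3, h4, h5, h6, h7, h8⟩ := contact (C := C) hC₀.le (by linarith) hM.usc hle hm0 b
      (by rw [hCC]; linarith)
    rw [hCC, div_one] at h1 h2
    have hbsq : ‖b‖ ^ 2 ≤ η₀ ^ 2 := by gcongr
    refine ⟨p, s, h1, h2, h3, ?_, h5, h6, ?_, h8⟩
    · rw [hCC] at h4
      nlinarith [norm_nonneg b]
    · rw [hCC] at h7
      have e1 : (2 * C / 1 ^ 2 + 2 / 1) * ‖b‖ ^ 2 = (2 * C + 2) * ‖b‖ ^ 2 := by norm_num
      rw [e1] at h7
      refine h7.trans ?_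
      have : ‖b‖ ^ 2 ≤ η₀ := hbsq.trans hηsq
      gcongr
  choose! p s hp using key
  have hmeq : ∀ b, ‖b‖ ≤ η₀ → m (tau (p b)) (eta (p b)) =
      par C (tau (p b)) (eta (p b)) + (b * tau (p b)).re + s b := by
    intro b hb
    obtain ⟨h1, h2, h3, h4, h5, h6, h7, h8⟩ := hp b hb
    unfold w_ at h6
    linarith
  have hpρ : ∀ b, ‖b‖ ≤ η₀ → ‖p b‖ < ρ / 2 := by
    intro b hb
    obtain ⟨h1, h2, h3, h4, h5, h6, h7, h8⟩ := hp b hb
    have h9 := two_norm_le_coords (p b)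
    nlinarith
  have hopen : IsOpen (GD ε' m) := MaxGraph.isOpen_GD hM.usc
  refine counting (C := C) (κ := kap) (η₀ := η₀) (c₁ := c₁) (r₁ := min r₁ (ρ / 2)) (C' := C')
    hC.le hkap hη₀ (by linarith) hc₁ (by positivity) (fun z => ENNReal.ofReal (χ z * trM K G z)) s p
    (fun b hb => (hp b hb).2.2.2.2.2.1) ?_ ?_ ?_ ?_ ?_ ?_
  · -- hmin
    intro b b' hb hb'
    have h1 := (hp b' hb').2.2.2.2.2.2.2 (tau (p b)) (eta (p b))
    have h2 := hmeq b hb
    linarith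
  · -- hsep
    intro b b' hb hb'
    obtain ⟨h1, h2, h3, h4, h5, h6, h7, h8⟩ := hp b hb
    obtain ⟨h1', h2', h3', h4', h5', h6', h7', h8'⟩ := hp b' hb'
    refine hsep m G hM b b' (s b) (s b') (tau (p b)) (tau (p b')) (eta (p b)) (eta (p b'))
      (by linarith) (by linarith) (by linarith) (by linarith) ?_ (by linarith) (by linarith)
      (fun t e _ _ => h8 t e) (fun t e _ _ => h8' t e) (hmeq b hb) (hmeq b' hb')
    rw [abs_of_nonneg h3]; linarith
  · intro b hb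
    have := (hp b hb).1
    linarith
  · intro b hb
    have := (hp b hb).2.1
    linarith
  · -- mass
    intro b hb r hr hrr
    obtain ⟨h1, h2, h3, h4, h5, h6, h7, h8⟩ := hp b hb
    have hr1 : r ≤ r₁ := hrr.trans (min_le_left _ _)
    have hr2 : r ≤ ρ / 2 := hrr.trans (min_le_right _ _)
    refine (hmass b (p b) (s b) (by linarith) (by linarith) (by linarith) (by linarith) h5 h6 h8 r hr
      hr1).trans (le_of_eq ?_)
    have hmeas : MeasurableSet (ball (p b) r ∩ {z | 0 < w_ C b (s b) z}) :=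
      measurableSet_ball.inter (isOpen_lt continuous_const (continuous_w_ C b (s b))).measurableSet
    refine setLIntegral_congr_fun hmeas fun z hz => ?_
    have hz1 : χ z = 1 := by
      refine hχρ z ?_
      have h9 := hz.1
      have h10 := hpρ b hb
      rw [mem_ball] at h9
      rw [mem_ball_zero_iff]
      calc ‖z‖ = dist z 0 := (dist_zero_right z).symm
        _ ≤ dist z (p b) + dist (p b) 0 := dist_triangle _ _ _
        _ < ρ := by rw [dist_zero_right]; linarith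
    simp only [hz1, one_mul]
  · -- slab
    intro F hF hFs r hr hr1
    have hmem : ∀ z ∈ tsupport χ, 0 < wmin C F hF z → z ∈ GD ε' m := by
      intro z hz hw
      obtain ⟨q, hq, hqw⟩ := w_eq_wmin hw
      obtain ⟨hq1, hq2⟩ := hFs q hq
      obtain ⟨-, -, -, a1, a2, a3⟩ := hχs z hz
      refine mem_GD_of_w (C := C) (b := q.1) (s := q.2) ?_ a1 a2 a3 hqw
      rw [hq2]
      exact (hp q.1 hq1).2.2.2.2.2.2.2
    exact hC' (GD ε' m) (pullM K G) F hF hopen (hP _ _ hopen hM.pc) (hslk _ _ hopen hM.pc).1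
      (fun q hq => ((hFs q hq).1).trans hη7)
      (fun t ht => by
        obtain ⟨q, hq, hqe⟩ := exists_minAff F hF t
        obtain ⟨hq1, hq2⟩ := hFs q hq
        obtain ⟨h1, h2, h3, h4, h5, h6, h7, h8⟩ := hp q.1 hq1
        rw [hqe, hq2]
        have h9 : |(q.1 * t).re| ≤ ‖q.1‖ * ‖t‖ := by
          rw [← norm_mul]; exact Complex.abs_re_le_norm _
        have h10 : ‖q.1‖ * ‖t‖ ≤ η₀ * ε₀ := by gcongr
        have h11 : s q.1 ≤ 1 / 4 := by linarith
        have h12 : |s q.1| ≤ 1 / 4 := by rw [abs_of_nonneg h3]; exact h11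
        calc |(q.1 * t).re + s q.1| ≤ |(q.1 * t).re| + |s q.1| := abs_add_le _ _
          _ ≤ 1 / 2 := by linarith)
      hmem
      (fun z hz hw => by
        obtain ⟨q, hq, hqw⟩ := w_eq_wmin hw
        obtain ⟨hq1, hq2⟩ := hFs q hq
        refine hχM z hz q.1 q.2 (hq1.trans hη9) ?_ hqw
        rw [hq2]
        exact (hp q.1 hq1).2.2.1)
      r hr hr1

/-- the no-contact theorem with `St_B` and Stokes plugged in -/
theorem NC_holds {A : PFol n₁ n₂ X} (K : KMet A) (hP : St_pull K) (hS : St_slack K)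
    (hCst : ∀ C : ℝ, 0 ≤ C → St_C K C) (hmax : St_max A) (hD : St_D K) : St_NC A :=
  NC_of K hP hS hCst hmax hD (B_holds stokes_holds)

end

end Crest.Agent.R266
end

-- ▼ part R266/ProdExt
section

/-!
R266 / ProdExt: product extension along a (possibly punctured) holomorphic curve graph.
-/

set_option autoImplicit false

open scoped Manifold ContDiff Topology ENNReal
open Set Metric Filter MeasureTheory

namespace Crest.Agent.R266

section
variable {n₁ n₂ : ℕ} {X : Type} [TopologicalSpace X]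

/-- the inverse branch is analytic -/
theorem analyticAt_branch {f g : ℂ → ℂ} {t₀ : ℂ} {ρ : ℝ}
    (hf : DifferentiableOn ℂ f (ball t₀ ρ)) (hd : ∀ t ∈ ball t₀ ρ, deriv f t ≠ 0)
    (hg : ∀ t ∈ ball t₀ ρ, g (f t) = t) (ho : IsOpen (f '' ball t₀ ρ))
    (hc : ∀ t ∈ ball t₀ ρ, ContinuousAt g (f t)) :
    ∀ t ∈ ball t₀ ρ, AnalyticAt ℂ g (f t) := by
  intro t ht
  have hB : IsOpen (ball t₀ ρ) := isOpen_ball
  have h1 : DifferentiableOn ℂ g (f '' ball t₀ ρ) := by
    rintro _ ⟨s, hs, rfl⟩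
    have h2 : HasDerivAt f (deriv f s) (g (f s)) := by
      rw [hg s hs]
      exact ((hf s hs).differentiableAt (hB.mem_nhds hs)).hasDerivAt
    have h3 : ∀ᶠ y in 𝓝 (f s), f (g y) = y := by
      filter_upwards [ho.mem_nhds (mem_image_of_mem f hs)] with y hy
      obtain ⟨u, hu, rfl⟩ := hy
      rw [hg u hu]
    exact (HasDerivAt.of_local_left_inverse (hc s hs) h2 (hd s hs)
      h3).differentiableAt.differentiableWithinAt
  exact h1.analyticAt (ho.mem_nhds (mem_image_of_mem f ht))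

/-- PRODUCT EXTENSION, punctured form: `g` is holomorphic on the whole disc with values in the
target of the chart `i`, and represents `G` along the curve over the open subset `D'`. -/
theorem product_extension_punct {A : PFol n₁ n₂ X} (hch : St_chart A) {Ω : Set (ℂ × ℂ)}
    {G : ℂ × ℂ → X} (hG : IsPC A Ω G) {H : ℂ → ℂ} {t₀ : ℂ} {ρ : ℝ} (hρ : 0 < ρ)
    (hH : DifferentiableOn ℂ H (ball t₀ ρ)) (hH' : ∀ t ∈ ball t₀ ρ, ‖deriv H t‖ ≤ 1 / 2)
    {D' : Set ℂ} (hD'o : IsOpen D') (hD' : D' ⊆ ball t₀ ρ)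
    (hΩ : ∀ t ∈ D', pt t (H t) ∈ Ω) (i : A.ι) {g : ℂ → EV n₁ × EV n₂}
    (hg : DifferentiableOn ℂ g (ball t₀ ρ)) (hgt : ∀ t ∈ ball t₀ ρ, g t ∈ (A.ch i).target)
    (hgi : ∀ t ∈ D', G (pt t (H t)) ∈ (A.ch i).source ∧ A.ch i (G (pt t (H t))) = g t) :
    ∃ (U₁ U₂ : Set ℂ) (G' : ℂ × ℂ → X), IsOpen U₁ ∧ IsOpen U₂ ∧
      U₁ = (fun t => (pt t (H t)).1) '' ball t₀ ρ ∧ U₂ = (fun t => (pt t (H t)).2) '' ball t₀ ρ ∧
      ball (pt t₀ (H t₀)) (ρ / 16) ⊆ U₁ ×ˢ U₂ ∧ IsPC A (U₁ ×ˢ U₂) G' ∧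
      ∀ t ∈ D', G' =ᶠ[𝓝 (pt t (H t))] G := by
  classical
  set B := ball t₀ ρ with hBdef
  have hB : IsOpen B := isOpen_ball
  have hHd : ∀ t ∈ B, HasDerivAt H (deriv H t) t := fun t ht =>
    ((hH t ht).differentiableAt (hB.mem_nhds ht)).hasDerivAt
  have hxd : ∀ t ∈ B, HasDerivAt (fun t => (pt t (H t)).1) ((deriv H t + 1) / 2) t := by
    intro t ht
    have := ((hHd t ht).add (hasDerivAt_id t)).div_const 2
    simpa [pt] using this
  have hyd : ∀ t ∈ B, HasDerivAt (fun t => (pt t (H t)).2) ((deriv H t - 1) / 2) t := by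
    intro t ht
    have := ((hHd t ht).sub (hasDerivAt_id t)).div_const 2
    simpa [pt] using this
  have hne1 : ∀ t ∈ B, (deriv H t + 1) / 2 ≠ 0 := by
    intro t ht h0
    have h1 : deriv H t = -1 := by
      have : deriv H t + 1 = 0 := by simpa using h0
      linear_combination this
    have h2 := hH' t ht
    rw [h1] at h2
    norm_num at h2
  have hne2 : ∀ t ∈ B, (deriv H t - 1) / 2 ≠ 0 := by
    intro t ht h0
    have h1 : deriv H t = 1 := by
      have : deriv H t - 1 = 0 := by simpa using h0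
      linear_combination this
    have h2 := hH' t ht
    rw [h1] at h2
    norm_num at h2
  have hxD : DifferentiableOn ℂ (fun t => (pt t (H t)).1) B :=
    fun t ht => (hxd t ht).differentiableAt.differentiableWithinAt
  have hyD : DifferentiableOn ℂ (fun t => (pt t (H t)).2) B :=
    fun t ht => (hyd t ht).differentiableAt.differentiableWithinAt
  obtain ⟨gx, hgx, hxo, hgxc, hxball⟩ := exists_branch (f := fun t => (pt t (H t)).1) (c := 1 / 2)
    hρ (by norm_num) hxD (by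
      intro t ht
      rw [(hxd t ht).deriv]
      have h1 : (deriv H t + 1) / 2 - 1 / 2 = deriv H t / 2 := by ring
      rw [h1, norm_div]
      have := hH' t ht
      norm_num
      linarith)
  obtain ⟨gy, hgy, hyo, hgyc, hyball⟩ := exists_branch (f := fun t => (pt t (H t)).2)
    (c := -(1 / 2)) hρ (by norm_num) hyD (by
      intro t ht
      rw [(hyd t ht).deriv]
      have h1 : (deriv H t - 1) / 2 - -(1 / 2) = deriv H t / 2 := by ring
      rw [h1, norm_div]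
      have := hH' t ht
      norm_num
      linarith)
  have hgxa := analyticAt_branch hxD (fun t ht => by rw [(hxd t ht).deriv]; exact hne1 t ht)
    hgx hxo hgxc
  have hgya := analyticAt_branch hyD (fun t ht => by rw [(hyd t ht).deriv]; exact hne2 t ht)
    hgy hyo hgyc
  have hga : ∀ t ∈ B, AnalyticAt ℂ g t := fun t ht => hg.analyticAt (hB.mem_nhds ht)
  set a : ℂ → EV n₁ := fun x => (g (gx x)).1 with ha
  set b : ℂ → EV n₂ := fun y => (g (gy y)).2 with hb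
  have hgtt : ∀ t ∈ B, (g t).1 ∈ ball (0 : EV n₁) 1 ∧ (g t).2 ∈ ball (0 : EV n₂) 1 := by
    intro t ht
    have := hgt t ht
    rw [A.target_eq i] at this
    exact this
  have haU : ∀ x ∈ (fun t => (pt t (H t)).1) '' B, AnalyticAt ℂ a x ∧ a x ∈ ball (0 : EV n₁) 1 := by
    rintro _ ⟨t, ht, rfl⟩
    refine ⟨?_, ?_⟩
    · have h1 : AnalyticAt ℂ g (gx (pt t (H t)).1) := by
        have := hgx t ht
        rw [this]
        exact hga t ht
      exact analyticAt_fst.comp (h1.comp (hgxa t ht))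
    · simp only [ha]
      have := hgx t ht
      rw [this]
      exact (hgtt t ht).1
  have hbU : ∀ x ∈ (fun t => (pt t (H t)).2) '' B, AnalyticAt ℂ b x ∧ b x ∈ ball (0 : EV n₂) 1 := by
    rintro _ ⟨t, ht, rfl⟩
    refine ⟨?_, ?_⟩
    · have h1 : AnalyticAt ℂ g (gy (pt t (H t)).2) := by
        have := hgy t ht
        rw [this]
        exact hga t ht
      exact analyticAt_snd.comp (h1.comp (hgya t ht))
    · simp only [hb]
      have := hgy t ht
      rw [this]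
      exact (hgtt t ht).2
  refine ⟨(fun t => (pt t (H t)).1) '' B, (fun t => (pt t (H t)).2) '' B,
    fun w => (A.ch i).symm (a w.1, b w.2), hxo, hyo, rfl, rfl, ?_, isPC_prod i hxo hyo haU hbU, ?_⟩
  · intro z hz
    rw [mem_ball, Prod.dist_eq, max_lt_iff] at hz
    exact ⟨hxball hz.1, hyball hz.2⟩
  · intro t ht
    have htB : t ∈ B := hD' ht
    obtain ⟨a', b', ha', hb', hev⟩ := hch Ω G hG _ (hΩ t ht) i (hgi t ht).1
    -- along the curve
    have hpc : ContinuousAt (fun t => pt t (H t)) t :=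
      (hxd t htB).continuousAt.prodMk (hyd t htB).continuousAt
    have hcurve : ∀ᶠ s in 𝓝 t, g s = (a' (pt s (H s)).1, b' (pt s (H s)).2) := by
      filter_upwards [hpc.tendsto.eventually hev, hD'o.mem_nhds ht] with s hs hs'
      rw [← (hgi s hs').2]
      exact hs.2
    have htx : Tendsto gx (𝓝 (pt t (H t)).1) (𝓝 t) := by
      have := hgxc t htB
      rw [ContinuousAt, hgx t htB] at this
      exact this
    have hty : Tendsto gy (𝓝 (pt t (H t)).2) (𝓝 t) := by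
      have := hgyc t htB
      rw [ContinuousAt, hgy t htB] at this
      exact this
    have h1 : ∀ᶠ x in 𝓝 (pt t (H t)).1, a x = a' x := by
      filter_upwards [htx.eventually hcurve,
        hxo.mem_nhds (mem_image_of_mem (fun t => (pt t (H t)).1) htB)] with x hx hx3
      obtain ⟨s, hs, rfl⟩ := hx3
      simp only at hx ⊢
      simp only [ha]
      rw [hx]
      have := hgx s hs
      rw [this]
    have h2 : ∀ᶠ y in 𝓝 (pt t (H t)).2, b y = b' y := by
      filter_upwards [hty.eventually hcurve,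
        hyo.mem_nhds (mem_image_of_mem (fun t => (pt t (H t)).2) htB)] with x hx hx3
      obtain ⟨s, hs, rfl⟩ := hx3
      simp only at hx ⊢
      simp only [hb]
      rw [hx]
      have := hgy s hs
      rw [this]
    have h3 : ∀ᶠ w : ℂ × ℂ in 𝓝 (pt t (H t)), a w.1 = a' w.1 :=
      (continuous_fst.tendsto (pt t (H t))).eventually h1
    have h4 : ∀ᶠ w : ℂ × ℂ in 𝓝 (pt t (H t)), b w.2 = b' w.2 :=
      (continuous_snd.tendsto (pt t (H t))).eventually h2
    filter_upwards [hev, h3, h4] with w hw hw1 hw2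
    rw [hw1, hw2, ← hw.2]
    exact (A.ch i).left_inv hw.1

end

end Crest.Agent.R266
end

-- ▼ part R266/Punct

/-!
R266 / Punct (helper464): removal of a puncture (`St_punct`).
-/

set_option autoImplicit false

open scoped Manifold ContDiff Topology ENNReal Real
open Set Metric Filter MeasureTheory

namespace Crest.Agent.R266
namespace Punct

section mean
variable {E : Type} [NormedAddCommGroup E] [NormedSpace ℂ E] [CompleteSpace E]

/-- the mean over the circle -/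
noncomputable def mn (g : ℂ → E) (c : ℂ) (s : ℝ) : E :=
  (2 * π * Complex.I : ℂ)⁻¹ • ∮ z in C(c, s), (z - c)⁻¹ • g z

lemma mn_near {g : ℂ → E} {c : ℂ} {s : ℝ} (hs : 0 < s) (hg : ContinuousOn g (sphere c s))
    {v : E} {δ : ℝ} (h : ∀ z ∈ sphere c s, ‖g z - v‖ ≤ δ) : ‖mn g c s - v‖ ≤ δ := by
  have hne : ∀ z ∈ sphere c s, z - c ≠ 0 := by
    intro z hz h0
    rw [sub_eq_zero] at h0
    subst h0
    simp at hz
    exact hs.ne hz
  have hinv : ContinuousOn (fun z : ℂ => (z - c)⁻¹) (sphere c s) :=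
    ContinuousOn.inv₀ (Continuous.continuousOn (by fun_prop)) hne
  have h1 : CircleIntegrable (fun z => (z - c)⁻¹ • g z) c s :=
    (hinv.smul hg).circleIntegrable hs.le
  have h2 : CircleIntegrable (fun z => (z - c)⁻¹ • v) c s :=
    (hinv.smul continuousOn_const).circleIntegrable hs.le
  have h3 : (∮ z in C(c, s), (z - c)⁻¹ • v) = (2 * π * Complex.I : ℂ) • v := by
    rw [circleIntegral.integral_smul_const, circleIntegral.integral_sub_center_inv c hs.ne']
  have h4 : mn g c s - v = (2 * π * Complex.I : ℂ)⁻¹ • ∮ z in C(c, s), (z - c)⁻¹ • (g z - v) := by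
    have h5 : (fun z => (z - c)⁻¹ • (g z - v)) = fun z => (z - c)⁻¹ • g z - (z - c)⁻¹ • v := by
      funext z; rw [smul_sub]
    rw [h5, circleIntegral.integral_sub h1 h2, h3, smul_sub, smul_smul, inv_mul_cancel₀, one_smul]
    · rfl
    · simp [Real.pi_ne_zero]
  rw [h4]
  have h6 : ∀ z ∈ sphere c s, ‖(z - c)⁻¹ • (g z - v)‖ ≤ s⁻¹ * δ := by
    intro z hz
    rw [norm_smul, norm_inv, show ‖z - c‖ = s from mem_sphere_iff_norm.1 hz]
    exact mul_le_mul_of_nonneg_left (h z hz) (inv_nonneg.2 hs.le)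
  refine (circleIntegral.norm_two_pi_i_inv_smul_integral_le_of_norm_le_const hs.le h6).trans ?_
  rw [← mul_assoc, mul_inv_cancel₀ hs.ne', one_mul]

omit [CompleteSpace E] in
lemma mn_eq {g : ℂ → E} {c : ℂ} {s S : ℝ} (hs : 0 < s) (hsS : s ≤ S)
    (hg : ∀ z, s ≤ ‖z - c‖ → ‖z - c‖ ≤ S → DifferentiableAt ℂ g z) : mn g c S = mn g c s := by
  unfold mn
  rw [Complex.circleIntegral_sub_center_inv_smul_eq_of_differentiable_on_annulus_off_countable
    hs hsS (s := ∅) countable_empty]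
  · rintro z ⟨h1, h2⟩
    refine (hg z ?_ ?_).continuousAt.continuousWithinAt
    · rw [mem_ball, dist_eq_norm, not_lt] at h2; exact h2
    · rw [mem_closedBall, dist_eq_norm] at h1; exact h1
  · rintro z ⟨⟨h1, h2⟩, -⟩
    refine hg z ?_ ?_
    · rw [mem_closedBall, dist_eq_norm, not_le] at h2; exact h2.le
    · rw [mem_ball, dist_eq_norm] at h1; exact h1.le

end mean

section
variable {n₁ n₂ : ℕ} {X : Type} [TopologicalSpace X] {A : PFol n₁ n₂ X}

/-- tails of a convergent area integral are small -/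
lemma tail_small {φ : ℂ → ℝ≥0∞} {t₁ : ℂ} {r : ℝ} (hr : 0 < r)
    (h : ∫⁻ t in ball t₁ r, φ t < ⊤) {a : ℝ≥0∞} (ha : a ≠ 0) :
    ∃ ρ > 0, ρ ≤ r ∧ ∫⁻ t in ball t₁ ρ, φ t ≤ a := by
  obtain ⟨η, hη, hs⟩ := exists_pos_setLIntegral_lt_of_measure_lt h.ne ha
  have hlim : Tendsto (fun ρ : ℝ => volume (ball t₁ ρ)) (𝓝[>] 0) (𝓝 0) := by
    have h1 : Tendsto (fun ρ : ℝ => ENNReal.ofReal ρ ^ 2 * (NNReal.pi : ℝ≥0∞)) (𝓝 0)
        (𝓝 (ENNReal.ofReal 0 ^ 2 * (NNReal.pi : ℝ≥0∞))) :=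
      ENNReal.Tendsto.mul_const (((ENNReal.continuous_pow 2).tendsto _).comp
        (ENNReal.continuous_ofReal.tendsto 0)) (Or.inr ENNReal.coe_ne_top)
    simp only [ENNReal.ofReal_zero, ne_eq, OfNat.ofNat_ne_zero, not_false_eq_true, zero_pow,
      zero_mul] at h1
    refine (h1.mono_left nhdsWithin_le_nhds).congr' ?_
    filter_upwards with ρ
    rw [Complex.volume_ball]
  have h2 : ∀ᶠ ρ in 𝓝[>] (0 : ℝ), volume (ball t₁ ρ) < η := hlim.eventually_lt_const hη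
  have h3 : ∀ᶠ ρ in 𝓝[>] (0 : ℝ), ρ ≤ r := by
    filter_upwards [Ioc_mem_nhdsGT hr] with ρ hρ using hρ.2
  have h4 : ∀ᶠ ρ in 𝓝[>] (0 : ℝ), 0 < ρ := by
    filter_upwards [self_mem_nhdsWithin] with ρ hρ using hρ
  obtain ⟨ρ, h5, h6, h7⟩ := (h2.and (h3.and h4)).exists
  refine ⟨ρ, h7, h6, ?_⟩
  have h8 := hs (ball t₁ ρ) (lt_of_le_of_lt (Measure.restrict_apply_le _ _) h5)
  rw [Measure.restrict_restrict measurableSet_ball,
    inter_eq_self_of_subset_left (ball_subset_ball h6)] at h8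
  exact h8.le

/-- local confinement at every point near the puncture -/
def Conf (A : PFol n₁ n₂ X) (f : ℂ → X) (t₁ : ℂ) (ρ δ : ℝ) : Prop :=
  ∀ z, z ≠ t₁ → ‖z - t₁‖ < ρ → ∀ i, f z ∈ (A.ch i).source → ‖A.ch i (f z)‖ < 3 / 4 →
    ∀ w, ‖w - z‖ < ‖z - t₁‖ / 2 → f w ∈ (A.ch i).source ∧ ‖A.ch i (f w) - A.ch i (f z)‖ ≤ δ

lemma conf_of_area (K : KMet A) (hE : St_E0S K) {f : ℂ → X} {t₁ : ℂ} {r : ℝ} (hr : 0 < r)
    (hf : IsHolC A (ball t₁ r \ {t₁}) f)
    (hfin : ∫⁻ t in ball t₁ r, ENNReal.ofReal (densM K f t) < ⊤) {δ : ℝ} (hδ : 0 < δ) :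
    ∃ ρ > 0, 2 * ρ ≤ r ∧ Conf A f t₁ ρ δ := by
  obtain ⟨a₀, ha₀, hE⟩ := hE δ hδ
  obtain ⟨ρ, hρ, hρr, hsmall⟩ := tail_small hr hfin (a := ENNReal.ofReal a₀) (by simpa using ha₀)
  refine ⟨ρ / 2, by positivity, by linarith, ?_⟩
  intro z hz hzρ i his hin w hw
  have hn : 0 < ‖z - t₁‖ := norm_pos_iff.2 (sub_ne_zero.2 hz)
  have hsub : ball z ‖z - t₁‖ ⊆ ball t₁ ρ \ {t₁} := by
    intro t ht
    rw [mem_ball, dist_eq_norm] at ht
    constructor
    · rw [mem_ball, dist_eq_norm]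
      have : ‖t - t₁‖ ≤ ‖t - z‖ + ‖z - t₁‖ := by
        have := norm_add_le (t - z) (z - t₁)
        simpa using this
      linarith
    · intro h
      have h' : t = t₁ := h
      subst h'
      rw [norm_sub_rev] at ht
      exact lt_irrefl _ ht
  have hf' : IsHolC A (ball z ‖z - t₁‖) f := fun t ht =>
    hf t ⟨ball_subset_ball hρr (hsub ht).1, (hsub ht).2⟩
  have hI : ∫⁻ t in ball z ‖z - t₁‖, ENNReal.ofReal (densM K f t) ≤ ENNReal.ofReal a₀ :=
    (lintegral_mono_set (fun t ht => (hsub ht).1)).trans hsmall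
  refine hE f z ‖z - t₁‖ hn hf' hI i his ?_ w ?_
  · rw [Prod.norm_def, max_lt_iff] at hin
    exact ⟨by simpa using hin.1, by simpa using hin.2⟩
  · rw [mem_ball, dist_eq_norm]; exact hw

/-- the image of a circle around the puncture is small -/
lemma circle_small {f : ℂ → X} {t₁ : ℂ} {ρ δ : ℝ} (hc : Conf A f t₁ ρ δ) (hδ : 0 ≤ δ) {z : ℂ}
    (hz : z ≠ t₁) (hzρ : ‖z - t₁‖ < ρ) {i : A.ι} (his : f z ∈ (A.ch i).source)
    (hin : ‖A.ch i (f z)‖ + 8 * δ < 3 / 4) :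
    ∀ w, ‖w - t₁‖ = ‖z - t₁‖ → f w ∈ (A.ch i).source ∧ ‖A.ch i (f w) - A.ch i (f z)‖ ≤ 8 * δ := by
  intro w hw
  set s := ‖z - t₁‖ with hs
  have hspos : 0 < s := norm_pos_iff.2 (sub_ne_zero.2 hz)
  -- the rotation angle
  obtain ⟨β, hβ, hβw⟩ : ∃ β : ℝ, |β| ≤ π ∧ w - t₁ = Complex.exp (β * Complex.I) * (z - t₁) := by
    have hne : z - t₁ ≠ 0 := sub_ne_zero.2 hz
    refine ⟨Complex.arg ((w - t₁) / (z - t₁)), Complex.abs_arg_le_pi _, ?_⟩
    have h1 : ‖(w - t₁) / (z - t₁)‖ = 1 := by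
      rw [norm_div, hw, ← hs, div_self hspos.ne']
    have h2 := Complex.norm_mul_exp_arg_mul_I ((w - t₁) / (z - t₁))
    rw [h1] at h2
    simp only [Complex.ofReal_one, one_mul] at h2
    rw [h2, div_mul_cancel₀ _ hne]
  set p : ℕ → ℂ := fun k => t₁ + Complex.exp ((k * (β / 8) : ℝ) * Complex.I) * (z - t₁) with hp
  have hp0 : p 0 = z := by simp [hp]
  have hp8 : p 8 = w := by
    have : ((8 : ℕ) * (β / 8) : ℝ) = β := by push_cast; ring
    simp only [hp, this, ← hβw]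
    ring
  have hpn : ∀ k, ‖p k - t₁‖ = s := by
    intro k
    simp only [hp, add_sub_cancel_left, norm_mul, Complex.norm_exp_ofReal_mul_I, one_mul, hs]
  have hstep : ∀ k, ‖p (k + 1) - p k‖ < s / 2 := by
    intro k
    have h1 : p (k + 1) - p k = (Complex.exp ((β / 8 : ℝ) * Complex.I) - 1) *
        (Complex.exp ((k * (β / 8) : ℝ) * Complex.I) * (z - t₁)) := by
      simp only [hp]
      have h2 : (((k + 1 : ℕ) : ℝ) * (β / 8) : ℝ) = k * (β / 8) + β / 8 := by push_cast; ring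
      rw [h2]
      push_cast
      rw [add_mul, Complex.exp_add]
      ring
    rw [h1, norm_mul, norm_mul, Complex.norm_exp_ofReal_mul_I, one_mul, ← hs]
    have h3 : ‖Complex.exp ((β / 8 : ℝ) * Complex.I) - 1‖ ≤ |β / 8| := by
      have := Real.norm_exp_I_mul_ofReal_sub_one_le (x := β / 8)
      rw [mul_comm, Real.norm_eq_abs] at this
      exact this
    have h4 : |β / 8| ≤ π / 8 := by
      rw [abs_div, abs_of_pos (by norm_num : (0 : ℝ) < 8)]
      linarith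
    have h5 : π / 8 < 1 / 2 := by linarith [Real.pi_lt_d2]
    nlinarith
  have key : ∀ k : ℕ, k ≤ 8 → f (p k) ∈ (A.ch i).source ∧
      ‖A.ch i (f (p k)) - A.ch i (f z)‖ ≤ k * δ := by
    intro k
    induction k with
    | zero =>
      intro _
      rw [hp0]
      exact ⟨his, by simp⟩
    | succ k ih =>
      intro hk
      obtain ⟨h1, h2⟩ := ih (by omega)
      have hk' : (k : ℝ) ≤ 8 := by exact_mod_cast (by omega : k ≤ 8)
      have hkd : (k : ℝ) * δ ≤ 8 * δ := mul_le_mul_of_nonneg_right hk' hδ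
      have h3 : ‖A.ch i (f (p k))‖ < 3 / 4 := by
        have := norm_add_le (A.ch i (f (p k)) - A.ch i (f z)) (A.ch i (f z))
        rw [sub_add_cancel] at this
        linarith
      have hpk : p k ≠ t₁ := by
        intro h
        have := hpn k
        rw [h, sub_self, norm_zero] at this
        exact hspos.ne this
      obtain ⟨h4, h5⟩ := hc (p k) hpk (by rw [hpn k]; exact hzρ) i h1 h3 (p (k + 1))
        (by rw [hpn k]; exact hstep k)
      refine ⟨h4, ?_⟩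
      have h6 := norm_add_le (A.ch i (f (p (k + 1))) - A.ch i (f (p k)))
        (A.ch i (f (p k)) - A.ch i (f z))
      rw [sub_add_sub_cancel] at h6
      push_cast
      linarith
  have := key 8 le_rfl
  rw [hp8] at this
  exact_mod_cast this

lemma tri (a b : EV n₁ × EV n₂) : ‖a‖ ≤ ‖a - b‖ + ‖b‖ := by
  have := norm_add_le (a - b) b
  rwa [sub_add_cancel] at this

lemma tri3 (a b c : EV n₁ × EV n₂) : ‖a - c‖ ≤ ‖a - b‖ + ‖b - c‖ := by
  have := norm_add_le (a - b) (b - c)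
  rwa [sub_add_sub_cancel] at this

lemma tri4 (a b c : EV n₁ × EV n₂) : ‖a - c‖ ≤ ‖a - b‖ + ‖c - b‖ := by
  have := norm_sub_le (a - b) (c - b)
  rwa [sub_sub_sub_cancel_right] at this

lemma nrev (a b : EV n₁ × EV n₂) : ‖a - b‖ = ‖b - a‖ := norm_sub_rev a b

/-- removable singularity: finite area near a puncture -/
theorem removable (K : KMet A) (hE : St_E0S K) {f : ℂ → X} {t₁ : ℂ} {r : ℝ} (hr : 0 < r)
    (hf : IsHolC A (ball t₁ r \ {t₁}) f)
    (hfin : ∫⁻ t in ball t₁ r, ENNReal.ofReal (densM K f t) < ⊤) :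
    ∃ (i : A.ι) (ρ : ℝ) (g : ℂ → EV n₁ × EV n₂), 0 < ρ ∧ ρ ≤ r ∧
      DifferentiableOn ℂ g (ball t₁ ρ) ∧ (∀ t ∈ ball t₁ ρ, ‖g t‖ < 1) ∧
      ∀ t ∈ ball t₁ ρ, t ≠ t₁ → f t ∈ (A.ch i).source ∧ A.ch i (f t) = g t := by
  classical
  set δ : ℝ := 1 / 1000 with hδ
  obtain ⟨ρ, hρ, hρr, hc⟩ := conf_of_area K hE hr hf hfin (δ := δ) (by norm_num [hδ])
  set s₁ : ℝ := ρ / 2 with hs₁
  have hs₁pos : 0 < s₁ := by positivity
  have hs₁ρ : s₁ < ρ := by rw [hs₁]; linarith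
  set z₁ : ℂ := t₁ + (s₁ : ℂ) with hz₁
  have hz₁n : ‖z₁ - t₁‖ = s₁ := by
    rw [hz₁, add_sub_cancel_left, Complex.norm_real, Real.norm_eq_abs, abs_of_pos hs₁pos]
  have hz₁ne : z₁ ≠ t₁ := by
    intro h
    rw [h, sub_self, norm_zero] at hz₁n
    exact hs₁pos.ne hz₁n
  set i := A.idx (f z₁) with hi
  have his : f z₁ ∈ (A.ch i).source := E0.idx_source A _
  have hin : ‖A.ch i (f z₁)‖ < 1 / 2 := E0.idx_norm A _
  set g₀ : ℂ → EV n₁ × EV n₂ := fun t => A.ch i (f t) with hg₀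
  have hana : ∀ t, t ≠ t₁ → ‖t - t₁‖ ≤ s₁ → f t ∈ (A.ch i).source → DifferentiableAt ℂ g₀ t := by
    intro t ht htn hts
    refine (E0.hol_chart hf ⟨?_, ht⟩ hts).differentiableAt
    rw [mem_ball, dist_eq_norm]
    linarith
  have hδ0 : (0 : ℝ) ≤ δ := by norm_num [hδ]
  -- mean over a circle whose image is in the chart
  have hcirc : ∀ w, w ≠ t₁ → ‖w - t₁‖ ≤ s₁ → f w ∈ (A.ch i).source → ‖g₀ w‖ + 8 * δ < 3 / 4 →
      (∀ w', ‖w' - t₁‖ = ‖w - t₁‖ → f w' ∈ (A.ch i).source ∧ ‖g₀ w' - g₀ w‖ ≤ 8 * δ) ∧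
      ‖mn g₀ t₁ ‖w - t₁‖ - g₀ w‖ ≤ 8 * δ := by
    intro w hw hws hwi hwn
    have h1 := circle_small hc hδ0 hw (lt_of_le_of_lt hws hs₁ρ) hwi hwn
    refine ⟨h1, mn_near (norm_pos_iff.2 (sub_ne_zero.2 hw)) ?_ ?_⟩
    · intro z hz
      have hz' : ‖z - t₁‖ = ‖w - t₁‖ := mem_sphere_iff_norm.1 hz
      refine (hana z ?_ (hz'.le.trans hws) (h1 z hz').1).continuousAt.continuousWithinAt
      intro h
      rw [h, sub_self, norm_zero] at hz'
      exact (norm_pos_iff.2 (sub_ne_zero.2 hw)).ne hz'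
    · intro z hz
      exact (h1 z (mem_sphere_iff_norm.1 hz)).2
  set c := mn g₀ t₁ s₁ with hcdef
  have hbase := hcirc z₁ hz₁ne hz₁n.le his (by simp only [hg₀, hδ]; linarith)
  rw [hz₁n, ← hcdef] at hbase
  have hcn : ‖c‖ < 1 / 2 + 8 * δ := by
    have h1 : ‖c‖ < 8 * δ + 1 / 2 :=
      lt_of_le_of_lt (tri c (g₀ z₁)) (add_lt_add_of_le_of_lt hbase.2 hin)
    linarith
  have claim : ∀ k : ℕ, ∀ w, s₁ * (2 / 3) ^ k ≤ ‖w - t₁‖ → ‖w - t₁‖ ≤ s₁ →
      f w ∈ (A.ch i).source ∧ ‖g₀ w - c‖ ≤ 16 * δ := by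
    intro k
    induction k with
    | zero =>
      intro w h1 h2
      have h3 : ‖w - t₁‖ = s₁ := le_antisymm h2 (by simpa using h1)
      obtain ⟨h4, h5⟩ := hbase.1 w h3
      refine ⟨h4, ?_⟩
      have h6 := tri4 (g₀ w) (g₀ z₁) c
      linarith [hbase.2]
    | succ k ih =>
      set s : ℝ := s₁ * (2 / 3) ^ k with hs
      have hspos : 0 < s := by positivity
      have hss₁ : s ≤ s₁ := by
        rw [hs]
        exact mul_le_of_le_one_right hs₁pos.le (pow_le_one₀ (by norm_num) (by norm_num))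
      have hpre : ∀ w, s * (2 / 3) ≤ ‖w - t₁‖ → ‖w - t₁‖ ≤ s₁ →
          f w ∈ (A.ch i).source ∧ ‖g₀ w - c‖ ≤ 17 * δ := by
        intro w h1 h2
        rcases le_or_gt s ‖w - t₁‖ with h3 | h3
        · obtain ⟨h4, h5⟩ := ih w h3 h2
          exact ⟨h4, h5.trans (by linarith)⟩
        · have hwpos : 0 < ‖w - t₁‖ := lt_of_lt_of_le (by positivity) h1
          set z : ℂ := t₁ + ((s / ‖w - t₁‖ : ℝ) : ℂ) * (w - t₁) with hz
          have hzn : ‖z - t₁‖ = s := by
            rw [hz, add_sub_cancel_left, norm_mul, Complex.norm_real, Real.norm_eq_abs,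
              abs_of_pos (by positivity), div_mul_cancel₀ _ hwpos.ne']
          have hzne : z ≠ t₁ := by
            intro h
            rw [h, sub_self, norm_zero] at hzn
            exact hspos.ne hzn
          have hwz : ‖w - z‖ < ‖z - t₁‖ / 2 := by
            have h4 : w - z = ((1 - s / ‖w - t₁‖ : ℝ) : ℂ) * (w - t₁) := by
              rw [hz]; push_cast; ring
            rw [h4, norm_mul, Complex.norm_real, Real.norm_eq_abs, hzn]
            have h5 : |1 - s / ‖w - t₁‖| = s / ‖w - t₁‖ - 1 := by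
              rw [abs_sub_comm, abs_of_nonneg]
              rw [sub_nonneg, le_div_iff₀ hwpos]
              linarith
            rw [h5, sub_mul, div_mul_cancel₀ _ hwpos.ne', one_mul]
            linarith
          obtain ⟨h4, h5⟩ := ih z hzn.ge (hzn.le.trans hss₁)
          have h6 : ‖g₀ z‖ < 3 / 4 := by
            have h7 := tri (g₀ z) c
            have h9 : (24 : ℝ) * δ < 1 / 4 := by norm_num [hδ]
            have h10 : ‖g₀ z‖ ≤ 16 * δ + (1 / 2 + 8 * δ) := h7.trans (add_le_add h5 hcn.le)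
            linarith
          obtain ⟨h7, h8⟩ := hc z hzne (by rw [hzn]; linarith) i h4 h6 w hwz
          refine ⟨h7, ?_⟩
          have h9 := tri3 (g₀ w) (g₀ z) c
          have h8' : ‖g₀ w - g₀ z‖ ≤ δ := h8
          linarith
      intro w h1 h2
      have h1' : s * (2 / 3) ≤ ‖w - t₁‖ := by
        rw [hs, mul_assoc, ← pow_succ]; exact h1
      have hwpos : 0 < ‖w - t₁‖ := lt_of_lt_of_le (by positivity) h1'
      have hwne : w ≠ t₁ := sub_ne_zero.1 (norm_pos_iff.1 hwpos)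
      obtain ⟨h3, h4⟩ := hpre w h1' h2
      have h5 : ‖g₀ w‖ + 8 * δ < 3 / 4 := by
        have h7 : ‖g₀ w‖ < 17 * δ + (1 / 2 + 8 * δ) :=
          lt_of_le_of_lt (tri (g₀ w) c) (add_lt_add_of_le_of_lt h4 hcn)
        have : (33 : ℝ) * δ < 1 / 4 := by norm_num [hδ]
        linarith
      have h6 := (hcirc w hwne h2 h3 h5).2
      have h7 : mn g₀ t₁ s₁ = mn g₀ t₁ ‖w - t₁‖ := by
        refine mn_eq hwpos h2 fun z hz1 hz2 => ?_
        refine hana z ?_ hz2 (hpre z (h1'.trans hz1) hz2).1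
        intro h
        rw [h, sub_self, norm_zero] at hz1
        linarith
      rw [← h7, ← hcdef, nrev] at h6
      exact ⟨h3, h6.trans (by linarith)⟩
  have hall : ∀ w, w ≠ t₁ → ‖w - t₁‖ ≤ s₁ → f w ∈ (A.ch i).source ∧ ‖g₀ w‖ ≤ 3 / 4 := by
    intro w hw h1
    have hwpos : 0 < ‖w - t₁‖ := norm_pos_iff.2 (sub_ne_zero.2 hw)
    obtain ⟨k, hk⟩ := exists_pow_lt_of_lt_one (show 0 < ‖w - t₁‖ / s₁ by positivity)
      (show (2 / 3 : ℝ) < 1 by norm_num)
    have h2 : s₁ * (2 / 3) ^ k ≤ ‖w - t₁‖ := by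
      rw [lt_div_iff₀ hs₁pos] at hk
      linarith
    obtain ⟨h3, h4⟩ := claim k w h2 h1
    refine ⟨h3, ?_⟩
    have h7 : ‖g₀ w‖ < 16 * δ + (1 / 2 + 8 * δ) :=
      lt_of_le_of_lt (tri (g₀ w) c) (add_lt_add_of_le_of_lt h4 hcn)
    have : (24 : ℝ) * δ < 1 / 4 := by norm_num [hδ]
    linarith
  set g : ℂ → EV n₁ × EV n₂ := Function.update g₀ t₁ (limUnder (𝓝[≠] t₁) g₀) with hg
  have hball : ball t₁ s₁ ∈ 𝓝 t₁ := ball_mem_nhds t₁ hs₁pos
  have hgd : DifferentiableOn ℂ g (ball t₁ s₁) := by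
    refine Complex.differentiableOn_update_limUnder_of_bddAbove hball ?_ ?_
    · rintro t ⟨h1, h2⟩
      rw [mem_ball, dist_eq_norm] at h1
      exact (hana t h2 h1.le (hall t h2 h1.le).1).differentiableWithinAt
    · refine ⟨3 / 4, ?_⟩
      rintro _ ⟨t, ⟨h1, h2⟩, rfl⟩
      rw [mem_ball, dist_eq_norm] at h1
      exact (hall t h2 h1.le).2
  have hge : ∀ t, t ≠ t₁ → g t = g₀ t := fun t ht => Function.update_of_ne ht _ _
  refine ⟨i, s₁, g, hs₁pos, by linarith, hgd, ?_, ?_⟩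
  · intro t ht
    by_cases h : t = t₁
    · subst h
      have h1 : ContinuousAt g t := (hgd.differentiableAt hball).continuousAt
      have h2 : Tendsto (fun w => ‖g w‖) (𝓝[≠] t) (𝓝 ‖g t‖) :=
        (h1.tendsto.mono_left nhdsWithin_le_nhds).norm
      have h3 : ∀ᶠ w in 𝓝[≠] t, ‖g w‖ ≤ 3 / 4 := by
        filter_upwards [self_mem_nhdsWithin, nhdsWithin_le_nhds hball] with w hw1 hw2
        rw [mem_ball, dist_eq_norm] at hw2
        rw [hge w hw1]
        exact (hall w hw1 hw2.le).2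
      have h4 := le_of_tendsto h2 h3
      linarith
    · rw [mem_ball, dist_eq_norm] at ht
      rw [hge t h]
      have := (hall t h ht.le).2
      linarith
  · intro t ht h
    rw [mem_ball, dist_eq_norm] at ht
    exact ⟨(hall t h ht.le).1, (hge t h).symm⟩

end
end Punct

section
variable {n₁ n₂ : ℕ} {X : Type} [TopologicalSpace X] {A : PFol n₁ n₂ X}

theorem punct_of (K : KMet A) (hE : St_E0S K) : St_punct K := by
  intro Ω G H t₁ r hr hΩ hG hH hd hin hfin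
  have hHd : DifferentiableOn ℂ H (ball t₁ r) := fun t ht =>
    (hH t ht).differentiableAt.differentiableWithinAt
  set f : ℂ → X := fun t => G (pt t (H t)) with hf
  have hopen : IsOpen (ball t₁ r \ {t₁}) := isOpen_ball.sdiff isClosed_singleton
  have hfh : IsHolC A (ball t₁ r \ {t₁}) f :=
    E0.hol_curve hG hopen (hHd.mono sdiff_subset) fun t ht => hin t ht.1 ht.2
  have hdens : ∀ t ∈ ball t₁ r, t ≠ t₁ → densM K f t ≤ 2 * trM K G (pt t (H t)) := by
    intro t ht hne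
    refine E0.dens_curve_le K hG (hH t ht).differentiableAt (hd t ht) (hin t ht hne) ?_
    exact (PCAt.analyticAt_ch (hG _ (hin t ht hne)) (E0.idx_source A _)).differentiableAt
  have hfin' : ∫⁻ t in ball t₁ r, ENNReal.ofReal (densM K f t) < ⊤ := by
    have h1 : ∫⁻ t in ball t₁ r, ENNReal.ofReal (densM K f t)
        ≤ ∫⁻ t in ball t₁ r, ENNReal.ofReal 2 * ENNReal.ofReal (trM K G (pt t (H t))) := by
      refine lintegral_mono_ae ?_
      have hae : ∀ᵐ t : ℂ, t ≠ t₁ := by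
        rw [ae_iff]
        simp
      filter_upwards [ae_restrict_of_ae hae, ae_restrict_mem measurableSet_ball] with t h1 h2
      rw [← ENNReal.ofReal_mul (by norm_num)]
      exact ENNReal.ofReal_le_ofReal (hdens t h2 h1)
    refine lt_of_le_of_lt h1 ?_
    rw [lintegral_const_mul' _ _ ENNReal.ofReal_ne_top]
    exact ENNReal.mul_lt_top ENNReal.ofReal_lt_top hfin
  obtain ⟨i, ρ, g, hρ, hρr, hgd, hg1, hgi⟩ := Punct.removable K hE hr hfh hfin'
  have hsub : ball t₁ ρ ⊆ ball t₁ r := ball_subset_ball hρr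
  obtain ⟨U₁, U₂, G', hU₁, hU₂, -, -, hball, hG', hagree⟩ := product_extension_punct
    (chart_holds A) hG hρ (hHd.mono hsub) (fun t ht => hd t (hsub ht))
    (D' := ball t₁ ρ \ {t₁}) (isOpen_ball.sdiff isClosed_singleton) sdiff_subset
    (fun t ht => hin t (hsub ht.1) ht.2) i hgd
    (fun t ht => (E0.mem_target_iff A i _).2 (hg1 t ht)) (fun t ht => hgi t ht.1 ht.2)
  refine ⟨ρ / 16, by positivity, G', fun z hz => hG' z (hball hz), ?_⟩
  filter_upwards [self_mem_nhdsWithin, nhdsWithin_le_nhds (ball_mem_nhds t₁ hρ)] with t h1 h2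
  exact hagree t ⟨h2, h1⟩

theorem punct_holds [T2Space X] [Finite A.ι] (K : KMet A) : St_punct K :=
  punct_of K (E0.E0S_holds K)

end

end Crest.Agent.R266
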