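import Crest.Agent.R266.Stmts
import Crest.Agent.R266.PullC

-- ▼ part R266/Slack
section

/-!
R266 / Slack: uniform slack (transversality) of the pulled back metric and uniform comparison with
the chart derivatives.
-/

set_option autoImplicit false

open scoped Manifold ContDiff Topology ENNReal
open Set Metric Filter MeasureTheory

namespace Crest.Agent.R266

namespace Slk

/-- the compact core of the chart target -/
def core (n₁ n₂ : ℕ) : Set (EV n₁ × EV n₂) :=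
  closedBall (0 : EV n₁) (1 / 2) ×ˢ closedBall (0 : EV n₂) (1 / 2)

lemma core_compact (n₁ n₂ : ℕ) : IsCompact (core n₁ n₂) :=
  (isCompact_closedBall _ _).prod (isCompact_closedBall _ _)

lemma core_subset (n₁ n₂ : ℕ) : core n₁ n₂ ⊆ ball (0 : EV n₁) 1 ×ˢ ball (0 : EV n₂) 1 :=
  Set.prod_mono (closedBall_subset_ball (by norm_num)) (closedBall_subset_ball (by norm_num))

variable {n₁ n₂ : ℕ} {X : Type} [TopologicalSpace X]

/-- comparison of one chart metric with the norm on the compact core -/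
lemma comp_one {A : PFol n₁ n₂ X} (K : KMet A) (i : A.ι) :
    ∃ κ > 0, ∀ p ∈ core n₁ n₂, ∀ u : EV n₁ × EV n₂,
      κ * ‖u‖ ^ 2 ≤ K.g i p u u ∧ K.g i p u u ≤ κ⁻¹ * ‖u‖ ^ 2 := by
  have hcont : ContinuousOn (K.g i) (core n₁ n₂) :=
    (K.smooth i).continuousOn.mono (core_subset n₁ n₂)
  -- upper bound
  obtain ⟨M, hM⟩ := IsCompact.exists_bound_of_continuousOn
    (E := (EV n₁ × EV n₂) →L[ℝ] (EV n₁ × EV n₂) →L[ℝ] ℝ) (core_compact n₁ n₂) hcont
  have hup : ∀ p ∈ core n₁ n₂, ∀ u : EV n₁ × EV n₂, K.g i p u u ≤ (|M| + 1) * ‖u‖ ^ 2 := by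
    intro p hp u
    have h1 : K.g i p u u ≤ ‖K.g i p u‖ * ‖u‖ :=
      le_trans (le_abs_self _) ((K.g i p u).le_opNorm u)
    have h2 : ‖K.g i p u‖ ≤ ‖K.g i p‖ * ‖u‖ := (K.g i p).le_opNorm u
    have h3 : ‖K.g i p‖ ≤ |M| + 1 := (hM p hp).trans ((le_abs_self M).trans (by linarith))
    calc K.g i p u u ≤ ‖K.g i p u‖ * ‖u‖ := h1
      _ ≤ (‖K.g i p‖ * ‖u‖) * ‖u‖ := by gcongr
      _ ≤ ((|M| + 1) * ‖u‖) * ‖u‖ := by gcongr
      _ = (|M| + 1) * ‖u‖ ^ 2 := by ring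
  -- lower bound on the unit sphere
  have hlow : ∃ m > 0, ∀ p ∈ core n₁ n₂, ∀ u : EV n₁ × EV n₂, ‖u‖ = 1 → m ≤ K.g i p u u := by
    have hc : IsCompact (core n₁ n₂ ×ˢ sphere (0 : EV n₁ × EV n₂) 1) :=
      (core_compact n₁ n₂).prod (isCompact_sphere _ _)
    have hf : ContinuousOn (fun q : (EV n₁ × EV n₂) × (EV n₁ × EV n₂) => K.g i q.1 q.2 q.2)
        (core n₁ n₂ ×ˢ sphere (0 : EV n₁ × EV n₂) 1) := by
      have h1 : ContinuousOn (fun q : (EV n₁ × EV n₂) × (EV n₁ × EV n₂) => K.g i q.1)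
          (core n₁ n₂ ×ˢ sphere (0 : EV n₁ × EV n₂) 1) :=
        hcont.comp continuous_fst.continuousOn (fun q hq => hq.1)
      exact (h1.clm_apply continuous_snd.continuousOn).clm_apply continuous_snd.continuousOn
    rcases (core n₁ n₂ ×ˢ sphere (0 : EV n₁ × EV n₂) 1).eq_empty_or_nonempty with he | hne
    · refine ⟨1, one_pos, fun p hp u hu => ?_⟩
      have : (p, u) ∈ core n₁ n₂ ×ˢ sphere (0 : EV n₁ × EV n₂) 1 := ⟨hp, by simpa using hu⟩
      rw [he] at this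
      exact this.elim
    · obtain ⟨q, hq, hmin⟩ := hc.exists_isMinOn hne hf
      refine ⟨K.g i q.1 q.2 q.2, ?_, fun p hp u hu => ?_⟩
      · apply K.pos i q.1 (core_subset n₁ n₂ hq.1)
        intro h0
        have h2 : ‖q.2‖ = 1 := by simpa using hq.2
        rw [h0] at h2
        simp at h2
      · exact hmin (show (p, u) ∈ core n₁ n₂ ×ˢ sphere (0 : EV n₁ × EV n₂) 1 from
          ⟨hp, by simpa using hu⟩)
  obtain ⟨m, hm, hlow⟩ := hlow
  have hMpos : 0 < |M| + 1 := by positivity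
  refine ⟨min m (|M| + 1)⁻¹, lt_min hm (inv_pos.2 hMpos), fun p hp u => ⟨?_, ?_⟩⟩
  · by_cases hu : u = 0
    · subst hu; simp
    have hn : 0 < ‖u‖ := norm_pos_iff.2 hu
    have h1 := hlow p hp ((‖u‖⁻¹ : ℝ) • u) (by
      rw [norm_smul, norm_inv, norm_norm, inv_mul_cancel₀ hn.ne'])
    have h2 : K.g i p ((‖u‖⁻¹ : ℝ) • u) ((‖u‖⁻¹ : ℝ) • u) = ‖u‖⁻¹ * (‖u‖⁻¹ * K.g i p u u) := by
      simp [map_smul]
    rw [h2] at h1
    have h3 : m * ‖u‖ ^ 2 ≤ K.g i p u u := by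
      have h4 := mul_le_mul_of_nonneg_right h1 (sq_nonneg ‖u‖)
      have h5 : ‖u‖⁻¹ * (‖u‖⁻¹ * K.g i p u u) * ‖u‖ ^ 2 = K.g i p u u := by
        field_simp
      rwa [h5] at h4
    refine le_trans ?_ h3
    gcongr
    exact min_le_left _ _
  · refine (hup p hp u).trans ?_
    have h1 : |M| + 1 ≤ (min m (|M| + 1)⁻¹)⁻¹ := by
      rw [le_inv_comm₀ hMpos (lt_min hm (inv_pos.2 hMpos))]
      exact min_le_right _ _
    gcongr

/-- comparison, uniform over a finite atlas -/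
lemma comp_all {A : PFol n₁ n₂ X} [Finite A.ι] (K : KMet A) :
    ∃ κ > 0, ∀ i, ∀ p ∈ core n₁ n₂, ∀ u : EV n₁ × EV n₂,
      κ * ‖u‖ ^ 2 ≤ K.g i p u u ∧ K.g i p u u ≤ κ⁻¹ * ‖u‖ ^ 2 := by
  classical
  have := Fintype.ofFinite A.ι
  choose κ hκ h using fun i => comp_one K i
  obtain ⟨κ₀, hκ₀, hle⟩ : ∃ κ₀ > 0, ∀ i, κ₀ ≤ κ i := by
    rcases isEmpty_or_nonempty A.ι with he | hne
    · exact ⟨1, one_pos, fun i => he.elim i⟩
    · obtain ⟨i₀, hi₀⟩ := Finite.exists_min κ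
      exact ⟨κ i₀, hκ i₀, hi₀⟩
  refine ⟨κ₀, hκ₀, fun i p hp u => ⟨?_, ?_⟩⟩
  · refine le_trans ?_ (h i p hp u).1
    gcongr
    exact hle i
  · refine (h i p hp u).2.trans ?_
    gcongr
    exact hle i

lemma idx_source (A : PFol n₁ n₂ X) (x : X) : x ∈ (A.ch (A.idx x)).source :=
  (Classical.choose_spec (A.cover x)).1

lemma idx_mem (A : PFol n₁ n₂ X) (x : X) : A.ch (A.idx x) x ∈ core n₁ n₂ := by
  have h := (Classical.choose_spec (A.cover x)).2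
  exact ⟨ball_subset_closedBall h.1, ball_subset_closedBall h.2⟩

/-- the derivative of a map of product form -/
lemma fderiv_prod_form {F : ℂ × ℂ → EV n₁ × EV n₂} {a : ℂ → EV n₁} {b : ℂ → EV n₂} {z : ℂ × ℂ}
    (ha : AnalyticAt ℂ a z.1) (hb : AnalyticAt ℂ b z.2) (h : ∀ᶠ w in 𝓝 z, F w = (a w.1, b w.2))
    (u : ℂ × ℂ) : fderiv ℂ F z u = (fderiv ℂ a z.1 u.1, fderiv ℂ b z.2 u.2) := by
  have h1 : HasFDerivAt (fun w : ℂ × ℂ => a w.1)
      ((fderiv ℂ a z.1).comp (ContinuousLinearMap.fst ℂ ℂ ℂ)) z :=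
    HasFDerivAt.comp z (ha.differentiableAt.hasFDerivAt) hasFDerivAt_fst
  have h2 : HasFDerivAt (fun w : ℂ × ℂ => b w.2)
      ((fderiv ℂ b z.2).comp (ContinuousLinearMap.snd ℂ ℂ ℂ)) z :=
    HasFDerivAt.comp z (hb.differentiableAt.hasFDerivAt) hasFDerivAt_snd
  have h3 : HasFDerivAt F
      (((fderiv ℂ a z.1).comp (ContinuousLinearMap.fst ℂ ℂ ℂ)).prod
        ((fderiv ℂ b z.2).comp (ContinuousLinearMap.snd ℂ ℂ ℂ))) z :=
    (h1.prodMk h2).congr_of_eventuallyEq h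
  rw [h3.fderiv]
  rfl

end Slk

open Slk

/-- uniform slack and comparison -/
theorem slack_holds {n₁ n₂ : ℕ} {X : Type} [TopologicalSpace X] {A : PFol n₁ n₂ X} [Finite A.ι]
    (hch : St_chart A) (K : KMet A) : St_slack K := by
  obtain ⟨κ, hκ, hc⟩ := comp_all K
  refine ⟨κ ^ 2 / 2, by positivity, κ, hκ, fun Ω G _ hG => ⟨?_, ?_⟩⟩
  · intro z hz s t
    obtain ⟨a, b, ha, hb, hab⟩ := hch Ω G hG z hz (A.idx (G z)) (idx_source A (G z))
    have hF := fun u => fderiv_prod_form (F := fun w => A.ch (A.idx (G z)) (G w)) ha hb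
      (hab.mono fun w hw => hw.2) u
    have hp := idx_mem A (G z)
    simp only [pullM, hF]
    set i := A.idx (G z) with hi
    set p := A.ch i (G z) with hpdef
    set α := fderiv ℂ a z.1 s with hα
    set β := fderiv ℂ b z.2 t with hβ
    simp only [map_zero]
    have h1 := (hc i p hp (α, β)).1
    have h2 := (hc i p hp (α, (0 : EV n₂))).2
    have h3 := (hc i p hp ((0 : EV n₁), β)).2
    have hn1 : ‖(α, (0 : EV n₂))‖ = ‖α‖ := by simp [Prod.norm_def]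
    have hn2 : ‖((0 : EV n₁), β)‖ = ‖β‖ := by simp [Prod.norm_def]
    have hn3 : ‖α‖ ≤ ‖(α, β)‖ := norm_fst_le (α, β)
    have hn4 : ‖β‖ ≤ ‖(α, β)‖ := norm_snd_le (α, β)
    rw [hn1] at h2
    rw [hn2] at h3
    have h5 : κ * (‖α‖ ^ 2 + ‖β‖ ^ 2) / 2 ≤ K.g i p (α, β) (α, β) := by
      refine le_trans ?_ h1
      have h6 : ‖α‖ ^ 2 ≤ ‖(α, β)‖ ^ 2 := by gcongr
      have h7 : ‖β‖ ^ 2 ≤ ‖(α, β)‖ ^ 2 := by gcongr
      nlinarith
    have h8 : κ ^ 2 / 2 * (K.g i p (α, (0 : EV n₂)) (α, (0 : EV n₂)) +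
        K.g i p ((0 : EV n₁), β) ((0 : EV n₁), β)) ≤ κ ^ 2 / 2 * (κ⁻¹ * ‖α‖ ^ 2 + κ⁻¹ * ‖β‖ ^ 2) := by
      gcongr
    have h9 : κ ^ 2 / 2 * (κ⁻¹ * ‖α‖ ^ 2 + κ⁻¹ * ‖β‖ ^ 2) = κ * (‖α‖ ^ 2 + ‖β‖ ^ 2) / 2 := by
      field_simp
    linarith
  · intro z _ u
    exact hc _ _ (idx_mem A (G z)) _

end Crest.Agent.R266
end

-- ▼ part R266/Pull
section

/-!
R266 / Pull: the pulled back metric of a p.c. map is a closed hermitian form (`St_pull`), formula in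
an arbitrary chart.
-/

set_option autoImplicit false

open scoped Manifold ContDiff Topology
open Set Metric Filter

namespace Crest.Agent.R266

namespace Pul
variable {n₁ n₂ : ℕ} {X : Type} [TopologicalSpace X]

/-- transition maps are analytic -/
theorem transition_analyticAt (A : PFol n₁ n₂ X) (i j : A.ι) (x : X) (hi : x ∈ (A.ch i).source)
    (hj : x ∈ (A.ch j).source) :
    AnalyticAt ℂ (fun p => A.ch j ((A.ch i).symm p)) (A.ch i x) := by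
  obtain ⟨φ, ψ, hφ, hψ, h⟩ := A.compat i j x ⟨hi, hj⟩
  have h1 : AnalyticAt ℂ (fun p : EV n₁ × EV n₂ => (φ p.1, ψ p.2)) (A.ch i x) :=
    AnalyticAt.prod (AnalyticAt.fun_comp (f := Prod.fst) hφ analyticAt_fst)
      (AnalyticAt.fun_comp (f := Prod.snd) hψ analyticAt_snd)
  exact h1.congr (h.mono fun p hp => hp.symm)

/-- chain rule for changing the chart in the target -/
theorem fderiv_chart_change {F : Type*} [NormedAddCommGroup F] [NormedSpace ℂ F]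
    (A : PFol n₁ n₂ X) (i j : A.ι) {c : F → X} {z : F} (hi : c z ∈ (A.ch i).source)
    (hj : c z ∈ (A.ch j).source) (hd : DifferentiableAt ℂ (fun w => A.ch i (c w)) z)
    (hs : ∀ᶠ w in 𝓝 z, c w ∈ (A.ch i).source) (u : F) :
    fderiv ℂ (fun w => A.ch j (c w)) z u =
      fderiv ℂ (fun p => A.ch j ((A.ch i).symm p)) (A.ch i (c z))
        (fderiv ℂ (fun w => A.ch i (c w)) z u) := by
  have h1 : (fun w => A.ch j (c w)) =ᶠ[𝓝 z]
      fun w => (fun p => A.ch j ((A.ch i).symm p)) ((fun w => A.ch i (c w)) w) := by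
    filter_upwards [hs] with w hw
    simp only [(A.ch i).left_inv hw]
  have hT := (transition_analyticAt A i j (c z) hi hj).differentiableAt.hasFDerivAt
  have h2 := HasFDerivAt.comp (f := fun w => A.ch i (c w)) z hT hd.hasFDerivAt
  rw [h1.fderiv_eq]
  have h3 := h2.fderiv
  have h4 : (fun p => A.ch j ((A.ch i).symm p)) ∘ (fun w => A.ch i (c w)) =
    fun w => (fun p => A.ch j ((A.ch i).symm p)) ((fun w => A.ch i (c w)) w) := rfl
  rw [h4] at h3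
  rw [h3]
  rfl

/-- the metric, evaluated on velocity vectors of a map `c`, does not depend on the chart -/
theorem metric_chart_change {F : Type*} [NormedAddCommGroup F] [NormedSpace ℂ F]
    {A : PFol n₁ n₂ X} (K : KMet A) (i j : A.ι) {c : F → X} {z : F}
    (hi : c z ∈ (A.ch i).source) (hj : c z ∈ (A.ch j).source)
    (hd : DifferentiableAt ℂ (fun w => A.ch i (c w)) z)
    (hs : ∀ᶠ w in 𝓝 z, c w ∈ (A.ch i).source) (u v : F) :
    K.g j (A.ch j (c z)) (fderiv ℂ (fun w => A.ch j (c w)) z u)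
      (fderiv ℂ (fun w => A.ch j (c w)) z v) =
    K.g i (A.ch i (c z)) (fderiv ℂ (fun w => A.ch i (c w)) z u)
      (fderiv ℂ (fun w => A.ch i (c w)) z v) := by
  rw [fderiv_chart_change A i j hi hj hd hs, fderiv_chart_change A i j hi hj hd hs]
  exact K.compat i j (c z) ⟨hi, hj⟩ _ _

/-- a p.c. map is analytic in every chart around the image point -/
theorem analyticAt_chart {A : PFol n₁ n₂ X} (hch : St_chart A) {Ω : Set (ℂ × ℂ)} {G : ℂ × ℂ → X}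
    (hG : IsPC A Ω G) {z : ℂ × ℂ} (hz : z ∈ Ω) (i : A.ι) (hi : G z ∈ (A.ch i).source) :
    AnalyticAt ℂ (fun w => A.ch i (G w)) z ∧ ∀ᶠ w in 𝓝 z, G w ∈ (A.ch i).source := by
  obtain ⟨a, b, ha, hb, h⟩ := hch Ω G hG z hz i hi
  refine ⟨?_, h.mono fun w hw => hw.1⟩
  have h1 : AnalyticAt ℂ (fun w : ℂ × ℂ => (a w.1, b w.2)) z :=
    AnalyticAt.prod (AnalyticAt.fun_comp (f := Prod.fst) ha analyticAt_fst)
      (AnalyticAt.fun_comp (f := Prod.snd) hb analyticAt_snd)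
  exact h1.congr (h.mono fun w hw => hw.2.symm)

/-- the pulled back metric in an arbitrary chart -/
theorem pullM_chart {A : PFol n₁ n₂ X} (hch : St_chart A) (K : KMet A) {Ω : Set (ℂ × ℂ)}
    {G : ℂ × ℂ → X} (hG : IsPC A Ω G) {z : ℂ × ℂ} (hz : z ∈ Ω) (i : A.ι)
    (hi : G z ∈ (A.ch i).source) (u v : ℂ × ℂ) :
    pullM K G z u v = K.g i (A.ch i (G z)) (fderiv ℂ (fun w => A.ch i (G w)) z u)
      (fderiv ℂ (fun w => A.ch i (G w)) z v) := by
  obtain ⟨h1, h2⟩ := analyticAt_chart hch hG hz i hi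
  exact metric_chart_change K i (A.idx (G z)) hi (Slk.idx_source A (G z)) h1.differentiableAt h2 u v

/-- the pulled back metric near a point, in one chart -/
theorem pullM_eventually {A : PFol n₁ n₂ X} (hch : St_chart A) (K : KMet A) {Ω : Set (ℂ × ℂ)}
    (hΩ : IsOpen Ω) {G : ℂ × ℂ → X} (hG : IsPC A Ω G) {z : ℂ × ℂ} (hz : z ∈ Ω) (i : A.ι)
    (hi : G z ∈ (A.ch i).source) (u v : ℂ × ℂ) :
    (fun w => pullM K G w u v) =ᶠ[𝓝 z] fun w =>
      K.g i ((fun w => A.ch i (G w)) w) (fderiv ℂ (fun w => A.ch i (G w)) w u)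
        (fderiv ℂ (fun w => A.ch i (G w)) w v) := by
  obtain ⟨_, h2⟩ := analyticAt_chart hch hG hz i hi
  filter_upwards [h2, hΩ.mem_nhds hz] with w hw hwΩ
  exact pullM_chart hch K hG hwΩ i hw u v

theorem chart_mem_target (A : PFol n₁ n₂ X) (i : A.ι) {x : X} (hx : x ∈ (A.ch i).source) :
    A.ch i x ∈ ball (0 : EV n₁) 1 ×ˢ ball (0 : EV n₂) 1 := by
  rw [← A.target_eq i]
  exact (A.ch i).map_source hx

end Pul

open Pul

variable {n₁ n₂ : ℕ} {X : Type} [TopologicalSpace X] in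
/-- the pulled back metric of a p.c. map is a closed hermitian form -/
theorem pull_holds {A : PFol n₁ n₂ X} (hch : St_chart A) (K : KMet A) : St_pull K := by
  intro Ω G hΩ hG
  have hB : IsOpen (ball (0 : EV n₁) 1 ×ˢ ball (0 : EV n₂) 1) := isOpen_ball.prod isOpen_ball
  refine ⟨?_, ?_, ?_, ?_, ?_, ?_, ?_⟩
  · intro z _ u u' v
    simp only [pullM, map_add, ContinuousLinearMap.add_apply]
  · intro z _ c u v
    have : ∀ L : ℂ × ℂ →L[ℂ] EV n₁ × EV n₂, L (c • u) = c • L u := fun L => by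
      rw [← Complex.coe_smul, map_smul, Complex.coe_smul]
    simp only [pullM, this, map_smul, ContinuousLinearMap.smul_apply, smul_eq_mul]
  · intro z hz u v
    exact K.symm _ _ (chart_mem_target A _ (Slk.idx_source A (G z))) _ _
  · intro z hz u v
    simp only [pullM, map_smul]
    exact K.herm _ _ (chart_mem_target A _ (Slk.idx_source A (G z))) _ _
  · intro z hz u
    by_cases h : fderiv ℂ (fun w => A.ch (A.idx (G z)) (G w)) z u = 0
    · simp [pullM, h]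
    · exact (K.pos _ _ (chart_mem_target A _ (Slk.idx_source A (G z))) _ h).le
  · intro u v z hz
    have hi := Slk.idx_source A (G z)
    obtain ⟨h1, _⟩ := analyticAt_chart hch hG hz _ hi
    have hg : ContDiffAt ℝ ∞ (K.g (A.idx (G z))) (A.ch (A.idx (G z)) (G z)) :=
      (K.smooth _).contDiffAt (hB.mem_nhds (chart_mem_target A _ hi))
    exact ((contDiffAt_pull (φ := fun w => A.ch (A.idx (G z)) (G w)) h1 hg u v).congr_of_eventuallyEq
      (pullM_eventually hch K hΩ hG hz _ hi u v)).contDiffWithinAt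
  · intro z hz u v w
    have hi := Slk.idx_source A (G z)
    obtain ⟨h1, _⟩ := analyticAt_chart hch hG hz _ hi
    have hm := chart_mem_target A _ hi
    have hg : ContDiffAt ℝ ∞ (K.g (A.idx (G z))) (A.ch (A.idx (G z)) (G z)) :=
      (K.smooth _).contDiffAt (hB.mem_nhds hm)
    have e := fun a b => (pullM_eventually hch K hΩ hG hz _ hi a b).fderiv_eq (𝕜 := ℝ)
    rw [e, e, e]
    exact closed_pull (φ := fun w => A.ch (A.idx (G z)) (G w)) h1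
      (hg.differentiableAt (by simp)) (K.symm _ _ hm) (K.herm _ _ hm) (K.closed _ _ hm) u v w

end Crest.Agent.R266
end

-- ▼ part R266/Sweep
section

/-!
Row 266, S0405, step (2): the SWEEP. Abstract "product compatible" (p.c.) theory on `ℂ × ℂ`,
and the completeness theorem on a bidisc from the local extension theorem NC.
-/

set_option autoImplicit false

open Topology Set Filter Metric

namespace Crest.Agent.R266

/-- Abstract germwise theory of product compatible maps `G : ℂ × ℂ → X`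
(`∂_x G ∈ E₁`, `∂_y G ∈ E₂`), together with discs tangent to `E₁`, `E₂`. -/
structure PCTheory (X : Type*) where
  PCAt : (ℂ × ℂ → X) → ℂ × ℂ → Prop
  E1At : (ℂ → X) → ℂ → Prop
  E2At : (ℂ → X) → ℂ → Prop
  pc_congr : ∀ {G G' : ℂ × ℂ → X} {p : ℂ × ℂ}, G =ᶠ[𝓝 p] G' → PCAt G p → PCAt G' p
  pc_open : ∀ {G : ℂ × ℂ → X} {p : ℂ × ℂ}, PCAt G p → ∀ᶠ q in 𝓝 p, PCAt G q
  pc_ident : ∀ {G G' : ℂ × ℂ → X} {p : ℂ × ℂ}, PCAt G p → PCAt G' p →
    (∃ᶠ q in 𝓝 p, G =ᶠ[𝓝 q] G') → G =ᶠ[𝓝 p] G'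
  /-- extension along the `x`-axis direction inside one product chart -/
  ax1 : ∀ {c : ℂ → X} {x₀ : ℂ}, E1At c x₀ → ∃ r > 0, ∀ (G : ℂ × ℂ → X) (y₀ x₁ : ℂ),
    x₁ ∈ ball x₀ r → PCAt G (x₁, y₀) → (∀ᶠ x in 𝓝 x₁, G (x, y₀) = c x) →
    ∃ G' : ℂ × ℂ → X, (∀ x ∈ ball x₀ r, PCAt G' (x, y₀)) ∧ (∀ x ∈ ball x₀ r, G' (x, y₀) = c x) ∧
      G' =ᶠ[𝓝 (x₁, y₀)] G
  /-- extension along the `y`-axis direction inside one product chart -/
  ax2 : ∀ {c : ℂ → X} {y₀ : ℂ}, E2At c y₀ → ∃ r > 0, ∀ (G : ℂ × ℂ → X) (x₀ y₁ : ℂ),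
    y₁ ∈ ball y₀ r → PCAt G (x₀, y₁) → (∀ᶠ y in 𝓝 y₁, G (x₀, y) = c y) →
    ∃ G' : ℂ × ℂ → X, (∀ y ∈ ball y₀ r, PCAt G' (x₀, y)) ∧ (∀ y ∈ ball y₀ r, G' (x₀, y) = c y) ∧
      G' =ᶠ[𝓝 (x₀, y₁)] G
  /-- initial germ -/
  init : ∀ {c₁ c₂ : ℂ → X} {x₀ y₀ : ℂ}, E1At c₁ x₀ → E2At c₂ y₀ → c₁ x₀ = c₂ y₀ →
    ∃ G : ℂ × ℂ → X, PCAt G (x₀, y₀) ∧ (∀ᶠ x in 𝓝 x₀, G (x, y₀) = c₁ x) ∧
      (∀ᶠ y in 𝓝 y₀, G (x₀, y) = c₂ y)

/-- The local extension theorem NC: a p.c. map on `{Re(l·Δx + m·Δy) > C‖Δ‖²}` near `q`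
extends across `q`; the extension agrees with it on all rays entering the domain. -/
def PCTheory.NC {X : Type*} (T : PCTheory X) : Prop :=
  ∀ (G : ℂ × ℂ → X) (q : ℂ × ℂ) (l m : ℂ) (C d : ℝ), l ≠ 0 → m ≠ 0 → 0 < C → 0 < d →
    (∀ p ∈ ball q d, C * ‖p - q‖ ^ 2 < (l * (p.1 - q.1) + m * (p.2 - q.2)).re → T.PCAt G p) →
    ∃ G' : ℂ × ℂ → X, T.PCAt G' q ∧ ∀ v : ℂ × ℂ, 0 < (l * v.1 + m * v.2).re →
      ∀ᶠ t : ℝ in 𝓝[>] 0, G' =ᶠ[𝓝 (q + t • v)] G

namespace PCTheory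

variable {X : Type*} (T : PCTheory X)

lemma isOpen_pc (G : ℂ × ℂ → X) : IsOpen {p | T.PCAt G p} := by
  rw [isOpen_iff_mem_nhds]
  intro p hp
  exact T.pc_open hp

lemma isOpen_germEq (G G' : ℂ × ℂ → X) : IsOpen {p | G =ᶠ[𝓝 p] G'} := by
  rw [isOpen_iff_mem_nhds]
  intro p hp
  exact eventually_eventually_nhds.2 hp

/-- uniqueness of continuation along a preconnected set -/
lemma unique_along {G G' : ℂ × ℂ → X} {s : Set (ℂ × ℂ)} (hs : IsPreconnected s)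
    (h : ∀ p ∈ s, T.PCAt G p) (h' : ∀ p ∈ s, T.PCAt G' p) {p₀ : ℂ × ℂ} (hp₀ : p₀ ∈ s)
    (he : G =ᶠ[𝓝 p₀] G') : ∀ p ∈ s, G =ᶠ[𝓝 p] G' := by
  have := hs.subset_of_closure_inter_subset (isOpen_germEq G G') ⟨p₀, hp₀, he⟩ (by
    rintro p ⟨hpc, hps⟩
    refine T.pc_ident (h p hps) (h' p hps) ?_
    exact mem_closure_iff_frequently.1 hpc)
  intro p hp
  exact this hp

/-- `G₀` extends along the segment `[0,p]`. -/
def Ext (G₀ : ℂ × ℂ → X) (p : ℂ × ℂ) : Prop :=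
  ∃ G' : ℂ × ℂ → X, (∀ t ∈ Icc (0:ℝ) 1, T.PCAt G' (t • p)) ∧ G' =ᶠ[𝓝 0] G₀

lemma seg_preconnected (p : ℂ × ℂ) : IsPreconnected ((fun t : ℝ => t • p) '' Icc (0:ℝ) 1) :=
  isPreconnected_Icc.image _ (by fun_prop)

lemma eventually_seg {G' : ℂ × ℂ → X} {p : ℂ × ℂ} (h : ∀ t ∈ Icc (0:ℝ) 1, T.PCAt G' (t • p)) :
    ∀ᶠ p' in 𝓝 p, ∀ t ∈ Icc (0:ℝ) 1, T.PCAt G' (t • p') := by
  have hW := T.isOpen_pc G'
  have hcont : Continuous (fun z : ℝ × (ℂ × ℂ) => z.1 • z.2) := by fun_prop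
  have hpre : IsOpen {z : ℝ × (ℂ × ℂ) | T.PCAt G' (z.1 • z.2)} := hW.preimage hcont
  have hsub : Icc (0:ℝ) 1 ×ˢ ({p} : Set (ℂ × ℂ)) ⊆ {z : ℝ × (ℂ × ℂ) | T.PCAt G' (z.1 • z.2)} := by
    rintro ⟨t, p'⟩ ⟨ht, hp'⟩
    simp only [mem_singleton_iff] at hp'
    subst hp'
    exact h t ht
  obtain ⟨u, v, hu, hv, hu', hv', huv⟩ := generalized_tube_lemma isCompact_Icc
    (isCompact_singleton (x := p)) hpre hsub
  filter_upwards [hv.mem_nhds (hv' rfl)] with p' hp' t ht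
  exact huv (show (t, p') ∈ u ×ˢ v from ⟨hu' ht, hp'⟩)

lemma isOpen_ext (G₀ : ℂ × ℂ → X) : IsOpen {p | T.Ext G₀ p} := by
  rw [isOpen_iff_mem_nhds]
  rintro p ⟨G', h, he⟩
  filter_upwards [T.eventually_seg h] with p' hp'
  exact ⟨G', hp', he⟩

lemma unique_seg {G G' : ℂ × ℂ → X} {p : ℂ × ℂ} (h : ∀ t ∈ Icc (0:ℝ) 1, T.PCAt G (t • p))
    (h' : ∀ t ∈ Icc (0:ℝ) 1, T.PCAt G' (t • p)) (he : G =ᶠ[𝓝 0] G') :
    ∀ t ∈ Icc (0:ℝ) 1, G =ᶠ[𝓝 (t • p)] G' := by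
  intro t ht
  refine T.unique_along (seg_preconnected p) ?_ ?_ (p₀ := 0) ⟨0, by simp, by simp⟩ he _ ⟨t, ht, rfl⟩
  · rintro _ ⟨t, ht, rfl⟩; exact h t ht
  · rintro _ ⟨t, ht, rfl⟩; exact h' t ht

open Classical in
/-- the star extension of `G₀` -/
noncomputable def star (G₀ : ℂ × ℂ → X) : ℂ × ℂ → X := fun p =>
  if h : T.Ext G₀ p then (Classical.choose h) p else G₀ p

lemma star_eq {G₀ G' : ℂ × ℂ → X} {p : ℂ × ℂ} (h : ∀ t ∈ Icc (0:ℝ) 1, T.PCAt G' (t • p))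
    (he : G' =ᶠ[𝓝 0] G₀) : T.star G₀ =ᶠ[𝓝 p] G' := by
  filter_upwards [T.eventually_seg h] with p' hp'
  have hext : T.Ext G₀ p' := ⟨G', hp', he⟩
  have hs := Classical.choose_spec hext
  have := T.unique_seg hs.1 hp' (hs.2.trans he.symm) 1 (by simp)
  rw [one_smul] at this
  simp only [star, hext, dif_pos]
  exact this.self_of_nhds

lemma star_pc {G₀ : ℂ × ℂ → X} {p : ℂ × ℂ} (h : T.Ext G₀ p) : T.PCAt (T.star G₀) p := by
  obtain ⟨G', h1, h2⟩ := h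
  refine T.pc_congr (T.star_eq h1 h2).symm ?_
  simpa using h1 1 (by simp)

lemma star_zero {G₀ : ℂ × ℂ → X} (h : T.PCAt G₀ 0) : T.star G₀ =ᶠ[𝓝 0] G₀ := by
  refine T.star_eq (p := 0) (fun t _ => by simpa using h) (Eventually.of_forall fun _ => rfl)

open Classical in
/-- glue two maps along a hyperplane transversal to a ray -/
noncomputable def glue (f : ℂ × ℂ →L[ℝ] ℝ) (t₁ : ℝ) (G G' : ℂ × ℂ → X) : ℂ × ℂ → X := fun p =>
  if t₁ < f p then G' p else G p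

lemma glue_lt {f : ℂ × ℂ →L[ℝ] ℝ} {t₁ : ℝ} {G G' : ℂ × ℂ → X} {p : ℂ × ℂ} (h : f p < t₁) :
    glue f t₁ G G' =ᶠ[𝓝 p] G := by
  have : ∀ᶠ p' in 𝓝 p, f p' < t₁ := f.continuous.continuousAt.eventually_lt_const h
  filter_upwards [this] with p' hp'
  simp [glue, not_lt.2 hp'.le]

lemma glue_gt {f : ℂ × ℂ →L[ℝ] ℝ} {t₁ : ℝ} {G G' : ℂ × ℂ → X} {p : ℂ × ℂ} (h : t₁ < f p) :
    glue f t₁ G G' =ᶠ[𝓝 p] G' := by
  have : ∀ᶠ p' in 𝓝 p, t₁ < f p' := f.continuous.continuousAt.eventually_const_lt h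
  filter_upwards [this] with p' hp'
  simp [glue, hp']

lemma glue_eq {f : ℂ × ℂ →L[ℝ] ℝ} {t₁ : ℝ} {G G' : ℂ × ℂ → X} {p : ℂ × ℂ} (h : G' =ᶠ[𝓝 p] G) :
    glue f t₁ G G' =ᶠ[𝓝 p] G := by
  filter_upwards [h] with p' hp'
  unfold glue
  split_ifs
  · exact hp'
  · rfl


/-- glue along a ray: `G` on `[0,t₁)`, `G'` on `(t₁, t₂]`. -/
lemma glue_ray {q : ℂ × ℂ} (hq : q ≠ 0) {t₁ : ℝ} {G G' : ℂ × ℂ → X}
    (he : G' =ᶠ[𝓝 (t₁ • q)] G) :
    ∃ H : ℂ × ℂ → X, (∀ t ≤ t₁, H =ᶠ[𝓝 (t • q)] G) ∧ (∀ t, t₁ ≤ t → H =ᶠ[𝓝 (t • q)] G') := by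
  obtain ⟨f, hf⟩ := SeparatingDual.exists_eq_one (R := ℝ) hq
  have hft : ∀ t : ℝ, f (t • q) = t := fun t => by rw [map_smul, hf]; simp
  refine ⟨glue f t₁ G G', ?_, ?_⟩
  · intro t ht
    rcases ht.lt_or_eq with h | h
    · exact glue_lt (by rwa [hft])
    · subst h; exact glue_eq he
  · intro t ht
    rcases ht.lt_or_eq with h | h
    · exact glue_gt (by rwa [hft])
    · subst h; exact (glue_eq he).trans he.symm

/-- the axis chain, first axis -/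
lemma axis1 {c : ℂ → X} {R : ℝ} (hc : ∀ x ∈ ball (0:ℂ) R, T.E1At c x) {G₀ : ℂ × ℂ → X}
    (h₀ : T.PCAt G₀ 0) (h₀' : ∀ᶠ x in 𝓝 (0:ℂ), G₀ (x, 0) = c x) {x : ℂ} (hx : x ∈ ball (0:ℂ) R)
    (hx0 : x ≠ 0) :
    ∃ G' : ℂ × ℂ → X, (∀ t ∈ Icc (0:ℝ) 1, T.PCAt G' (t • (x, 0))) ∧
      (∀ t ∈ Icc (0:ℝ) 1, ∀ᶠ z in 𝓝 (t • x), G' (z, 0) = c z) ∧ G' =ᶠ[𝓝 0] G₀ := by
  have hq : ((x, 0) : ℂ × ℂ) ≠ 0 := fun h => hx0 (congrArg Prod.fst h)
  set P : ℝ → Prop := fun t => ∃ G' : ℂ × ℂ → X, (∀ t' ∈ Icc (0:ℝ) t, T.PCAt G' (t' • (x, 0))) ∧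
      (∀ t' ∈ Icc (0:ℝ) t, ∀ᶠ z in 𝓝 (t' • x), G' (z, 0) = c z) ∧ G' =ᶠ[𝓝 0] G₀ with hP
  have hmono : ∀ t t', t' ≤ t → P t → P t' := by
    rintro t t' h ⟨G', h1, h2, h3⟩
    exact ⟨G', fun u hu => h1 u ⟨hu.1, hu.2.trans h⟩, fun u hu => h2 u ⟨hu.1, hu.2.trans h⟩, h3⟩
  have htx : ∀ t ∈ Icc (0:ℝ) 1, t • x ∈ ball (0:ℂ) R := by
    intro t ht
    rw [mem_ball_zero_iff] at hx ⊢
    rw [norm_smul, Real.norm_of_nonneg ht.1]
    calc t * ‖x‖ ≤ 1 * ‖x‖ := by gcongr; exact ht.2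
      _ < R := by simpa using hx
  -- local propagation
  have hkey : ∀ t ∈ Icc (0:ℝ) 1, ∃ δ > 0, ∀ t₁ ∈ Icc (0:ℝ) 1, ∀ t₂ ∈ Icc (0:ℝ) 1,
      |t₁ - t| < δ → |t₂ - t| < δ → P t₁ → P t₂ := by
    intro t ht
    obtain ⟨r, hr, H⟩ := T.ax1 (hc _ (htx t ht))
    have hxn : 0 < ‖x‖ := norm_pos_iff.2 hx0
    refine ⟨r / ‖x‖, div_pos hr hxn, ?_⟩
    intro t₁ ht₁ t₂ ht₂ h1 h2 hPt
    rcases le_total t₂ t₁ with hle | hle
    · exact hmono _ _ hle hPt
    have hin : ∀ u, |u - t| < r / ‖x‖ → u • x ∈ ball (t • x) r := by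
      intro u hu
      rw [mem_ball, dist_eq_norm, ← sub_smul, norm_smul, Real.norm_eq_abs]
      rwa [lt_div_iff₀ hxn] at hu
    obtain ⟨G', hG1, hG2, hG3⟩ := hPt
    have ht11 : t₁ ∈ Icc (0:ℝ) t₁ := ⟨ht₁.1, le_rfl⟩
    have hp1 := hG1 t₁ ht11
    have hsm : ∀ u : ℝ, u • ((x, 0) : ℂ × ℂ) = (u • x, 0) := fun u => by simp
    rw [hsm] at hp1
    obtain ⟨G'', k1, k2, k3⟩ := H G' 0 (t₁ • x) (hin t₁ h1) hp1 (hG2 t₁ ht11)
    rw [← hsm] at k3
    obtain ⟨K, K1, K2⟩ := glue_ray hq k3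
    have hbd : ∀ u ∈ Icc t₁ t₂, |u - t| < r / ‖x‖ := by
      intro u hu
      rw [abs_lt] at h1 h2 ⊢
      exact ⟨by linarith [hu.1], by linarith [hu.2]⟩
    refine ⟨K, ?_, ?_, ?_⟩
    · intro u hu
      rcases le_total u t₁ with h | h
      · exact T.pc_congr (K1 u h).symm (hG1 u ⟨hu.1, h⟩)
      · refine T.pc_congr (K2 u h).symm ?_
        rw [hsm]
        exact k1 _ (hin u (hbd u ⟨h, hu.2⟩))
    · intro u hu
      have hcont : Continuous (fun z : ℂ => ((z, 0) : ℂ × ℂ)) := by fun_prop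
      rcases le_total u t₁ with h | h
      · have e1 := K1 u h
        rw [hsm] at e1
        filter_upwards [hcont.continuousAt.eventually e1, hG2 u ⟨hu.1, h⟩] with z hz1 hz2
        rw [hz1, hz2]
      · have e1 := K2 u h
        rw [hsm] at e1
        have hb : ball (t • x) r ∈ 𝓝 (u • x) := isOpen_ball.mem_nhds (hin u (hbd u ⟨h, hu.2⟩))
        filter_upwards [hcont.continuousAt.eventually e1, hb] with z hz1 hz2
        rw [hz1, k2 z hz2]
    · have := K1 0 ht₁.1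
      rw [zero_smul] at this
      exact this.trans hG3
  have hP0 : P 0 := by
    refine ⟨G₀, ?_, ?_, Eventually.of_forall fun _ => rfl⟩
    · intro t ht
      have : t = 0 := le_antisymm ht.2 ht.1
      subst this; simpa using h₀
    · intro t ht
      have : t = 0 := le_antisymm ht.2 ht.1
      subst this; simpa using h₀'
  have hP1 : P 1 := by
    have hpre : IsPreconnected (Icc (0:ℝ) 1) := isPreconnected_Icc
    -- the set of t with P t, made open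
    set u : Set ℝ := {t | ∃ t' , t' ∈ Icc (0:ℝ) 1 ∧ P t' ∧ ∃ δ > 0, |t - t'| < δ ∧
      ∀ t₂ ∈ Icc (0:ℝ) 1, |t₂ - t'| < δ → P t₂} with hu
    have huo : IsOpen u := by
      rw [Metric.isOpen_iff]
      rintro t ⟨t', ht', hPt', δ, hδ, h1, h2⟩
      refine ⟨δ - |t - t'|, by linarith, fun s hs => ⟨t', ht', hPt', δ, hδ, ?_, h2⟩⟩
      rw [mem_ball, Real.dist_eq] at hs
      calc |s - t'| ≤ |s - t| + |t - t'| := abs_sub_le _ _ _
        _ < δ := by linarith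
    have huP : ∀ t ∈ Icc (0:ℝ) 1, t ∈ u → P t := by
      rintro t ht ⟨t', ht', hPt', δ, hδ, h1, h2⟩
      exact h2 t ht h1
    have hPu : ∀ t ∈ Icc (0:ℝ) 1, P t → t ∈ u := by
      intro t ht hPt
      obtain ⟨δ, hδ, h⟩ := hkey t ht
      exact ⟨t, ht, hPt, δ, hδ, by simpa using hδ, fun t₂ ht₂ h2 =>
        h t ht t₂ ht₂ (by simpa using hδ) h2 hPt⟩
    have := hpre.subset_of_closure_inter_subset huo
      ⟨0, ⟨le_rfl, zero_le_one⟩, hPu 0 ⟨le_rfl, zero_le_one⟩ hP0⟩ (by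
        rintro t ⟨htc, ht⟩
        obtain ⟨δ, hδ, h⟩ := hkey t ht
        rw [Metric.mem_closure_iff] at htc
        obtain ⟨s, ⟨t', ht', hPt', δ', hδ', h1, h2⟩, hs⟩ := htc (min δ 1) (lt_min hδ one_pos)
        refine hPu t ht ?_
        -- find a point of [0,1] close to both
        rw [Real.dist_eq] at hs
        have hsδ : |t - s| < δ := hs.trans_le (min_le_left _ _)
        -- projection of s onto [0,1]
        set s' : ℝ := max 0 (min 1 s) with hs'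
        have hs'mem : s' ∈ Icc (0:ℝ) 1 := ⟨le_max_left _ _, max_le zero_le_one (min_le_left _ _)⟩
        have hproj : ∀ w ∈ Icc (0:ℝ) 1, |s' - w| ≤ |s - w| := by
          intro w hw
          rw [hs']
          rcases le_total s 0 with h0 | h0
          · rw [min_eq_right (h0.trans zero_le_one), max_eq_left h0]
            rw [abs_le]
            constructor
            · have := neg_abs_le (s - w); nlinarith [abs_nonneg (s - w), neg_abs_le (s-w)]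
            · have := abs_nonneg (s - w); linarith [hw.1]
          · rcases le_total s 1 with h1 | h1
            · rw [min_eq_right h1, max_eq_right h0]
            · rw [min_eq_left h1, max_eq_right zero_le_one]
              rw [abs_of_nonneg (by linarith [hw.2]), abs_of_nonneg (by linarith [hw.2])]
              linarith
        have a1 : |s' - t'| < δ' := (hproj t' ht').trans_lt h1
        have a2 : |s' - t| < δ := by
          refine (hproj t ht).trans_lt ?_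
          rwa [abs_sub_comm]
        exact h s' hs'mem t ht a2 (by simpa using hδ) (h2 s' hs'mem a1))
    exact huP 1 ⟨zero_le_one, le_rfl⟩ (this ⟨zero_le_one, le_rfl⟩)
  obtain ⟨G', h1, h2, h3⟩ := hP1
  exact ⟨G', h1, h2, h3⟩

/-! ### the swapped theory -/

lemma germ_swap {G G' : ℂ × ℂ → X} {p : ℂ × ℂ} (h : G =ᶠ[𝓝 p] G') :
    (fun z : ℂ × ℂ => G z.swap) =ᶠ[𝓝 p.swap] (fun z => G' z.swap) := by
  have : Tendsto (Prod.swap : ℂ × ℂ → ℂ × ℂ) (𝓝 p.swap) (𝓝 p) := by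
    have := (continuous_swap (X := ℂ) (Y := ℂ)).tendsto p.swap
    rwa [Prod.swap_swap] at this
  exact this.eventually h

/-- exchange the two coordinates -/
def swap (T : PCTheory X) : PCTheory X where
  PCAt G p := T.PCAt (fun z => G z.swap) p.swap
  E1At := T.E2At
  E2At := T.E1At
  pc_congr h hp := T.pc_congr (germ_swap h) hp
  pc_open := by
    intro G p h
    have := T.pc_open h
    exact (continuous_swap.tendsto p).eventually this
  pc_ident := by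
    intro G G' p h h' hf
    have : (fun z : ℂ × ℂ => G z.swap) =ᶠ[𝓝 p.swap] (fun z => G' z.swap) := by
      refine T.pc_ident h h' ?_
      have h1 : ∃ᶠ q in 𝓝 p, (fun z : ℂ × ℂ => G z.swap) =ᶠ[𝓝 q.swap] (fun z => G' z.swap) :=
        hf.mono fun q hq => germ_swap hq
      exact (continuous_swap.tendsto p).frequently h1
    simpa using germ_swap this
  ax1 := by
    intro c x₀ hc
    obtain ⟨r, hr, H⟩ := T.ax2 hc
    refine ⟨r, hr, fun G y₀ x₁ hx₁ hG hGc => ?_⟩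
    obtain ⟨G', h1, h2, h3⟩ := H (fun z => G z.swap) y₀ x₁ hx₁ hG hGc
    refine ⟨fun z => G' z.swap, ?_, ?_, ?_⟩
    · intro x hx; simpa using h1 x hx
    · intro x hx; simpa using h2 x hx
    · have := germ_swap h3
      simpa using this
  ax2 := by
    intro c x₀ hc
    obtain ⟨r, hr, H⟩ := T.ax1 hc
    refine ⟨r, hr, fun G y₀ x₁ hx₁ hG hGc => ?_⟩
    obtain ⟨G', h1, h2, h3⟩ := H (fun z => G z.swap) y₀ x₁ hx₁ hG hGc
    refine ⟨fun z => G' z.swap, ?_, ?_, ?_⟩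
    · intro x hx; simpa using h1 x hx
    · intro x hx; simpa using h2 x hx
    · have := germ_swap h3
      simpa using this
  init := by
    intro c₁ c₂ x₀ y₀ h1 h2 h
    obtain ⟨G, g1, g2, g3⟩ := T.init h2 h1 h.symm
    refine ⟨fun z => G z.swap, ?_, ?_, ?_⟩
    · simpa using g1
    · simpa using g3
    · simpa using g2

/-- the axis chain, second axis -/
lemma axis2 {c : ℂ → X} {R : ℝ} (hc : ∀ y ∈ ball (0:ℂ) R, T.E2At c y) {G₀ : ℂ × ℂ → X}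
    (h₀ : T.PCAt G₀ 0) (h₀' : ∀ᶠ y in 𝓝 (0:ℂ), G₀ (0, y) = c y) {y : ℂ} (hy : y ∈ ball (0:ℂ) R)
    (hy0 : y ≠ 0) :
    ∃ G' : ℂ × ℂ → X, (∀ t ∈ Icc (0:ℝ) 1, T.PCAt G' (t • (0, y))) ∧
      (∀ t ∈ Icc (0:ℝ) 1, ∀ᶠ z in 𝓝 (t • y), G' (0, z) = c z) ∧ G' =ᶠ[𝓝 0] G₀ := by
  obtain ⟨G', h1, h2, h3⟩ := T.swap.axis1 (c := c) (R := R) hc (G₀ := fun z => G₀ z.swap)
    (show T.PCAt _ _ by simpa using h₀) (by simpa using h₀') hy hy0
  refine ⟨fun z => G' z.swap, ?_, ?_, ?_⟩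
  · intro t ht
    have := h1 t ht
    change T.PCAt _ _ at this
    simpa using this
  · intro t ht
    simpa using h2 t ht
  · have := germ_swap h3
    simpa using this

/-- the polynomial sweep estimate -/
lemma sweep_poly {R₁ R₂ : ℝ} {x₀ y₀ : ℂ} (hx : ‖x₀‖ < R₁) (hy : ‖y₀‖ < R₂) :
    ∃ C > 0, ∀ h : ℂ × ℂ, ‖h‖ ≤ 1 →
      (-(2 * (R₂ ^ 2 - ‖y₀‖ ^ 2 : ℝ)) * (starRingEnd ℂ) x₀ * h.1
        + -(2 * (R₁ ^ 2 - ‖x₀‖ ^ 2 : ℝ)) * (starRingEnd ℂ) y₀ * h.2).re - C * ‖h‖ ^ 2 ≤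
      (R₁ ^ 2 - ‖x₀ + h.1‖ ^ 2) * (R₂ ^ 2 - ‖y₀ + h.2‖ ^ 2)
        - (R₁ ^ 2 - ‖x₀‖ ^ 2) * (R₂ ^ 2 - ‖y₀‖ ^ 2) := by
  have hA : 0 < R₁ ^ 2 - ‖x₀‖ ^ 2 := by nlinarith [norm_nonneg x₀]
  have hB : 0 < R₂ ^ 2 - ‖y₀‖ ^ 2 := by nlinarith [norm_nonneg y₀]
  refine ⟨(R₁ ^ 2 - ‖x₀‖ ^ 2) + (R₂ ^ 2 - ‖y₀‖ ^ 2) + (2 * ‖x₀‖ + 1) * (2 * ‖y₀‖ + 1), by positivity, ?_⟩
  rintro ⟨h₁, h₂⟩ hh
  have hn1 : ‖h₁‖ ≤ ‖(h₁, h₂)‖ := norm_fst_le (h₁, h₂)
  have hn2 : ‖h₂‖ ≤ ‖(h₁, h₂)‖ := norm_snd_le (h₁, h₂)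
  set N := ‖(h₁, h₂)‖ with hN
  have hN0 : 0 ≤ N := norm_nonneg _
  have e1 : ‖x₀ + h₁‖ ^ 2 = ‖x₀‖ ^ 2 + (2 * ((starRingEnd ℂ) x₀ * h₁).re + ‖h₁‖ ^ 2) := by
    rw [← Complex.normSq_eq_norm_sq, ← Complex.normSq_eq_norm_sq, ← Complex.normSq_eq_norm_sq]
    simp [Complex.normSq_apply]; ring
  have e2 : ‖y₀ + h₂‖ ^ 2 = ‖y₀‖ ^ 2 + (2 * ((starRingEnd ℂ) y₀ * h₂).re + ‖h₂‖ ^ 2) := by
    rw [← Complex.normSq_eq_norm_sq, ← Complex.normSq_eq_norm_sq, ← Complex.normSq_eq_norm_sq]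
    simp [Complex.normSq_apply]; ring
  have b1 : |2 * ((starRingEnd ℂ) x₀ * h₁).re + ‖h₁‖ ^ 2| ≤ (2 * ‖x₀‖ + 1) * N := by
    have : |((starRingEnd ℂ) x₀ * h₁).re| ≤ ‖x₀‖ * ‖h₁‖ := by
      refine (Complex.abs_re_le_norm _).trans ?_
      rw [norm_mul, Complex.norm_conj]
    rw [abs_le] at this ⊢
    have h2 : ‖x₀‖ * ‖h₁‖ ≤ ‖x₀‖ * N := by gcongr
    have h3 : ‖h₁‖ ^ 2 ≤ N := by nlinarith [norm_nonneg h₁]
    constructor <;> nlinarith [norm_nonneg h₁, sq_nonneg ‖h₁‖]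
  have b2 : |2 * ((starRingEnd ℂ) y₀ * h₂).re + ‖h₂‖ ^ 2| ≤ (2 * ‖y₀‖ + 1) * N := by
    have : |((starRingEnd ℂ) y₀ * h₂).re| ≤ ‖y₀‖ * ‖h₂‖ := by
      refine (Complex.abs_re_le_norm _).trans ?_
      rw [norm_mul, Complex.norm_conj]
    rw [abs_le] at this ⊢
    have h2 : ‖y₀‖ * ‖h₂‖ ≤ ‖y₀‖ * N := by gcongr
    have h3 : ‖h₂‖ ^ 2 ≤ N := by nlinarith [norm_nonneg h₂]
    constructor <;> nlinarith [norm_nonneg h₂, sq_nonneg ‖h₂‖]
  have hre : (-(2 * ((R₂ ^ 2 - ‖y₀‖ ^ 2 : ℝ) : ℂ)) * (starRingEnd ℂ) x₀ * h₁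
        + -(2 * ((R₁ ^ 2 - ‖x₀‖ ^ 2 : ℝ) : ℂ)) * (starRingEnd ℂ) y₀ * h₂).re =
      -(2 * (R₂ ^ 2 - ‖y₀‖ ^ 2)) * ((starRingEnd ℂ) x₀ * h₁).re
        + -(2 * (R₁ ^ 2 - ‖x₀‖ ^ 2)) * ((starRingEnd ℂ) y₀ * h₂).re := by
    have : (-(2 * ((R₂ ^ 2 - ‖y₀‖ ^ 2 : ℝ) : ℂ)) * (starRingEnd ℂ) x₀ * h₁
        + -(2 * ((R₁ ^ 2 - ‖x₀‖ ^ 2 : ℝ) : ℂ)) * (starRingEnd ℂ) y₀ * h₂) =
      ((-(2 * (R₂ ^ 2 - ‖y₀‖ ^ 2)) : ℝ) : ℂ) * ((starRingEnd ℂ) x₀ * h₁)
        + ((-(2 * (R₁ ^ 2 - ‖x₀‖ ^ 2)) : ℝ) : ℂ) * ((starRingEnd ℂ) y₀ * h₂) := by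
      push_cast; ring
    rw [this, Complex.add_re, Complex.re_ofReal_mul, Complex.re_ofReal_mul]
  simp only [] at *
  rw [hre, e1, e2]
  set α := 2 * ((starRingEnd ℂ) x₀ * h₁).re + ‖h₁‖ ^ 2 with hα
  set β := 2 * ((starRingEnd ℂ) y₀ * h₂).re + ‖h₂‖ ^ 2 with hβ
  have hαβ : -((2 * ‖x₀‖ + 1) * (2 * ‖y₀‖ + 1) * N ^ 2) ≤ α * β := by
    have h4 : |α * β| ≤ ((2 * ‖x₀‖ + 1) * N) * ((2 * ‖y₀‖ + 1) * N) := by
      rw [abs_mul]; gcongr
    have h5 := neg_abs_le (α * β)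
    nlinarith
  have s1 : ‖h₁‖ ^ 2 ≤ N ^ 2 := by gcongr
  have s2 : ‖h₂‖ ^ 2 ≤ N ^ 2 := by gcongr
  have r1 : ((starRingEnd ℂ) x₀ * h₁).re = (α - ‖h₁‖ ^ 2) / 2 := by rw [hα]; ring
  have r2 : ((starRingEnd ℂ) y₀ * h₂).re = (β - ‖h₂‖ ^ 2) / 2 := by rw [hβ]; ring
  rw [r1, r2]
  nlinarith [mul_le_mul_of_nonneg_left s1 hB.le, mul_le_mul_of_nonneg_left s2 hA.le]

/-- **Completeness from NC** (abstract form). -/
theorem complete (hNC : T.NC) {R₁ R₂ : ℝ} (hR₁ : 0 < R₁) (hR₂ : 0 < R₂) {c₁ c₂ : ℂ → X}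
    (h₁ : ∀ x ∈ ball (0:ℂ) R₁, T.E1At c₁ x) (h₂ : ∀ y ∈ ball (0:ℂ) R₂, T.E2At c₂ y)
    (h : c₁ 0 = c₂ 0) :
    ∃ G : ℂ × ℂ → X, (∀ p ∈ ball (0:ℂ) R₁ ×ˢ ball (0:ℂ) R₂, T.PCAt G p) ∧
      (∀ x ∈ ball (0 : ℂ) R₁, G (x, 0) = c₁ x) ∧ (∀ y ∈ ball (0 : ℂ) R₂, G (0, y) = c₂ y) := by
  obtain ⟨G₀, g0, g1, g2⟩ := T.init (h₁ 0 (mem_ball_self hR₁)) (h₂ 0 (mem_ball_self hR₂)) h
  have g0' : T.PCAt G₀ 0 := g0
  have hsm1 : ∀ (t : ℝ) (x : ℂ), t • ((x, 0) : ℂ × ℂ) = (t • x, 0) := fun u x => by simp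
  have hsm2 : ∀ (t : ℝ) (x : ℂ), t • ((0, x) : ℂ × ℂ) = (0, t • x) := fun u x => by simp
  have hax1 : ∀ x ∈ ball (0:ℂ) R₁, T.Ext G₀ (x, 0) ∧ T.star G₀ (x, 0) = c₁ x := by
    intro x hx
    by_cases hx0 : x = 0
    · subst hx0
      refine ⟨⟨G₀, fun t _ => by
        rw [show t • ((0, 0) : ℂ × ℂ) = 0 from smul_zero t]; exact g0', Eventually.of_forall fun _ => rfl⟩, ?_⟩
      have := (T.star_zero g0').self_of_nhds
      rw [show ((0, 0) : ℂ × ℂ) = 0 from rfl, this]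
      exact g1.self_of_nhds
    · obtain ⟨G', k1, k2, k3⟩ := T.axis1 h₁ g0' g1 hx hx0
      refine ⟨⟨G', k1, k3⟩, ?_⟩
      rw [(T.star_eq k1 k3).self_of_nhds]
      have := (k2 1 ⟨zero_le_one, le_rfl⟩).self_of_nhds
      simpa using this
  have hax2 : ∀ y ∈ ball (0:ℂ) R₂, T.Ext G₀ (0, y) ∧ T.star G₀ (0, y) = c₂ y := by
    intro x hx
    by_cases hx0 : x = 0
    · subst hx0
      refine ⟨⟨G₀, fun t _ => by
        rw [show t • ((0, 0) : ℂ × ℂ) = 0 from smul_zero t]; exact g0', Eventually.of_forall fun _ => rfl⟩, ?_⟩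
      have := (T.star_zero g0').self_of_nhds
      rw [show ((0, 0) : ℂ × ℂ) = 0 from rfl, this]
      exact g2.self_of_nhds
    · obtain ⟨G', k1, k2, k3⟩ := T.axis2 h₂ g0' g2 hx hx0
      refine ⟨⟨G', k1, k3⟩, ?_⟩
      rw [(T.star_eq k1 k3).self_of_nhds]
      have := (k2 1 ⟨zero_le_one, le_rfl⟩).self_of_nhds
      simpa using this
  have hall : ∀ p ∈ ball (0:ℂ) R₁ ×ˢ ball (0:ℂ) R₂, T.Ext G₀ p := by
    by_contra hcon
    push Not at hcon
    obtain ⟨p₁, hp₁, hnp₁⟩ := hcon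
    set f : ℂ × ℂ → ℝ := fun p => (R₁ ^ 2 - ‖p.1‖ ^ 2) * (R₂ ^ 2 - ‖p.2‖ ^ 2) with hf
    have hfc : Continuous f := by fun_prop
    have hfpos : ∀ p ∈ ball (0:ℂ) R₁ ×ˢ ball (0:ℂ) R₂, 0 < f p := by
      rintro p ⟨hp1, hp2⟩
      rw [mem_ball_zero_iff] at hp1 hp2
      have := norm_nonneg p.1
      have := norm_nonneg p.2
      exact mul_pos (by nlinarith) (by nlinarith)
    set K : Set (ℂ × ℂ) := (closedBall (0:ℂ) R₁ ×ˢ closedBall (0:ℂ) R₂) ∩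
      ({p | f p₁ ≤ f p} ∩ {p | T.Ext G₀ p}ᶜ) with hK
    have hKc : IsCompact K := by
      refine ((isCompact_closedBall _ _).prod (isCompact_closedBall _ _)).inter_right ?_
      exact (isClosed_le continuous_const hfc).inter (T.isOpen_ext G₀).isClosed_compl
    have hKne : K.Nonempty := ⟨p₁, ⟨ball_subset_closedBall hp₁.1, ball_subset_closedBall hp₁.2⟩,
      (show f p₁ ≤ f p₁ from le_rfl), hnp₁⟩
    obtain ⟨q, hqK, hqmax⟩ := hKc.exists_isMaxOn hKne hfc.continuousOn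
    obtain ⟨⟨hq1, hq2⟩, hqf, hqn⟩ := hqK
    simp only [mem_setOf_eq, mem_compl_iff] at hqf hqn
    have hfq : 0 < f q := (hfpos p₁ hp₁).trans_le hqf
    rw [mem_closedBall_zero_iff] at hq1 hq2
    have hq1' : ‖q.1‖ < R₁ := by
      rcases hq1.lt_or_eq with h | h
      · exact h
      · rw [hf] at hfq; simp only [h, sub_self, zero_mul, lt_self_iff_false] at hfq
    have hq2' : ‖q.2‖ < R₂ := by
      rcases hq2.lt_or_eq with h | h
      · exact h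
      · rw [hf] at hfq; simp only [h, sub_self, mul_zero, lt_self_iff_false] at hfq
    have hqb : q ∈ ball (0:ℂ) R₁ ×ˢ ball (0:ℂ) R₂ := by
      constructor <;> rw [mem_ball_zero_iff] <;> assumption
    have hgood : ∀ p ∈ ball (0:ℂ) R₁ ×ˢ ball (0:ℂ) R₂, f q < f p → T.Ext G₀ p := by
      intro p hp hlt
      by_contra hne
      have : p ∈ K := ⟨⟨ball_subset_closedBall hp.1, ball_subset_closedBall hp.2⟩,
        hqf.trans hlt.le, hne⟩
      exact absurd (hqmax this) (not_le.2 hlt)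
    have hx0 : q.1 ≠ 0 := by
      intro h0
      apply hqn
      have := (hax2 q.2 hqb.2).1
      rwa [show ((0, q.2) : ℂ × ℂ) = q from by rw [← h0]] at this
    have hy0 : q.2 ≠ 0 := by
      intro h0
      apply hqn
      have := (hax1 q.1 hqb.1).1
      rwa [show ((q.1, 0) : ℂ × ℂ) = q from by rw [← h0]] at this
    have hq0 : q ≠ 0 := fun h0 => hx0 (by rw [h0]; rfl)
    have hA : 0 < R₁ ^ 2 - ‖q.1‖ ^ 2 := by nlinarith [norm_nonneg q.1]
    have hB : 0 < R₂ ^ 2 - ‖q.2‖ ^ 2 := by nlinarith [norm_nonneg q.2]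
    obtain ⟨C, hC, hpoly⟩ := sweep_poly (R₁ := R₁) (R₂ := R₂) (x₀ := q.1) (y₀ := q.2) hq1' hq2'
    set l : ℂ := -(2 * (R₂ ^ 2 - ‖q.2‖ ^ 2 : ℝ)) * (starRingEnd ℂ) q.1 with hl
    set m : ℂ := -(2 * (R₁ ^ 2 - ‖q.1‖ ^ 2 : ℝ)) * (starRingEnd ℂ) q.2 with hm
    have hl0 : l ≠ 0 := by
      rw [hl]
      refine mul_ne_zero (neg_ne_zero.2 (mul_ne_zero two_ne_zero ?_)) ?_
      · exact_mod_cast hB.ne'
      · simpa using hx0
    have hm0 : m ≠ 0 := by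
      rw [hm]
      refine mul_ne_zero (neg_ne_zero.2 (mul_ne_zero two_ne_zero ?_)) ?_
      · exact_mod_cast hA.ne'
      · simpa using hy0
    -- a small ball around q inside the bidisc
    have hopen : IsOpen (ball (0:ℂ) R₁ ×ˢ ball (0:ℂ) R₂) := isOpen_ball.prod isOpen_ball
    obtain ⟨d, hd, hdsub⟩ := Metric.isOpen_iff.1 hopen q hqb
    obtain ⟨G', hG', hG'v⟩ := hNC (T.star G₀) q l m C (min d 1) hl0 hm0 hC (lt_min hd one_pos) (by
      intro p hp hlt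
      refine T.star_pc (hgood p (hdsub (ball_subset_ball (min_le_left _ _) hp)) ?_)
      have hpn : ‖p - q‖ ≤ 1 := by
        rw [mem_ball, dist_eq_norm] at hp
        exact (hp.trans_le (min_le_right _ _)).le
      have := hpoly (p - q) hpn
      simp only [Prod.fst_sub, Prod.snd_sub, add_sub_cancel] at this
      simp only [hf]
      linarith)
    have hv : 0 < (l * (-q).1 + m * (-q).2).re := by
      have e1 : l * (-q).1 + m * (-q).2 =
          ((2 * (R₂ ^ 2 - ‖q.2‖ ^ 2) * ‖q.1‖ ^ 2 + 2 * (R₁ ^ 2 - ‖q.1‖ ^ 2) * ‖q.2‖ ^ 2 : ℝ) : ℂ) := by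
        have a1 : (starRingEnd ℂ) q.1 * q.1 = ((‖q.1‖ ^ 2 : ℝ) : ℂ) := by
          rw [mul_comm, Complex.mul_conj, Complex.normSq_eq_norm_sq]
        have a2 : (starRingEnd ℂ) q.2 * q.2 = ((‖q.2‖ ^ 2 : ℝ) : ℂ) := by
          rw [mul_comm, Complex.mul_conj, Complex.normSq_eq_norm_sq]
        rw [hl, hm, Prod.fst_neg, Prod.snd_neg]
        push_cast
        push_cast at a1 a2
        linear_combination (2 * ((R₂:ℂ) ^ 2 - (‖q.2‖:ℂ) ^ 2)) * a1 + (2 * ((R₁:ℂ) ^ 2 - (‖q.1‖:ℂ) ^ 2)) * a2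
      rw [e1, Complex.ofReal_re]
      have := norm_pos_iff.2 hx0
      have := norm_pos_iff.2 hy0
      positivity
    have hev := hG'v (-q) hv
    -- G' p.c. near q along the ray
    have hev2 : ∀ᶠ t : ℝ in 𝓝 0, T.PCAt G' (q + t • (-q)) := by
      have hc : Continuous (fun t : ℝ => q + t • (-q)) := by fun_prop
      have : Tendsto (fun t : ℝ => q + t • (-q)) (𝓝 0) (𝓝 q) := by
        have := hc.tendsto 0
        simpa using this
      exact this.eventually (T.pc_open hG')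
    obtain ⟨δ, hδ, hδball⟩ := Metric.eventually_nhds_iff_ball.1 hev2
    have hev3 : ∀ᶠ t : ℝ in 𝓝[>] 0, t ∈ Ioo (0:ℝ) (min δ 1) :=
      Ioo_mem_nhdsGT (lt_min hδ one_pos)
    obtain ⟨t, ht1, ht2⟩ := (hev.and hev3).exists
    have hray : ∀ u : ℝ, q + u • (-q) = (1 - u) • q := fun u => by
      rw [sub_smul, one_smul, smul_neg, sub_eq_add_neg]
    rw [hray] at ht1
    obtain ⟨H, H1, H2⟩ := glue_ray hq0 ht1
    have ht0 : 0 < t := ht2.1
    have htδ : t < δ := ht2.2.trans_le (min_le_left _ _)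
    have htl : t < 1 := ht2.2.trans_le (min_le_right _ _)
    have hfray : ∀ u ∈ Ico (0:ℝ) 1, u • q ∈ ball (0:ℂ) R₁ ×ˢ ball (0:ℂ) R₂ ∧ f q < f (u • q) := by
      intro u hu
      have n1 : ‖(u • q).1‖ = u * ‖q.1‖ := by
        rw [Prod.smul_fst, norm_smul, Real.norm_of_nonneg hu.1]
      have n2 : ‖(u • q).2‖ = u * ‖q.2‖ := by
        rw [Prod.smul_snd, norm_smul, Real.norm_of_nonneg hu.1]
      have p1 := norm_pos_iff.2 hx0
      have p2 := norm_pos_iff.2 hy0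
      have l1 : u * ‖q.1‖ < ‖q.1‖ := by nlinarith [hu.2]
      have l2 : u * ‖q.2‖ < ‖q.2‖ := by nlinarith [hu.2]
      have m1 : 0 ≤ u * ‖q.1‖ := mul_nonneg hu.1 p1.le
      have m2 : 0 ≤ u * ‖q.2‖ := mul_nonneg hu.1 p2.le
      refine ⟨⟨?_, ?_⟩, ?_⟩
      · rw [mem_ball_zero_iff, n1]; linarith
      · rw [mem_ball_zero_iff, n2]; linarith
      · simp only [hf]
        rw [n1, n2]
        have k1 : R₁ ^ 2 - ‖q.1‖ ^ 2 < R₁ ^ 2 - (u * ‖q.1‖) ^ 2 := by nlinarith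
        have k2 : R₂ ^ 2 - ‖q.2‖ ^ 2 < R₂ ^ 2 - (u * ‖q.2‖) ^ 2 := by nlinarith
        exact mul_lt_mul'' k1 k2 hA.le hB.le
    apply hqn
    refine ⟨H, ?_, ?_⟩
    · intro u hu
      rcases le_total u (1 - t) with hle | hle
      · refine T.pc_congr (H1 u hle).symm (T.star_pc ?_)
        have := hfray u ⟨hu.1, by linarith⟩
        exact hgood _ this.1 this.2
      · refine T.pc_congr (H2 u hle).symm ?_
        have := hδball (1 - u) (by
          rw [mem_ball, dist_zero_right, Real.norm_eq_abs, abs_lt]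
          constructor <;> linarith [hu.2])
        rw [hray] at this
        simpa using this
    · have := H1 0 (by linarith)
      rw [zero_smul] at this
      exact this.trans (T.star_zero g0')
  exact ⟨T.star G₀, fun p hp => T.star_pc (hall p hp), fun x hx => (hax1 x hx).2,
    fun y hy => (hax2 y hy).2⟩

end PCTheory

end Crest.Agent.R266
end

-- ▼ part R266/SweepFinal

/-!
Row 266, S0405, step (2): completeness of a product-foliated atlas from the no-contact theorem.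
-/

set_option autoImplicit false

open scoped Manifold ContDiff Topology
open Set Filter Metric

namespace Crest.Agent.R266

section
variable {n₁ n₂ : ℕ} {X : Type} [TopologicalSpace X] {A : PFol n₁ n₂ X}

lemma isPC_single_congr {G G' : ℂ × ℂ → X} {p : ℂ × ℂ} (h : G =ᶠ[𝓝 p] G')
    (hp : IsPC A {p} G) : IsPC A {p} G' := by
  rintro z rfl
  obtain ⟨i, a, b, ha, hb, hev⟩ := hp z rfl
  refine ⟨i, a, b, ha, hb, ?_⟩
  filter_upwards [hev, h] with w h1 h2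
  rw [← h2]; exact h1

lemma isPC_single_open {G : ℂ × ℂ → X} {p : ℂ × ℂ} (hp : IsPC A {p} G) :
    ∀ᶠ q in 𝓝 p, IsPC A {q} G := by
  obtain ⟨i, a, b, ha, hb, hev⟩ := hp p rfl
  have h1 : ∀ᶠ q : ℂ × ℂ in 𝓝 p, AnalyticAt ℂ a q.1 :=
    (continuous_fst.tendsto p).eventually ha.eventually_analyticAt
  have h2 : ∀ᶠ q : ℂ × ℂ in 𝓝 p, AnalyticAt ℂ b q.2 :=
    (continuous_snd.tendsto p).eventually hb.eventually_analyticAt
  filter_upwards [h1, h2, hev.eventually_nhds] with q k1 k2 k3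
  rintro z rfl
  exact ⟨i, a, b, k1, k2, k3⟩

lemma isPC_single_ident (hu : St_unique A) {G G' : ℂ × ℂ → X} {p : ℂ × ℂ}
    (h : IsPC A {p} G) (h' : IsPC A {p} G') (hf : ∃ᶠ q in 𝓝 p, G =ᶠ[𝓝 q] G') :
    G =ᶠ[𝓝 p] G' := by
  obtain ⟨ε, hε, hb⟩ := Metric.eventually_nhds_iff_ball.1
    ((isPC_single_open h).and (isPC_single_open h'))
  obtain ⟨q, hq1, hq2⟩ := (hf.and_eventually (ball_mem_nhds p hε)).exists
  have := hu (ball p ε) G G' isOpen_ball (convex_ball p ε).isPreconnected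
    (fun z hz => (hb z hz).1 z rfl) (fun z hz => (hb z hz).2 z rfl) ⟨q, hq2, hq1⟩
  filter_upwards [ball_mem_nhds p hε] with z hz using this z hz

lemma isPC_comp_affine {G : ℂ × ℂ → X} {w : ℂ × ℂ} (a₁ a₂ c₁ c₂ : ℂ)
    (h : IsPC A {(c₁ + a₁ * w.1, c₂ + a₂ * w.2)} G) :
    IsPC A {w} (fun z => G (c₁ + a₁ * z.1, c₂ + a₂ * z.2)) := by
  rintro z rfl
  obtain ⟨i, a, b, ha, hb, hev⟩ := h _ rfl
  refine ⟨i, fun x => a (c₁ + a₁ * x), fun y => b (c₂ + a₂ * y), ?_, ?_, ?_⟩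
  · exact AnalyticAt.fun_comp (g := a) ha (by fun_prop)
  · exact AnalyticAt.fun_comp (g := b) hb (by fun_prop)
  · have hc : Continuous (fun z : ℂ × ℂ => (c₁ + a₁ * z.1, c₂ + a₂ * z.2)) := by fun_prop
    exact hc.continuousAt.eventually hev

lemma ax1_aux (hc : St_chart A) {c : ℂ → X} {x₀ : ℂ} (h : IsE1 A {x₀} c) :
    ∃ r > 0, ∀ (G : ℂ × ℂ → X) (y₀ x₁ : ℂ),
    x₁ ∈ ball x₀ r → IsPC A {(x₁, y₀)} G → (∀ᶠ x in 𝓝 x₁, G (x, y₀) = c x) →
    ∃ G' : ℂ × ℂ → X, (∀ x ∈ ball x₀ r, IsPC A {(x, y₀)} G') ∧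
      (∀ x ∈ ball x₀ r, G' (x, y₀) = c x) ∧ G' =ᶠ[𝓝 (x₁, y₀)] G := by
  obtain ⟨i, a, b, ha, hev⟩ := h x₀ rfl
  obtain ⟨r, hr, hball⟩ := Metric.eventually_nhds_iff_ball.1 (ha.eventually_analyticAt.and hev)
  refine ⟨r, hr, fun G y₀ x₁ hx₁ hG hGc => ?_⟩
  have hGx : G (x₁, y₀) = c x₁ := hGc.self_of_nhds
  have hsrc : G (x₁, y₀) ∈ (A.ch i).source := by rw [hGx]; exact (hball x₁ hx₁).2.1
  obtain ⟨a', b', ha', hb', hev'⟩ := hc _ G hG (x₁, y₀) rfl i hsrc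
  have hcont : Continuous (fun x : ℂ => ((x, y₀) : ℂ × ℂ)) := by fun_prop
  have hb0 : b' y₀ = b := by
    have h1 := hev'.self_of_nhds.2
    rw [hGx, (hball x₁ hx₁).2.2] at h1
    exact (congrArg Prod.snd h1).symm
  have ha0 : a' =ᶠ[𝓝 x₁] a := by
    filter_upwards [hcont.continuousAt.eventually hev', hGc, isOpen_ball.mem_nhds hx₁]
      with x h1 h2 h3
    have := h1.2
    rw [h2, (hball x h3).2.2] at this
    exact (congrArg Prod.fst this).symm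
  refine ⟨fun w => (A.ch i).symm (a w.1, b' w.2), ?_, ?_, ?_⟩
  · intro x hx
    rintro z rfl
    have hx' := hball x hx
    refine ⟨i, a, b', hx'.1, hb', ?_⟩
    have htar : ((a x, b' y₀) : EV n₁ × EV n₂) ∈ (A.ch i).target := by
      rw [hb0, ← hx'.2.2]; exact (A.ch i).map_source hx'.2.1
    have hct : ContinuousAt (fun w : ℂ × ℂ => (a w.1, b' w.2)) (x, y₀) := by
      refine ContinuousAt.prodMk ?_ ?_
      · exact ContinuousAt.comp (f := Prod.fst) (g := a) (x := (x, y₀)) hx'.1.continuousAt continuousAt_fst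
      · exact ContinuousAt.comp (f := Prod.snd) (g := b') (x := (x, y₀)) hb'.continuousAt continuousAt_snd
    have := hct.eventually ((A.ch i).open_target.mem_nhds htar)
    filter_upwards [this] with w hw
    exact ⟨(A.ch i).map_target hw, (A.ch i).right_inv hw⟩
  · intro x hx
    have hx' := hball x hx
    simp only
    rw [hb0, ← hx'.2.2, (A.ch i).left_inv hx'.2.1]
  · have h1 : ∀ᶠ w : ℂ × ℂ in 𝓝 (x₁, y₀), a' w.1 = a w.1 :=
      (continuous_fst.tendsto (x₁, y₀)).eventually ha0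
    filter_upwards [hev', h1] with w k1 k2
    rw [← k2, ← k1.2, (A.ch i).left_inv k1.1]

lemma ax2_aux (hc : St_chart A) {c : ℂ → X} {y₀ : ℂ} (h : IsE2 A {y₀} c) :
    ∃ r > 0, ∀ (G : ℂ × ℂ → X) (x₀ y₁ : ℂ),
    y₁ ∈ ball y₀ r → IsPC A {(x₀, y₁)} G → (∀ᶠ y in 𝓝 y₁, G (x₀, y) = c y) →
    ∃ G' : ℂ × ℂ → X, (∀ y ∈ ball y₀ r, IsPC A {(x₀, y)} G') ∧
      (∀ y ∈ ball y₀ r, G' (x₀, y) = c y) ∧ G' =ᶠ[𝓝 (x₀, y₁)] G := by
  obtain ⟨i, a, b, hb, hev⟩ := h y₀ rfl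
  obtain ⟨r, hr, hball⟩ := Metric.eventually_nhds_iff_ball.1 (hb.eventually_analyticAt.and hev)
  refine ⟨r, hr, fun G x₀ y₁ hy₁ hG hGc => ?_⟩
  have hGx : G (x₀, y₁) = c y₁ := hGc.self_of_nhds
  have hsrc : G (x₀, y₁) ∈ (A.ch i).source := by rw [hGx]; exact (hball y₁ hy₁).2.1
  obtain ⟨a', b', ha', hb', hev'⟩ := hc _ G hG (x₀, y₁) rfl i hsrc
  have hcont : Continuous (fun y : ℂ => ((x₀, y) : ℂ × ℂ)) := by fun_prop
  have ha0 : a' x₀ = a := by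
    have h1 := hev'.self_of_nhds.2
    rw [hGx, (hball y₁ hy₁).2.2] at h1
    exact (congrArg Prod.fst h1).symm
  have hb0 : b' =ᶠ[𝓝 y₁] b := by
    filter_upwards [hcont.continuousAt.eventually hev', hGc, isOpen_ball.mem_nhds hy₁]
      with y h1 h2 h3
    have := h1.2
    rw [h2, (hball y h3).2.2] at this
    exact (congrArg Prod.snd this).symm
  refine ⟨fun w => (A.ch i).symm (a' w.1, b w.2), ?_, ?_, ?_⟩
  · intro y hy
    rintro z rfl
    have hy' := hball y hy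
    refine ⟨i, a', b, ha', hy'.1, ?_⟩
    have htar : ((a' x₀, b y) : EV n₁ × EV n₂) ∈ (A.ch i).target := by
      rw [ha0, ← hy'.2.2]; exact (A.ch i).map_source hy'.2.1
    have hct : ContinuousAt (fun w : ℂ × ℂ => (a' w.1, b w.2)) (x₀, y) := by
      refine ContinuousAt.prodMk ?_ ?_
      · exact ContinuousAt.comp (f := Prod.fst) (g := a') (x := (x₀, y)) ha'.continuousAt continuousAt_fst
      · exact ContinuousAt.comp (f := Prod.snd) (g := b) (x := (x₀, y)) hy'.1.continuousAt continuousAt_snd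
    have := hct.eventually ((A.ch i).open_target.mem_nhds htar)
    filter_upwards [this] with w hw
    exact ⟨(A.ch i).map_target hw, (A.ch i).right_inv hw⟩
  · intro y hy
    have hy' := hball y hy
    simp only
    rw [ha0, ← hy'.2.2, (A.ch i).left_inv hy'.2.1]
  · have h1 : ∀ᶠ w : ℂ × ℂ in 𝓝 (x₀, y₁), b' w.2 = b w.2 :=
      (continuous_snd.tendsto (x₀, y₁)).eventually hb0
    filter_upwards [hev', h1] with w k1 k2
    rw [← k2, ← k1.2, (A.ch i).left_inv k1.1]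

lemma init_aux (hc : St_chart A) {c₁ c₂ : ℂ → X} {x₀ y₀ : ℂ} (h1 : IsE1 A {x₀} c₁)
    (h2 : IsE2 A {y₀} c₂) (h : c₁ x₀ = c₂ y₀) :
    ∃ G : ℂ × ℂ → X, IsPC A {(x₀, y₀)} G ∧ (∀ᶠ x in 𝓝 x₀, G (x, y₀) = c₁ x) ∧
      (∀ᶠ y in 𝓝 y₀, G (x₀, y) = c₂ y) := by
  -- view `c₂` as a p.c. map
  have hpc : IsPC A {(x₀, y₀)} (fun w => c₂ w.2) := by
    rintro z rfl
    obtain ⟨i, a, b, hb, hev⟩ := h2 y₀ rfl
    refine ⟨i, fun _ => a, b, analyticAt_const, hb, ?_⟩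
    exact (continuous_snd.tendsto (x₀, y₀)).eventually hev
  obtain ⟨r, hr, H⟩ := ax1_aux hc h1
  -- we glue in the chart of `c₁` at `x₀`
  obtain ⟨i, a, b, ha, hev⟩ := h1 x₀ rfl
  have hsrc : c₂ y₀ ∈ (A.ch i).source := by rw [← h]; exact hev.self_of_nhds.1
  obtain ⟨a', b', ha', hb', hev'⟩ := hc _ _ hpc (x₀, y₀) rfl i hsrc
  have e0 := hev'.self_of_nhds.2
  have e1 := hev.self_of_nhds.2
  rw [h] at e1
  simp only at e0
  rw [e1] at e0
  have hb0 : b' y₀ = b := (congrArg Prod.snd e0).symm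
  have ha0 : a' x₀ = a x₀ := (congrArg Prod.fst e0).symm
  refine ⟨fun w => (A.ch i).symm (a w.1, b' w.2), ?_, ?_, ?_⟩
  · rintro z rfl
    refine ⟨i, a, b', ha, hb', ?_⟩
    have htar : ((a x₀, b' y₀) : EV n₁ × EV n₂) ∈ (A.ch i).target := by
      rw [hb0, ← e1]; exact (A.ch i).map_source hsrc
    have hct : ContinuousAt (fun w : ℂ × ℂ => (a w.1, b' w.2)) (x₀, y₀) := by
      refine ContinuousAt.prodMk ?_ ?_
      · exact ContinuousAt.comp (f := Prod.fst) (g := a) (x := (x₀, y₀)) ha.continuousAt continuousAt_fst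
      · exact ContinuousAt.comp (f := Prod.snd) (g := b') (x := (x₀, y₀)) hb'.continuousAt continuousAt_snd
    have := hct.eventually ((A.ch i).open_target.mem_nhds htar)
    filter_upwards [this] with w hw
    exact ⟨(A.ch i).map_target hw, (A.ch i).right_inv hw⟩
  · filter_upwards [hev] with x hx
    rw [hb0, ← hx.2, (A.ch i).left_inv hx.1]
  · have hcont : Continuous (fun y : ℂ => ((x₀, y) : ℂ × ℂ)) := by fun_prop
    filter_upwards [hcont.continuousAt.eventually hev'] with y hy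

    rw [← ha0, ← hy.2, (A.ch i).left_inv hy.1]

/-- the p.c. theory of a product-foliated atlas -/
def theory (hu : St_unique A) (hc : St_chart A) : PCTheory X where
  PCAt G p := IsPC A {p} G
  E1At c t := IsE1 A {t} c
  E2At c t := IsE2 A {t} c
  pc_congr := isPC_single_congr
  pc_open := isPC_single_open
  pc_ident := isPC_single_ident hu
  ax1 := ax1_aux hc
  ax2 := ax2_aux hc
  init := init_aux hc

lemma isOpen_GD_par (ε C : ℝ) : IsOpen (GD ε (par C)) := by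
  have h1 : Continuous (fun z : ℂ × ℂ => ‖tau z‖) := by unfold tau; fun_prop
  have h2 : Continuous (fun z : ℂ × ℂ => |eta z|) := by
    unfold eta
    exact (Complex.continuous_im.comp (by fun_prop)).abs
  have h3 : Continuous (fun z : ℂ × ℂ => par C (tau z) (eta z)) := by
    unfold par tau eta
    have : Continuous (fun z : ℂ × ℂ => (z.1 + z.2).im) := Complex.continuous_im.comp (by fun_prop)
    fun_prop
  have h4 : Continuous (fun z : ℂ × ℂ => XX z) := by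
    unfold XX
    exact Complex.continuous_re.comp (by fun_prop)
  exact (isOpen_lt h1 continuous_const).inter ((isOpen_lt h2 continuous_const).inter
    ((isOpen_lt h3 h4).inter (isOpen_lt h4 continuous_const)))

lemma norm_sq_le_par (w : ℂ × ℂ) : ‖w‖ ^ 2 ≤ (XX w ^ 2 + eta w ^ 2 + ‖tau w‖ ^ 2) / 2 := by
  have hZ : XX w ^ 2 + eta w ^ 2 = ‖w.1 + w.2‖ ^ 2 := by
    rw [← Complex.normSq_eq_norm_sq, Complex.normSq_apply]; unfold XX eta; ring
  have key : ∀ u v : ℂ, ‖u‖ ^ 2 ≤ (‖u + v‖ ^ 2 + ‖u - v‖ ^ 2) / 2 := by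
    intro u v
    have := parallelogram_law_with_norm ℝ u v
    nlinarith [norm_nonneg v]
  rw [hZ]
  unfold tau
  rcases max_choice ‖w.1‖ ‖w.2‖ with h | h
  · have : ‖w‖ = ‖w.1‖ := by rw [Prod.norm_def, h]
    rw [this]; exact key _ _
  · have : ‖w‖ = ‖w.2‖ := by rw [Prod.norm_def, h]
    rw [this, add_comm w.1, ← norm_neg (w.1 - w.2), neg_sub]; exact key _ _

lemma theory_NC (hu : St_unique A) (hc : St_chart A) (hNC : St_NC A) : (theory hu hc).NC := by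
  intro G q l m C d hl hm hC hd hreg
  change ∀ p ∈ ball q d, _ → IsPC A {p} G at hreg
  set K : ℝ := max ‖l⁻¹‖ ‖m⁻¹‖ with hK
  have hK0 : 0 < K := lt_max_of_lt_left (norm_pos_iff.2 (inv_ne_zero hl))
  set C₁ : ℝ := C * K ^ 2 + 1 with hC₁
  have hC₁0 : 0 < C₁ := by positivity
  set ε : ℝ := min (1 / C₁) (d / (4 * K)) with hε
  have hε0 : 0 < ε := lt_min (by positivity) (by positivity)
  have hε1 : C₁ * ε ≤ 1 := by
    have : ε ≤ 1 / C₁ := min_le_left _ _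
    rw [le_div_iff₀ hC₁0] at this
    linarith
  have hε2 : 4 * K * ε ≤ d := by
    have : ε ≤ d / (4 * K) := min_le_right _ _
    rw [le_div_iff₀ (by positivity)] at this
    linarith
  set L : ℂ × ℂ → ℂ × ℂ := fun w => (q.1 + l⁻¹ * w.1, q.2 + m⁻¹ * w.2) with hL
  have hLn : ∀ w, ‖L w - q‖ ≤ K * ‖w‖ := by
    intro w
    have e : L w - q = (l⁻¹ * w.1, m⁻¹ * w.2) := by
      ext <;> simp [hL]
    rw [e, Prod.norm_def]
    refine max_le ?_ ?_
    · rw [norm_mul]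
      exact mul_le_mul (le_max_left _ _) (norm_fst_le w) (norm_nonneg _) hK0.le
    · rw [norm_mul]
      exact mul_le_mul (le_max_right _ _) (norm_snd_le w) (norm_nonneg _) hK0.le
  have hLre : ∀ w, (l * ((L w).1 - q.1) + m * ((L w).2 - q.2)).re = XX w := by
    intro w
    unfold XX
    simp only [hL, add_sub_cancel_left]
    rw [mul_inv_cancel_left₀ hl, mul_inv_cancel_left₀ hm]
  have hpc : IsPC A (GD ε (par C₁)) (fun w => G (L w)) := by
    intro w hw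
    have hmem : L w ∈ ball q d ∧
        C * ‖L w - q‖ ^ 2 < (l * ((L w).1 - q.1) + m * ((L w).2 - q.2)).re := by
      obtain ⟨w1, w2, w3, w4⟩ := hw
      have hn := norm_sq_le_par w
      have hX : 0 < XX w := lt_of_le_of_lt (by unfold par; positivity) w3
      have hpar : C₁ * (‖tau w‖ ^ 2 + eta w ^ 2) < XX w := w3
      constructor
      · rw [mem_ball, dist_eq_norm]
        have h3 : ‖w‖ ^ 2 ≤ (2 * ε) ^ 2 := by
          have a1 : XX w ^ 2 ≤ ε ^ 2 := by nlinarith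
          have a2 : eta w ^ 2 ≤ ε ^ 2 := by
            rw [← sq_abs]; nlinarith [abs_nonneg (eta w)]
          have a3 : ‖tau w‖ ^ 2 ≤ ε ^ 2 := by nlinarith [norm_nonneg (tau w)]
          nlinarith
        have h4 : ‖w‖ ≤ 2 * ε := by
          exact (pow_le_pow_iff_left₀ (norm_nonneg _) (by positivity) two_ne_zero).1 h3
        calc ‖L w - q‖ ≤ K * ‖w‖ := hLn w
          _ ≤ K * (2 * ε) := by gcongr
          _ < d := by nlinarith
      · rw [hLre]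
        have h5 : ‖L w - q‖ ^ 2 ≤ K ^ 2 * ‖w‖ ^ 2 := by
          rw [← mul_pow]; exact pow_le_pow_left₀ (norm_nonneg _) (hLn w) 2
        have h6 : C * ‖L w - q‖ ^ 2 ≤ (C₁ - 1) * ((XX w ^ 2 + eta w ^ 2 + ‖tau w‖ ^ 2) / 2) := by
          calc C * ‖L w - q‖ ^ 2 ≤ C * (K ^ 2 * ‖w‖ ^ 2) := by gcongr
            _ = (C₁ - 1) * ‖w‖ ^ 2 := by rw [hC₁]; ring
            _ ≤ _ := by
              refine mul_le_mul_of_nonneg_left hn ?_
              rw [hC₁]; simp; positivity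
        have h7 : C₁ * XX w ^ 2 ≤ XX w := by
          have : C₁ * XX w ≤ 1 := le_trans (by gcongr) hε1
          nlinarith
        nlinarith [sq_nonneg (XX w), sq_nonneg (eta w), sq_nonneg ‖tau w‖]
    have h8 := hreg (L w) hmem.1 hmem.2
    exact isPC_comp_affine (G := G) l⁻¹ m⁻¹ q.1 q.2 h8 w rfl
  obtain ⟨ρ, hρ, G', hG', hEq⟩ := hNC ε C₁ _ hε0 hC₁0 hpc
  set Li : ℂ × ℂ → ℂ × ℂ := fun p => (-(l * q.1) + l * p.1, -(m * q.2) + m * p.2) with hLi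
  have hLi0 : Li q = 0 := by simp [hLi]
  have hLL : ∀ p, L (Li p) = p := by
    intro p
    simp only [hL, hLi]
    ext
    · simp only; field_simp; ring
    · simp only; field_simp; ring
  refine ⟨fun p => G' (Li p), ?_, ?_⟩
  · change IsPC A {q} _
    have : IsPC A {((-(l * q.1) + l * q.1, -(m * q.2) + m * q.2) : ℂ × ℂ)} G' := by
      intro z hz
      rw [mem_singleton_iff] at hz
      subst hz
      apply hG'
      have : ((-(l * q.1) + l * q.1, -(m * q.2) + m * q.2) : ℂ × ℂ) = 0 := hLi0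
      rw [this]; exact mem_ball_self hρ
    exact isPC_comp_affine l m (-(l * q.1)) (-(m * q.2)) this
  · intro v hv
    set u : ℂ × ℂ := (l * v.1, m * v.2) with hu'
    have hLiv : ∀ t : ℝ, Li (q + t • v) = t • u := by
      intro t
      simp only [hLi, hu']
      ext
      · simp; ring
      · simp; ring
    have hXu : 0 < XX u := by
      unfold XX; exact hv
    have hopen : IsOpen (ball (0 : ℂ × ℂ) ρ ∩ GD ε (par C₁)) := isOpen_ball.inter (isOpen_GD_par _ _)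
    -- small t
    have hsmall : ∀ᶠ t : ℝ in 𝓝[>] 0, t • u ∈ ball (0 : ℂ × ℂ) ρ ∩ GD ε (par C₁) := by
      have c1 : ∀ᶠ t : ℝ in 𝓝[>] 0, t • u ∈ ball (0 : ℂ × ℂ) ρ := by
        have hc : Continuous (fun t : ℝ => t • u) := by fun_prop
        have : Tendsto (fun t : ℝ => t • u) (𝓝[>] 0) (𝓝 0) := by
          have := (hc.tendsto 0).mono_left (nhdsWithin_le_nhds (s := Ioi 0))
          simpa using this
        exact this.eventually (ball_mem_nhds _ hρ)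
      have c2 : ∀ a b : ℝ, 0 < b → ∀ᶠ t : ℝ in 𝓝[>] 0, t * a < b := by
        intro a b hb
        have hc : Continuous (fun t : ℝ => t * a) := by fun_prop
        have : Tendsto (fun t : ℝ => t * a) (𝓝[>] 0) (𝓝 0) := by
          have := (hc.tendsto 0).mono_left (nhdsWithin_le_nhds (s := Ioi 0))
          simpa using this
        exact this.eventually (eventually_lt_nhds hb)
      filter_upwards [c1, c2 ‖tau u‖ ε hε0, c2 |eta u| ε hε0, c2 (XX u) ε hε0,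
        c2 (par C₁ (tau u) (eta u)) (XX u) hXu, self_mem_nhdsWithin] with t t1 t2 t3 t4 t5 t6
      have ht0 : 0 < t := t6
      have htau : tau (t • u) = (t : ℂ) * tau u := by
        unfold tau; simp; ring
      have heta : eta (t • u) = t * eta u := by
        unfold eta; simp; ring
      have hXX : XX (t • u) = t * XX u := by
        unfold XX; simp; ring
      refine ⟨t1, ?_, ?_, ?_, ?_⟩
      · rw [htau, norm_mul, Complex.norm_real, Real.norm_of_nonneg ht0.le]; exact t2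
      · rw [heta, abs_mul, abs_of_pos ht0]; exact t3
      · rw [hXX]
        have : par C₁ (tau (t • u)) (eta (t • u)) = t * (t * par C₁ (tau u) (eta u)) := by
          rw [htau, heta]; unfold par
          rw [norm_mul, Complex.norm_real, Real.norm_of_nonneg ht0.le]; ring
        rw [this]
        exact mul_lt_mul_of_pos_left t5 ht0
      · rw [hXX]; exact t4
    filter_upwards [hsmall] with t ht
    have hLic : Continuous Li := by simp only [hLi]; fun_prop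
    have h9 : ∀ᶠ p in 𝓝 (q + t • v), Li p ∈ ball (0 : ℂ × ℂ) ρ ∩ GD ε (par C₁) := by
      refine hLic.continuousAt.eventually (hopen.mem_nhds ?_)
      rw [hLiv]; exact ht
    filter_upwards [h9] with p hp
    rw [hEq _ hp]
    rw [hLL]

/-- **SWEEP**: completeness from the no-contact theorem. -/
theorem completeness_of_NC (A : PFol n₁ n₂ X) (hu : St_unique A) (hc : St_chart A)
    (hNC : St_NC A) : Completeness A := by
  intro R₁ R₂ c₁ c₂ hR₁ hR₂ h₁ h₂ h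
  obtain ⟨G, g1, g2, g3⟩ := (theory hu hc).complete (theory_NC hu hc hNC) hR₁ hR₂
    (c₁ := c₁) (c₂ := c₂)
    (fun x hx => by rintro z rfl; exact h₁ z hx) (fun y hy => by rintro z rfl; exact h₂ z hy) h
  exact ⟨G, fun z hz => g1 z hz z rfl, g2, g3⟩

end

end Crest.Agent.R266
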