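import Crest.Agent.R266.E0W_Mg
import Crest.Agent.R266.CE
import Crest.Agent.R266.AreaD_Mg
import Crest.Agent.R266.LemD
import Crest.Agent.R266.SweepFinal_Mg
import Crest.Agent.R266.Stokes
import Crest.Agent.R266.MaxGraph
import Crest.Agent.R266.Punct_Mg
import Crest.Agent.R266.GBasic
import Mathlib
import Crest.Agent.R266.GlobDefs
import Crest.Agent.R266.AnaChart
import Crest.Agent.R266.GComp

-- ▼ part R266/Core405
section

/-!
R266 / Core405 (helper266): assembly of the analytic core of S0405: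
compact Hausdorff `X`, finite product-foliated atlas with a Kähler metric ⟹ `Completeness A`.
-/

set_option autoImplicit false

open scoped Manifold ContDiff Topology ENNReal
open Set Metric Filter MeasureTheory

namespace Crest.Agent.R266

section
variable {n₁ n₂ : ℕ} {X : Type} [TopologicalSpace X] [T2Space X]

theorem CE_holds {A : PFol n₁ n₂ X} [Finite A.ι] (K : KMet A) : St_CE K :=
  CE_of_E0 K (chart_holds A) (E0.E0_holds K)

theorem D_of_punct {A : PFol n₁ n₂ X} [Finite A.ι] (K : KMet A) (hPu : St_punct K) : St_D K :=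
  LemD.st_D_of K (unique_holds A) (CE_holds K) (pull_holds (chart_holds A) K)
    (area_holds K (pull_holds (chart_holds A) K) (slack_holds (chart_holds A) K)) hPu

/-- the core theorem, from the two remaining inputs -/
theorem completeness_core_of {A : PFol n₁ n₂ X} [Finite A.ι] (K : KMet A) (hPu : St_punct K)
    (hNC : St_unique A → St_chart A → St_pull K → St_slack K → St_CE K →
      (∀ C : ℝ, 0 ≤ C → St_C K C) → St_max A → St_D K → St_NC A) : Completeness A := by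
  have hu := unique_holds A
  have hch := chart_holds A
  have hP := pull_holds hch K
  refine completeness_of_NC A hu hch (hNC hu hch hP (slack_holds hch K) (CE_holds K)
    (fun C hC => St_C_holds K (CE_holds K) hu hP hC) (St_max_holds hu) (D_of_punct K hPu))
end

end Crest.Agent.R266
end

-- ▼ part R266/Core405B
section

/-!
R266 / Core405B (helper266): the analytic core of S0405, unconditional.
-/

set_option autoImplicit false

namespace Crest.Agent.R266

/-- `X` Hausdorff with a finite product-foliated atlas with Kähler metric: rectangles exist. -/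
theorem completeness_core {n₁ n₂ : ℕ} {X : Type} [TopologicalSpace X] [T2Space X]
    {A : PFol n₁ n₂ X} [Finite A.ι] (K : KMet A) : Completeness A :=
  completeness_core_of K (punct_holds K)
    (fun _ _ hP hS _ hC hmax hD => NC_holds K hP hS hC hmax hD)

end Crest.Agent.R266
end

-- ▼ part R266/GUniq
section

/-!
R266 / GUniq (helper599): identity theorems for `IsE1g`, `IsE2g`, `IsPCg` (section G1b of GlobIface).
-/

set_option autoImplicit false

open scoped Manifold ContDiff Topology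
open Set Metric Filter

namespace Crest.Agent.R266

/-! lemmas of helper432 -/

namespace GU

section
variable {n₁ n₂ : ℕ} {X : Type} [TopologicalSpace X]
variable {W : Type} [NormedAddCommGroup W] [NormedSpace ℂ W]

/-- holomorphic at `t` as a map into the atlas -/
def HolC (A : PFol n₁ n₂ X) (c : W → X) (t : W) : Prop :=
  ∀ i, c t ∈ (A.ch i).source → ∃ f : W → EV n₁ × EV n₂, AnalyticAt ℂ f t ∧
    ∀ᶠ s in 𝓝 t, c s ∈ (A.ch i).source ∧ A.ch i (c s) = f s

lemma HolC.continuousAt {A : PFol n₁ n₂ X} {c : W → X} {t : W} (h : HolC A c t) :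
    ContinuousAt c t := by
  obtain ⟨i, hi, _⟩ := A.cover (c t)
  obtain ⟨f, hf, hev⟩ := h i hi
  have h1 : c =ᶠ[𝓝 t] fun s => (A.ch i).symm (f s) := by
    filter_upwards [hev] with s hs
    rw [← hs.2, (A.ch i).left_inv hs.1]
  have h2 : f t = A.ch i (c t) := hev.self_of_nhds.2.symm
  have h3 : ContinuousAt (fun s => (A.ch i).symm (f s)) t := by
    refine ContinuousAt.comp (g := (A.ch i).symm) ?_ hf.continuousAt
    rw [h2]
    exact (A.ch i).continuousAt_symm ((A.ch i).map_source hi)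
  exact h3.congr h1.symm

lemma ident [T2Space X] {A : PFol n₁ n₂ X} {U : Set W} (hU : IsPreconnected U) {c c' : W → X}
    (h : ∀ t ∈ U, HolC A c t) (h' : ∀ t ∈ U, HolC A c' t) {t₀ : W} (ht₀ : t₀ ∈ U)
    (e : c =ᶠ[𝓝 t₀] c') : EqOn c c' U := by
  have hsub : U ⊆ {t | c =ᶠ[𝓝 t] c'} := by
    refine hU.subset_of_closure_inter_subset isOpen_setOfPred_eventually_nhds ⟨t₀, ht₀, e⟩ ?_
    rintro t ⟨htc, htU⟩
    have hfr : ∃ᶠ s in 𝓝 t, c s = c' s := by
      refine (mem_closure_iff_frequently.1 htc).mono fun s hs => ?_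
      exact Filter.EventuallyEq.eq_of_nhds hs
    have hval : c t = c' t := tendsto_nhds_unique_of_frequently_eq (h t htU).continuousAt
      (h' t htU).continuousAt hfr
    obtain ⟨i, hi, _⟩ := A.cover (c t)
    obtain ⟨f, hf, hev⟩ := h t htU i hi
    obtain ⟨f', hf', hev'⟩ := h' t htU i (hval ▸ hi)
    have hall := (hf.eventually_analyticAt.and hf'.eventually_analyticAt).and (hev.and hev')
    obtain ⟨ε, hε, hb⟩ := Metric.eventually_nhds_iff_ball.1 hall
    obtain ⟨s, hs, hsb⟩ := mem_closure_iff.1 htc (ball t ε) isOpen_ball (mem_ball_self hε)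
    have hfs : f =ᶠ[𝓝 s] f' := by
      filter_upwards [hsb, isOpen_ball.mem_nhds hs] with u hu hub
      rw [← (hb u hub).2.1.2, ← (hb u hub).2.2.2, hu]
    have hEq : EqOn f f' (ball t ε) :=
      AnalyticOnNhd.eqOn_of_preconnected_of_eventuallyEq (fun u hu => (hb u hu).1.1)
        (fun u hu => (hb u hu).1.2) (convex_ball t ε).isPreconnected hs hfs
    show c =ᶠ[𝓝 t] c'
    filter_upwards [isOpen_ball.mem_nhds (mem_ball_self hε)] with u hu
    have h1 := (hb u hu).2.1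
    have h2 := (hb u hu).2.2
    rw [← (A.ch i).left_inv h1.1, ← (A.ch i).left_inv h2.1, h1.2, h2.2, hEq hu]
  intro t ht
  exact Filter.EventuallyEq.eq_of_nhds (hsub ht)

end

section
variable {n₁ n₂ : ℕ} {X : Type} [TopologicalSpace X]
variable {V V₁ V₂ : Type} [NormedAddCommGroup V] [NormedSpace ℂ V]
  [NormedAddCommGroup V₁] [NormedSpace ℂ V₁] [NormedAddCommGroup V₂] [NormedSpace ℂ V₂]



end
end GU

section
variable {n₁ n₂ : ℕ} {X : Type} [TopologicalSpace X]
variable {V V₁ V₂ : Type} [NormedAddCommGroup V] [NormedSpace ℂ V]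
  [NormedAddCommGroup V₁] [NormedSpace ℂ V₁] [NormedAddCommGroup V₂] [NormedSpace ℂ V₂]

namespace GU

/-- holomorphic map into `X` (analytic in some chart at every point) -/
def Hol (A : PFol n₁ n₂ X) (U : Set V) (c : V → X) : Prop :=
  ∀ t ∈ U, ∀ i, c t ∈ (A.ch i).source → ContinuousAt c t ∧ AnalyticAt ℂ (fun s => A.ch i (c s)) t

/-- the identity theorem for holomorphic maps into `X` -/
theorem hol_unique [T2Space X] {A : PFol n₁ n₂ X} {U : Set V}
    (hU' : IsPreconnected U) {c c' : V → X} (h : Hol A U c) (h' : Hol A U c') {t : V}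
    (ht : t ∈ U) (hc : c =ᶠ[𝓝 t] c') : EqOn c c' U := by
  set S : Set V := {s | c =ᶠ[𝓝 s] c'} with hS
  have hSo : IsOpen S := by
    rw [isOpen_iff_mem_nhds]
    intro s hs
    exact hs.eventually_nhds
  have hcl : closure S ∩ U ⊆ S := by
    rintro s ⟨hs, hsU⟩
    obtain ⟨i, hi, -⟩ := A.cover (c s)
    obtain ⟨hcont, han⟩ := h s hsU i hi
    have hfr : ∃ᶠ u in 𝓝 s, u ∈ S := mem_closure_iff_frequently.mp hs
    obtain ⟨j, hj, -⟩ := A.cover (c' s)
    have hcont' := (h' s hsU j hj).1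
    have heq : c s = c' s := by
      by_contra hne
      have h1 : ∀ᶠ u in 𝓝 s, c u ≠ c' u := by
        obtain ⟨O, O', hO, hO', hx, hx', hd⟩ := t2_separation hne
        filter_upwards [hcont.eventually (hO.mem_nhds hx), hcont'.eventually (hO'.mem_nhds hx')]
          with u hu hu' he
        exact Set.disjoint_left.mp hd hu (he ▸ hu')
      obtain ⟨u, hu, hu'⟩ := (hfr.and_eventually h1).exists
      exact hu' hu.self_of_nhds
    have hi' : c' s ∈ (A.ch i).source := heq ▸ hi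
    have han' := (h' s hsU i hi').2
    obtain ⟨ε, hε, hball⟩ := Metric.eventually_nhds_iff_ball.mp
      (han.eventually_analyticAt.and han'.eventually_analyticAt)
    obtain ⟨u, huS, huB⟩ := (hfr.and_eventually (ball_mem_nhds s hε)).exists
    have hE : EqOn (fun w => A.ch i (c w)) (fun w => A.ch i (c' w)) (ball s ε) := by
      apply AnalyticOnNhd.eqOn_of_preconnected_of_eventuallyEq (𝕜 := ℂ) (z₀ := u)
        (fun w hw => (hball w hw).1) (fun w hw => (hball w hw).2)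
        (convex_ball s ε).isPreconnected huB
      filter_upwards [huS] with w hw
      simp only [hw]
    show c =ᶠ[𝓝 s] c'
    filter_upwards [hcont.eventually ((A.ch i).open_source.mem_nhds hi),
      hcont'.eventually ((A.ch i).open_source.mem_nhds hi'), ball_mem_nhds s hε] with w h1 h2 h3
    exact (A.ch i).injOn h1 h2 (hE h3)
  have := hU'.subset_of_closure_inter_subset hSo ⟨t, ht, hc⟩ hcl
  intro s hs
  exact (this hs).self_of_nhds

theorem hol_of_isE1g {A : PFol n₁ n₂ X} {U : Set V} {c : V → X} (h : IsE1g A U c) :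
    Hol A U c := by
  intro t ht i hi
  refine ⟨isE1g_continuousAt h ht, ?_⟩
  obtain ⟨a, ha, hw⟩ := isE1g_chart h ht hi
  refine (ha.prod (analyticAt_const (v := (A.ch i (c t)).2))).congr ?_
  filter_upwards [hw] with s hs
  exact hs.2.symm


theorem hol_of_isPCg {A : PFol n₁ n₂ X} {U : Set (V₁ × V₂)} {G : V₁ × V₂ → X}
    (h : IsPCg A U G) : Hol A U G := by
  intro t ht i hi
  refine ⟨isPCg_continuousAt h ht, ?_⟩
  obtain ⟨a, b, ha, hb, hw⟩ := isPCg_chart h ht hi
  refine ((ha.comp analyticAt_fst).prod (hb.comp analyticAt_snd)).congr ?_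
  filter_upwards [hw] with s hs
  exact hs.2.symm

end GU

/-- identity theorems -/
theorem isE1g_unique [T2Space X] {A : PFol n₁ n₂ X} {U : Set V} (_hU : IsOpen U)
    (hU' : IsPreconnected U) {c c' : V → X} (h : IsE1g A U c) (h' : IsE1g A U c') {t : V}
    (ht : t ∈ U) (hc : c =ᶠ[𝓝 t] c') : EqOn c c' U :=
  GU.hol_unique hU' (GU.hol_of_isE1g h) (GU.hol_of_isE1g h') ht hc


theorem isPCg_unique [T2Space X] {A : PFol n₁ n₂ X} {U : Set (V₁ × V₂)} (_hU : IsOpen U)
    (hU' : IsPreconnected U) {G G' : V₁ × V₂ → X} (h : IsPCg A U G) (h' : IsPCg A U G')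
    {t : V₁ × V₂} (ht : t ∈ U) (hc : G =ᶠ[𝓝 t] G') : EqOn G G' U :=
  GU.hol_unique hU' (GU.hol_of_isPCg h) (GU.hol_of_isPCg h') ht hc

/-- p.c. maps on a connected product are determined by the two axes through a point -/
theorem isPCg_unique_axes [T2Space X] {A : PFol n₁ n₂ X} {W₁ : Set V₁} {W₂ : Set V₂}
    (h₁ : IsOpen W₁) (h₂ : IsOpen W₂) (h₁' : IsPreconnected W₁) (h₂' : IsPreconnected W₂)
    {G G' : V₁ × V₂ → X} (h : IsPCg A (W₁ ×ˢ W₂) G) (h' : IsPCg A (W₁ ×ˢ W₂) G')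
    {a₀ : V₁} {b₀ : V₂} (ha : a₀ ∈ W₁) (hb : b₀ ∈ W₂)
    (e₁ : ∀ᶠ a in 𝓝 a₀, G (a, b₀) = G' (a, b₀)) (e₂ : ∀ᶠ b in 𝓝 b₀, G (a₀, b) = G' (a₀, b)) :
    EqOn G G' (W₁ ×ˢ W₂) := by
  refine isPCg_unique (h₁.prod h₂) (h₁'.prod h₂') h h' (t := (a₀, b₀)) ⟨ha, hb⟩ ?_
  obtain ⟨i, hi, -⟩ := A.cover (G (a₀, b₀))
  have hi' : G' (a₀, b₀) ∈ (A.ch i).source := e₁.self_of_nhds ▸ hi
  obtain ⟨a, b, -, -, hw⟩ := isPCg_chart h (z := (a₀, b₀)) ⟨ha, hb⟩ hi
  obtain ⟨a', b', -, -, hw'⟩ := isPCg_chart h' (z := (a₀, b₀)) ⟨ha, hb⟩ hi'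
  have t1 : Tendsto (fun x : V₁ => (x, b₀)) (𝓝 a₀) (𝓝 (a₀, b₀)) :=
    (continuous_id.prodMk continuous_const).tendsto a₀
  have t2 : Tendsto (fun y : V₂ => (a₀, y)) (𝓝 b₀) (𝓝 (a₀, b₀)) :=
    (continuous_const.prodMk continuous_id).tendsto b₀
  have ea : ∀ᶠ x in 𝓝 a₀, a x = a' x := by
    filter_upwards [t1.eventually hw, t1.eventually hw', e₁] with x h3 h4 h5
    have h6 := h3.2
    rw [h5, h4.2] at h6
    exact (congrArg Prod.fst h6).symm
  have eb : ∀ᶠ y in 𝓝 b₀, b y = b' y := by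
    filter_upwards [t2.eventually hw, t2.eventually hw', e₂] with x h3 h4 h5
    have h6 := h3.2
    rw [h5, h4.2] at h6
    exact (congrArg Prod.snd h6).symm
  have ef : ∀ᶠ w : V₁ × V₂ in 𝓝 (a₀, b₀), a w.1 = a' w.1 :=
    (continuous_fst.tendsto (a₀, b₀)).eventually ea
  have eg : ∀ᶠ w : V₁ × V₂ in 𝓝 (a₀, b₀), b w.2 = b' w.2 :=
    (continuous_snd.tendsto (a₀, b₀)).eventually eb
  filter_upwards [hw, hw', ef, eg] with w h3 h4 h5 h6
  refine (A.ch i).injOn h3.1 h4.1 ?_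
  rw [h3.2, h4.2, h5, h6]

end

end Crest.Agent.R266
end

-- ▼ part R266/Mono
section

/-!
R266 / Mono: monodromy lemma for germs on a simply connected space.

`S x` is a set of admissible germs at `x` of maps `X → Y`. If every point has an open
neighbourhood `U` such that every admissible germ at a point of `U` extends to a map with admissible
germs on `U`, and two such maps with the same germ at one point of `U` have the same germ at all
points of `U`, then on a simply connected, locally path connected space every admissible germ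
extends to a global map with admissible germs.
-/

set_option autoImplicit false

open Set Filter Topology Function

namespace Crest.Agent.R266.Mono

variable {X Y : Type*} [TopologicalSpace X]

/-- the étale space of admissible germs -/
def Et (S : ∀ x : X, Set ((𝓝 x).Germ Y)) : Type _ := Σ x : X, {g : (𝓝 x).Germ Y // g ∈ S x}

variable {S : ∀ x : X, Set ((𝓝 x).Germ Y)}

/-- the projection -/
def Et.p (e : Et S) : X := e.1

/-- the germ of `f` at `x` as a point of the étale space -/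
def Et.mk (f : X → Y) (x : X) (h : (f : (𝓝 x).Germ Y) ∈ S x) : Et S := ⟨x, ⟨f, h⟩⟩

theorem Et.exists_rep (e : Et S) : ∃ (f : X → Y) (h : (f : (𝓝 e.p).Germ Y) ∈ S e.p),
    e = Et.mk f e.p h := by
  obtain ⟨x, g, hg⟩ := e
  induction g using Filter.Germ.inductionOn with
  | h f => exact ⟨f, hg, rfl⟩

theorem Et.mk_eq_iff {f f' : X → Y} {x x' : X} (h : (f : (𝓝 x).Germ Y) ∈ S x)
    (h' : (f' : (𝓝 x').Germ Y) ∈ S x') :
    Et.mk f x h = Et.mk f' x' h' ↔ x = x' ∧ f =ᶠ[𝓝 x] f' := by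
  constructor
  · intro H
    have hx : x = x' := congrArg Et.p H
    subst hx
    refine ⟨rfl, ?_⟩
    unfold Et.mk at H
    have := eq_of_heq (Sigma.mk.inj H).2
    have := Subtype.mk.inj this
    exact Filter.Germ.coe_eq.mp this
  · rintro ⟨rfl, H⟩
    have : (f : (𝓝 x).Germ Y) = f' := Filter.Germ.coe_eq.mpr H
    unfold Et.mk
    congr

instance : TopologicalSpace (Et S) where
  IsOpen O := ∀ (x : X) (f : X → Y) (h : (f : (𝓝 x).Germ Y) ∈ S x), Et.mk f x h ∈ O →
    ∀ᶠ y in 𝓝 x, ∀ h' : (f : (𝓝 y).Germ Y) ∈ S y, Et.mk f y h' ∈ O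
  isOpen_univ := by
    intro x f h _
    exact Filter.Eventually.of_forall fun y h' => mem_univ _
  isOpen_inter := by
    intro O O' hO hO' x f h hx
    filter_upwards [hO x f h hx.1, hO' x f h hx.2] with y h1 h2 h'
    exact ⟨h1 h', h2 h'⟩
  isOpen_sUnion := by
    intro s hs x f h hx
    obtain ⟨t, ht, hxt⟩ := hx
    filter_upwards [hs t ht x f h hxt] with y h1 h'
    exact ⟨t, ht, h1 h'⟩

theorem isOpen_et_iff {O : Set (Et S)} : IsOpen O ↔
    ∀ (x : X) (f : X → Y) (h : (f : (𝓝 x).Germ Y) ∈ S x), Et.mk f x h ∈ O →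
    ∀ᶠ y in 𝓝 x, ∀ h' : (f : (𝓝 y).Germ Y) ∈ S y, Et.mk f y h' ∈ O := Iff.rfl

/-- the sheet over `U` defined by `f` -/
def sheet (S : ∀ x : X, Set ((𝓝 x).Germ Y)) (f : X → Y) (U : Set X) : Set (Et S) :=
  {e | ∃ (y : X) (h : (f : (𝓝 y).Germ Y) ∈ S y), y ∈ U ∧ e = Et.mk f y h}

theorem isOpen_sheet (f : X → Y) {U : Set X} (hU : IsOpen U) : IsOpen (sheet S f U) := by
  rw [isOpen_et_iff]
  rintro x f' h ⟨y, hy, hyU, he⟩
  obtain ⟨rfl, hff⟩ := (Et.mk_eq_iff _ _).1 he
  filter_upwards [eventually_eventually_nhds.2 hff, hU.mem_nhds hyU] with y hy1 hyU' h'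
  have h'' : (f : (𝓝 y).Germ Y) ∈ S y := by
    have : (f' : (𝓝 y).Germ Y) = f := Filter.Germ.coe_eq.mpr hy1
    rwa [← this]
  exact ⟨y, h'', hyU', (Et.mk_eq_iff _ _).2 ⟨rfl, hy1⟩⟩

/-- the local hypotheses: extension and separation on `U` -/
structure Good (S : ∀ x : X, Set ((𝓝 x).Germ Y)) (U : Set X) : Prop where
  ext : ∀ x ∈ U, ∀ f : X → Y, (f : (𝓝 x).Germ Y) ∈ S x →
    ∃ f' : X → Y, (∀ y ∈ U, (f' : (𝓝 y).Germ Y) ∈ S y) ∧ f' =ᶠ[𝓝 x] f
  sep : ∀ f f' : X → Y, (∀ y ∈ U, (f : (𝓝 y).Germ Y) ∈ S y) →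
    (∀ y ∈ U, (f' : (𝓝 y).Germ Y) ∈ S y) → (∃ y ∈ U, f =ᶠ[𝓝 y] f') → ∀ y ∈ U, f =ᶠ[𝓝 y] f'

theorem isCoveringMap_p (hS : ∀ x : X, ∃ U : Set X, IsOpen U ∧ x ∈ U ∧ Good S U) :
    IsCoveringMap (Et.p (S := S)) := by
  intro x0
  obtain ⟨V, hV, hx0, hG⟩ := hS x0
  by_cases hne : Nonempty {g : (𝓝 x0).Germ Y // g ∈ S x0}
  · -- nonempty fiber
    have hrep : ∀ g : {g : (𝓝 x0).Germ Y // g ∈ S x0}, ∃ f : X → Y,
        (∀ y ∈ V, (f : (𝓝 y).Germ Y) ∈ S y) ∧ (f : (𝓝 x0).Germ Y) = g.1 := by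
      rintro ⟨g, hg⟩
      induction g using Filter.Germ.inductionOn with
      | h f =>
        obtain ⟨f', hf', hff⟩ := hG.ext x0 hx0 f hg
        exact ⟨f', hf', Filter.Germ.coe_eq.mpr hff⟩
    choose F hF hFg using hrep
    let _ : TopologicalSpace {g : (𝓝 x0).Germ Y // g ∈ S x0} := ⊥
    have : DiscreteTopology {g : (𝓝 x0).Germ Y // g ∈ S x0} := ⟨rfl⟩
    have : Nonempty (X → Et S) := ⟨fun _ => ⟨x0, hne.some⟩⟩
    let t : Bundle.Trivialization {g : (𝓝 x0).Germ Y // g ∈ S x0} (Et.p (S := S)) :=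
      IsOpen.trivializationDiscrete (f := Et.p (S := S))
        (fun g : {g : (𝓝 x0).Germ Y // g ∈ S x0} => sheet S (F g) V) V hV
        (by
          intro g W hW
          constructor
          · intro hWo
            have : Et.p (S := S) ⁻¹' W ∩ sheet S (F g) V = sheet S (F g) W := by
              ext e
              constructor
              · rintro ⟨h1, y, hy, hyV, rfl⟩
                exact ⟨y, hy, h1, rfl⟩
              · rintro ⟨y, hy, hyW, rfl⟩
                exact ⟨hyW, y, hy, hW hyW, rfl⟩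
            rw [this]
            exact isOpen_sheet _ hWo
          · intro ho
            rw [isOpen_iff_mem_nhds]
            intro y hy
            have hyV := hW hy
            have h1 := isOpen_et_iff.1 ho y (F g) (hF g y hyV) ⟨hy, y, hF g y hyV, hyV, rfl⟩
            filter_upwards [h1, hV.mem_nhds hyV] with z hz hzV
            exact (hz (hF g z hzV)).1)
        (by
          rintro g e ⟨y, hy, hyV, rfl⟩ e' ⟨y', hy', hyV', rfl⟩ hee
          have : y = y' := hee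
          subst this
          rfl)
        (by
          intro g y hy
          exact ⟨Et.mk (F g) y (hF g y hy), ⟨y, hF g y hy, hy, rfl⟩, rfl⟩)
        (by
          intro g g' hgg
          rw [Function.onFun, Set.disjoint_left]
          rintro e ⟨y, hy, hyV, rfl⟩ ⟨y', hy', hyV', he⟩
          apply hgg
          obtain ⟨rfl, hff⟩ := (Et.mk_eq_iff _ _).1 he
          have := hG.sep (F g) (F g') (hF g) (hF g') ⟨y, hyV, hff⟩ x0 hx0
          have h2 : (F g : (𝓝 x0).Germ Y) = F g' := Filter.Germ.coe_eq.mpr this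
          rw [hFg, hFg] at h2
          exact Subtype.ext h2)
        (by
          intro e he
          obtain ⟨f, hf, hef⟩ := e.exists_rep
          have hpe : e.p ∈ V := he
          obtain ⟨f', hf', hff⟩ := hG.ext e.p hpe f hf
          rw [mem_iUnion]
          refine ⟨⟨(f' : (𝓝 x0).Germ Y), hf' x0 hx0⟩, ?_⟩
          have h1 : F ⟨(f' : (𝓝 x0).Germ Y), hf' x0 hx0⟩ =ᶠ[𝓝 x0] f' :=
            Filter.Germ.coe_eq.mp (hFg _)
          have h2 := hG.sep _ f' (hF _) hf' ⟨x0, hx0, h1⟩ e.p hpe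
          refine ⟨e.p, hF _ e.p hpe, hpe, ?_⟩
          conv_lhs => rw [hef]
          exact (Et.mk_eq_iff _ _).2 ⟨rfl, (h2.trans hff).symm⟩)
    have ht : x0 ∈ t.baseSet := hx0
    exact (IsEvenlyCovered.of_trivialization ht).to_isEvenlyCovered_preimage
  · -- empty fiber
    have hemp : Et.p (S := S) ⁻¹' V = ∅ := by
      rw [Set.eq_empty_iff_forall_notMem]
      intro e he
      obtain ⟨f, hf, hef⟩ := e.exists_rep
      obtain ⟨f', hf', hff⟩ := hG.ext e.p he f hf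
      exact hne ⟨⟨f', hf' x0 hx0⟩⟩
    exact (IsEvenlyCovered.of_preimage_eq_empty Empty (hV.mem_nhds hx0)
      hemp).to_isEvenlyCovered_preimage

/-- **Monodromy lemma.** -/
theorem mono [SimplyConnectedSpace X] [LocallyPathConnectedSpace X]
    (S : ∀ x : X, Set ((𝓝 x).Germ Y))
    (hS : ∀ x : X, ∃ U : Set X, IsOpen U ∧ x ∈ U ∧ Good S U) (x0 : X) (f0 : X → Y)
    (hf0 : (f0 : (𝓝 x0).Germ Y) ∈ S x0) :
    ∃ F : X → Y, (∀ x, (F : (𝓝 x).Germ Y) ∈ S x) ∧ F =ᶠ[𝓝 x0] f0 := by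
  obtain ⟨G, ⟨hG0, hGp⟩, -⟩ := (isCoveringMap_p hS).existsUnique_continuousMap_lifts
    (ContinuousMap.id X) x0 (Et.mk f0 x0 hf0) rfl
  have hp : ∀ x, (G x).p = x := fun x => congrFun hGp x
  choose R hR hGR using fun x => (G x).exists_rep
  have hR' : ∀ x, (R x : (𝓝 x).Germ Y) ∈ S x := by
    intro x
    have h1 : ∀ z, z = x → (R x : (𝓝 z).Germ Y) ∈ S z → (R x : (𝓝 x).Germ Y) ∈ S x := by
      rintro z rfl h; exact h
    exact h1 _ (hp x) (hR x)
  have hGR' : ∀ x, G x = Et.mk (R x) x (hR' x) := by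
    intro x
    rw [hGR x, Et.mk_eq_iff]
    exact ⟨hp x, EventuallyEq.rfl⟩
  -- local coincidence
  have hloc : ∀ x, ∀ᶠ y in 𝓝 x, R y =ᶠ[𝓝 y] R x := by
    intro x
    have hopen := isOpen_sheet (S := S) (R x) isOpen_univ
    have hmem : G x ∈ sheet S (R x) univ := ⟨x, hR' x, mem_univ _, hGR' x⟩
    have := G.continuous.continuousAt.eventually (hopen.mem_nhds hmem)
    filter_upwards [this] with y hy
    obtain ⟨z, hz, -, hzz⟩ := hy
    rw [hGR' y] at hzz
    exact ((Et.mk_eq_iff _ _).1 hzz).2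
  refine ⟨fun x => R x x, ?_, ?_⟩
  · intro x
    have h1 : (fun x => R x x) =ᶠ[𝓝 x] R x := by
      filter_upwards [hloc x] with y hy
      exact hy.self_of_nhds
    have h2 : ((fun x => R x x : X → Y) : (𝓝 x).Germ Y) = R x := Filter.Germ.coe_eq.mpr h1
    rw [h2]
    exact hR' x
  · have h1 : (fun x => R x x) =ᶠ[𝓝 x0] R x0 := by
      filter_upwards [hloc x0] with y hy
      exact hy.self_of_nhds
    refine h1.trans ?_
    have h2 := hGR' x0
    rw [hG0] at h2
    exact ((Et.mk_eq_iff _ _).1 h2).2.symm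

end Crest.Agent.R266.Mono
end

-- ▼ part R266/GMono
section

/-!
R266 / GMono: abstract monodromy theorem for presheaves of sections (G3 of GlobIface).
-/

set_option autoImplicit false

open Set Filter Topology

namespace Crest.Agent.R266

theorem monodromy_sections {Y T : Type} [TopologicalSpace Y] [SimplyConnectedSpace Y]
    [LocallyPathConnectedSpace Y] (Sec : Set Y → (Y → T) → Prop)
    (hmono : ∀ U V f, IsOpen V → V ⊆ U → Sec U f → Sec V f)
    (hcongr : ∀ U f g, IsOpen U → Sec U f → EqOn f g U → Sec U g)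
    (huniq : ∀ U f g, IsOpen U → IsPreconnected U → Sec U f → Sec U g →
      (∃ x ∈ U, f =ᶠ[𝓝 x] g) → EqOn f g U)
    (hext : ∀ y, ∃ U, IsOpen U ∧ y ∈ U ∧ IsPreconnected U ∧
      ∀ x ∈ U, ∀ V f, IsOpen V → x ∈ V → Sec V f → ∃ g, Sec U g ∧ g =ᶠ[𝓝 x] f)
    (y₀ : Y) (V₀ : Set Y) (f₀ : Y → T) (hV₀ : IsOpen V₀) (hy₀ : y₀ ∈ V₀) (hf₀ : Sec V₀ f₀) :
    ∃ g : Y → T, (∀ y, ∃ U, IsOpen U ∧ y ∈ U ∧ Sec U g) ∧ g =ᶠ[𝓝 y₀] f₀ := by
  classical
  -- admissible germs
  let S : ∀ y : Y, Set ((𝓝 y).Germ T) := fun y =>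
    {g | ∃ (V : Set Y) (f : Y → T), IsOpen V ∧ y ∈ V ∧ Sec V f ∧ g = (f : (𝓝 y).Germ T)}
  have hS_iff : ∀ (y : Y) (f : Y → T), (f : (𝓝 y).Germ T) ∈ S y →
      ∃ V : Set Y, IsOpen V ∧ y ∈ V ∧ Sec V f := by
    rintro y f ⟨V, f', hV, hy, hs, he⟩
    have he' : f =ᶠ[𝓝 y] f' := Filter.Germ.coe_eq.mp he
    obtain ⟨W, hWsub, hW, hyW⟩ := mem_nhds_iff.1 he'
    refine ⟨V ∩ W, hV.inter hW, ⟨hy, hyW⟩, ?_⟩
    refine hcongr _ f' f (hV.inter hW) (hmono V _ f' (hV.inter hW) inter_subset_left hs) ?_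
    intro z hz
    exact (hWsub hz.2).symm
  have hgood : ∀ x : Y, ∃ U : Set Y, IsOpen U ∧ x ∈ U ∧ Mono.Good S U := by
    intro x
    obtain ⟨U, hU, hxU, hUc, hUe⟩ := hext x
    refine ⟨U, hU, hxU, ?_, ?_⟩
    · intro y hy f hf
      obtain ⟨V, hV, hyV, hs⟩ := hS_iff y f hf
      obtain ⟨g, hg, hgf⟩ := hUe y hy V f hV hyV hs
      exact ⟨g, fun z hz => ⟨U, g, hU, hz, hg, rfl⟩, hgf⟩
    · intro f f' hf hf' hex y hy
      -- clopen argument
      have hloc : ∀ z ∈ U, ∃ V, IsOpen V ∧ z ∈ V ∧ IsPreconnected V ∧ Sec V f ∧ Sec V f' := by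
        intro z hz
        obtain ⟨V₁, hV₁, hz₁, hs₁⟩ := hS_iff z f (hf z hz)
        obtain ⟨V₂, hV₂, hz₂, hs₂⟩ := hS_iff z f' (hf' z hz)
        obtain ⟨V, hVsub, hVo, hzV, hVc⟩ :=
          locallyConnectedSpace_iff_subsets_isOpen_isConnected.1 inferInstance z (V₁ ∩ V₂)
            ((hV₁.inter hV₂).mem_nhds ⟨hz₁, hz₂⟩)
        exact ⟨V, hVo, hzV, hVc.isPreconnected,
          hmono _ _ _ hVo (hVsub.trans inter_subset_left) hs₁,
          hmono _ _ _ hVo (hVsub.trans inter_subset_right) hs₂⟩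
      let E : Set Y := {z | f =ᶠ[𝓝 z] f'}
      have hEo : IsOpen E := by
        rw [isOpen_iff_mem_nhds]
        intro z hz
        exact eventually_eventually_nhds.2 hz
      have hcl : ∀ z ∈ U, z ∈ closure E → z ∈ E := by
        intro z hz hzc
        obtain ⟨V, hVo, hzV, hVc, hs, hs'⟩ := hloc z hz
        obtain ⟨w, hwV, hwE⟩ := mem_closure_iff.1 hzc V hVo hzV
        have := huniq V f f' hVo hVc hs hs' ⟨w, hwV, hwE⟩
        exact Filter.eventuallyEq_of_mem (hVo.mem_nhds hzV) this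
      obtain ⟨w, hwU, hwE⟩ := hex
      have hsub : U ⊆ E :=
        hUc.subset_of_closure_inter_subset hEo ⟨w, hwU, hwE⟩ (fun z hz => hcl z hz.2 hz.1)
      exact hsub hy
  obtain ⟨F, hF, hF0⟩ := Mono.mono S hgood y₀ f₀ ⟨V₀, f₀, hV₀, hy₀, hf₀, rfl⟩
  exact ⟨F, fun y => hS_iff y F (hF y), hF0⟩

end Crest.Agent.R266
end

-- ▼ part R266/GLeaf
section

/-!
R266 / GLeaf (helper926): the leaf topology and the leaf manifold of the first foliation.
-/

set_option autoImplicit false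

open scoped Manifold ContDiff Topology
open Set Metric Filter

namespace Crest.Agent.R266

namespace LeafA

variable {n₁ n₂ : ℕ} {X : Type} [TopologicalSpace X]

theorem ch_mem {A : PFol n₁ n₂ X} {i : A.ι} {y : X} (hy : y ∈ (A.ch i).source) :
    (A.ch i y).1 ∈ ball (0 : EV n₁) 1 ∧ (A.ch i y).2 ∈ ball (0 : EV n₂) 1 := by
  have := (A.ch i).map_source hy
  rw [A.target_eq i] at this
  exact this

theorem ch_symm {A : PFol n₁ n₂ X} {i : A.ι} {a : EV n₁} {b : EV n₂} (ha : a ∈ ball (0 : EV n₁) 1)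
    (hb : b ∈ ball (0 : EV n₂) 1) :
    (A.ch i).symm (a, b) ∈ (A.ch i).source ∧ A.ch i ((A.ch i).symm (a, b)) = (a, b) := by
  have h : (a, b) ∈ (A.ch i).target := by
    rw [A.target_eq i]
    exact ⟨ha, hb⟩
  exact ⟨(A.ch i).map_target h, (A.ch i).right_inv h⟩

/-- the plaque chart -/
noncomputable def pch (A : PFol n₁ n₂ X) (i : A.ι) (b : EV n₂) (hb : b ∈ ball (0 : EV n₂) 1) :
    PartialEquiv (Leaf1 A) (EV n₁) where
  toFun y := (A.ch i (ofL y)).1
  invFun a := toL A (plq A i b a)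
  source := {y | ofL y ∈ (A.ch i).source ∧ (A.ch i (ofL y)).2 = b}
  target := ball 0 1
  map_source' y hy := (ch_mem hy.1).1
  map_target' a ha := by
    have := ch_symm (A := A) (i := i) ha hb
    refine ⟨this.1, ?_⟩
    show (A.ch i ((A.ch i).symm (a, b))).2 = b
    rw [this.2]
  left_inv' y hy := by
    show toL A ((A.ch i).symm ((A.ch i (ofL y)).1, b)) = y
    have : (A.ch i).symm ((A.ch i (ofL y)).1, b) = ofL y := by
      rw [← hy.2]
      exact (A.ch i).left_inv hy.1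
    rw [this]
    rfl
  right_inv' a ha := by
    show (A.ch i ((A.ch i).symm (a, b))).1 = a
    rw [(ch_symm (A := A) (i := i) ha hb).2]

@[simp] theorem pch_apply (A : PFol n₁ n₂ X) (i : A.ι) (b : EV n₂) (hb : b ∈ ball (0 : EV n₂) 1)
    (y : Leaf1 A) : pch A i b hb y = (A.ch i (ofL y)).1 := rfl

@[simp] theorem pch_symm_apply (A : PFol n₁ n₂ X) (i : A.ι) (b : EV n₂)
    (hb : b ∈ ball (0 : EV n₂) 1) (a : EV n₁) : (pch A i b hb).symm a = toL A (plq A i b a) := rfl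

/-- the analytic transition between plaque charts -/
theorem trans_loc (A : PFol n₁ n₂ X) (i j : A.ι) (b b' : EV n₂) (hb : b ∈ ball (0 : EV n₂) 1)
    (hb' : b' ∈ ball (0 : EV n₂) 1) {a : EV n₁}
    (ha : a ∈ ((pch A i b hb).symm.trans (pch A j b' hb')).source) :
    ∃ φ : EV n₁ → EV n₁, AnalyticAt ℂ φ a ∧
      ∀ᶠ a' in 𝓝 a, a' ∈ ((pch A i b hb).symm.trans (pch A j b' hb')).source ∧
        ((pch A i b hb).symm.trans (pch A j b' hb')) a' = φ a' := by
  rw [PartialEquiv.trans_source] at ha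
  have ha1 : a ∈ ball (0 : EV n₁) 1 := ha.1
  have ha2 : plq A i b a ∈ (A.ch j).source ∧ (A.ch j (plq A i b a)).2 = b' := ha.2
  have hs := ch_symm (A := A) (i := i) ha1 hb
  obtain ⟨φ, ψ, hφ, hψ, h⟩ := A.compat i j (plq A i b a) ⟨hs.1, ha2.1⟩
  have hpt : A.ch i (plq A i b a) = (a, b) := hs.2
  rw [hpt] at hφ hψ h
  refine ⟨φ, hφ, ?_⟩
  have hcont : ContinuousAt (fun a' : EV n₁ => (a', b)) a := by fun_prop
  have h1 : ∀ᶠ a' in 𝓝 a, A.ch j ((A.ch i).symm (a', b)) = (φ a', ψ b) := hcont.eventually h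
  have h2 : ∀ᶠ a' in 𝓝 a, a' ∈ ball (0 : EV n₁) 1 := isOpen_ball.mem_nhds ha1
  have h3 : ∀ᶠ a' in 𝓝 a, plq A i b a' ∈ (A.ch j).source := by
    have hc : ContinuousAt (fun a' : EV n₁ => (A.ch i).symm (a', b)) a := by
      refine ContinuousAt.comp (g := (A.ch i).symm) (f := fun a' : EV n₁ => (a', b)) ?_ hcont
      exact (A.ch i).continuousAt_symm (by rw [A.target_eq i]; exact ⟨ha1, hb⟩)
    exact hc.eventually ((A.ch j).open_source.mem_nhds ha2.1)
  have hψb : ψ b = b' := by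
    have := h1.self_of_nhds
    have h4 : (A.ch j (plq A i b a)) = (φ a, ψ b) := this
    rw [h4] at ha2
    exact ha2.2
  filter_upwards [h1, h2, h3] with a' e1 e2 e3
  have e1' : A.ch j (plq A i b a') = (φ a', ψ b) := e1
  refine ⟨?_, ?_⟩
  · rw [PartialEquiv.trans_source]
    refine ⟨e2, ?_⟩
    show plq A i b a' ∈ (A.ch j).source ∧ (A.ch j (plq A i b a')).2 = b'
    refine ⟨e3, ?_⟩
    rw [e1']
    exact hψb
  · show (A.ch j (plq A i b a')).1 = φ a'
    rw [e1']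

/-- the core -/
noncomputable def core (A : PFol n₁ n₂ X) : ChartedSpaceCore (EV n₁) (Leaf1 A) where
  atlas := {e | ∃ (i : A.ι) (b : EV n₂) (hb : b ∈ ball (0 : EV n₂) 1), e = pch A i b hb}
  chartAt y := pch A (Classical.choose (A.cover (ofL y)))
    (A.ch (Classical.choose (A.cover (ofL y))) (ofL y)).2
    (ch_mem (Classical.choose_spec (A.cover (ofL y))).1).2
  mem_chart_source y := ⟨(Classical.choose_spec (A.cover (ofL y))).1, rfl⟩
  chart_mem_atlas y := ⟨_, _, _, rfl⟩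
  open_source := by
    rintro e e' ⟨i, b, hb, rfl⟩ ⟨j, b', hb', rfl⟩
    rw [isOpen_iff_mem_nhds]
    intro a ha
    obtain ⟨φ, -, h⟩ := trans_loc A i j b b' hb hb' ha
    filter_upwards [h] with a' ha'
    exact ha'.1
  continuousOn_toFun := by
    rintro e e' ⟨i, b, hb, rfl⟩ ⟨j, b', hb', rfl⟩
    intro a ha
    obtain ⟨φ, hφ, h⟩ := trans_loc A i j b b' hb hb' ha
    refine ContinuousAt.continuousWithinAt ?_
    exact hφ.continuousAt.congr (h.mono fun a' ha' => ha'.2.symm)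

end LeafA

open LeafA

variable {n₁ n₂ : ℕ} {X : Type} [TopologicalSpace X]

noncomputable instance leafTop (A : PFol n₁ n₂ X) : TopologicalSpace (Leaf1 A) :=
  (core A).toTopologicalSpace

noncomputable instance leafCharted (A : PFol n₁ n₂ X) : ChartedSpace (EV n₁) (Leaf1 A) :=
  (core A).toChartedSpace

namespace LeafA

/-- the plaque chart as an open partial homeomorphism -/
noncomputable def pcho (A : PFol n₁ n₂ X) (i : A.ι) (b : EV n₂) (hb : b ∈ ball (0 : EV n₂) 1) :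
    OpenPartialHomeomorph (Leaf1 A) (EV n₁) :=
  (core A).openPartialHomeomorph (pch A i b hb) ⟨i, b, hb, rfl⟩

theorem pcho_mem (A : PFol n₁ n₂ X) (i : A.ι) (b : EV n₂) (hb : b ∈ ball (0 : EV n₂) 1) :
    pcho A i b hb ∈ atlas (EV n₁) (Leaf1 A) := by
  show pcho A i b hb ∈ ⋃ (e : PartialEquiv (Leaf1 A) (EV n₁)) (he : e ∈ (core A).atlas),
    {(core A).openPartialHomeomorph e he}
  simp only [mem_iUnion, mem_singleton_iff]
  exact ⟨pch A i b hb, ⟨i, b, hb, rfl⟩, rfl⟩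

theorem mem_atlas {A : PFol n₁ n₂ X} {e : OpenPartialHomeomorph (Leaf1 A) (EV n₁)}
    (he : e ∈ atlas (EV n₁) (Leaf1 A)) : ∃ i b hb, e = pcho A i b hb := by
  have he' : e ∈ ⋃ (e : PartialEquiv (Leaf1 A) (EV n₁)) (he : e ∈ (core A).atlas),
    {(core A).openPartialHomeomorph e he} := he
  simp only [mem_iUnion, mem_singleton_iff] at he'
  obtain ⟨e', ⟨i, b, hb, rfl⟩, rfl⟩ := he'
  exact ⟨i, b, hb, rfl⟩

@[simp] theorem pcho_apply (A : PFol n₁ n₂ X) (i : A.ι) (b : EV n₂) (hb : b ∈ ball (0 : EV n₂) 1)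
    (y : Leaf1 A) : pcho A i b hb y = (A.ch i (ofL y)).1 := rfl

@[simp] theorem pcho_symm_apply (A : PFol n₁ n₂ X) (i : A.ι) (b : EV n₂)
    (hb : b ∈ ball (0 : EV n₂) 1) (a : EV n₁) : (pcho A i b hb).symm a = toL A (plq A i b a) := rfl


theorem pcho_target (A : PFol n₁ n₂ X) (i : A.ι) (b : EV n₂) (hb : b ∈ ball (0 : EV n₂) 1) :
    (pcho A i b hb).target = ball 0 1 := rfl

end LeafA

instance leafManifold (A : PFol n₁ n₂ X) : IsManifold 𝓘(ℂ, EV n₁) ω (Leaf1 A) := by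
  apply isManifold_of_contDiffOn
  intro e e' he he'
  obtain ⟨i, b, hb, rfl⟩ := mem_atlas he
  obtain ⟨j, b', hb', rfl⟩ := mem_atlas he'
  simp only [modelWithCornersSelf_coe, modelWithCornersSelf_coe_symm, Function.comp_id,
    Function.id_comp, preimage_id, range_id, inter_univ]
  intro a ha
  obtain ⟨φ, hφ, h⟩ := trans_loc A i j b b' hb hb' (a := a) ha
  refine ContDiffAt.contDiffWithinAt ?_
  exact hφ.contDiffAt.congr_of_eventuallyEq (h.mono fun a' ha' => ha'.2)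

theorem leaf_continuous (A : PFol n₁ n₂ X) : Continuous (ofL : Leaf1 A → X) := by
  rw [continuous_iff_continuousAt]
  intro y
  obtain ⟨i, hi, -⟩ := A.cover (ofL y)
  have hb := (ch_mem hi).2
  set e := pcho A i _ hb with he
  have hy : y ∈ e.source := ⟨hi, rfl⟩
  have h1 : ContinuousAt e y := e.continuousAt hy
  have h2 : ContinuousAt (fun a : EV n₁ => (A.ch i).symm (a, (A.ch i (ofL y)).2)) (e y) := by
    refine ContinuousAt.comp (g := (A.ch i).symm)
      (f := fun a' : EV n₁ => (a', (A.ch i (ofL y)).2)) ?_ (by fun_prop)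
    exact (A.ch i).continuousAt_symm ((A.ch i).map_source hi)
  refine (h2.comp h1).congr ?_
  filter_upwards [e.open_source.mem_nhds hy] with z hz
  have hz' : ofL z ∈ (A.ch i).source ∧ (A.ch i (ofL z)).2 = (A.ch i (ofL y)).2 := hz
  show (A.ch i).symm ((A.ch i (ofL z)).1, (A.ch i (ofL y)).2) = ofL z
  rw [← hz'.2]
  exact (A.ch i).left_inv hz'.1

instance leaf_t2 (A : PFol n₁ n₂ X) [T2Space X] : T2Space (Leaf1 A) :=
  T2Space.of_injective_continuous (f := (ofL : Leaf1 A → X)) (fun _ _ h => h) (leaf_continuous A)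

/-- a map tangent to the first foliation near a point, in the plaque chart -/
theorem leaf_contMDiffAt {V : Type} [NormedAddCommGroup V] [NormedSpace ℂ V] {A : PFol n₁ n₂ X}
    {t : V} {c : V → X} (h : IsE1g A {t} c) :
    ContMDiffAt 𝓘(ℂ, V) 𝓘(ℂ, EV n₁) ω (fun s => toL A (c s)) t := by
  obtain ⟨i, a, b, ha, hev⟩ := h t rfl
  have ht := hev.self_of_nhds
  have hb : b ∈ ball (0 : EV n₂) 1 := by
    have := (ch_mem ht.1).2
    rw [ht.2] at this
    exact this
  have hat : a t ∈ ball (0 : EV n₁) 1 := by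
    have := (ch_mem ht.1).1
    rw [ht.2] at this
    exact this
  have he : pcho A i b hb ∈ IsManifold.maximalAtlas 𝓘(ℂ, EV n₁) ω (Leaf1 A) :=
    IsManifold.subset_maximalAtlas (pcho_mem A i b hb)
  have h1 : ContMDiffAt 𝓘(ℂ, EV n₁) 𝓘(ℂ, EV n₁) ω (pcho A i b hb).symm (a t) :=
    contMDiffAt_symm_of_mem_maximalAtlas he (by rw [pcho_target]; exact hat)
  have h2 : ContMDiffAt 𝓘(ℂ, V) 𝓘(ℂ, EV n₁) ω a t := ha.contDiffAt.contMDiffAt
  refine (ContMDiffAt.comp t h1 h2).congr_of_eventuallyEq ?_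
  filter_upwards [hev] with s hs
  show toL A (c s) = toL A (plq A i b (a s))
  congr 1
  show c s = (A.ch i).symm (a s, b)
  rw [← hs.2]
  exact ((A.ch i).left_inv hs.1).symm

theorem leaf_continuousAt {V : Type} [NormedAddCommGroup V] [NormedSpace ℂ V] {A : PFol n₁ n₂ X}
    {t : V} {c : V → X} (h : IsE1g A {t} c) :
    ContinuousAt (fun s => toL A (c s)) t := (leaf_contMDiffAt h).continuousAt

theorem leaf_coord (A : PFol n₁ n₂ X) (i : A.ι) (y : Leaf1 A) (hy : ofL y ∈ (A.ch i).source) :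
    ContMDiffAt 𝓘(ℂ, EV n₁) 𝓘(ℂ, EV n₁) ω (fun z : Leaf1 A => (A.ch i (ofL z)).1) y ∧
    ∀ᶠ z : Leaf1 A in 𝓝 y, ofL z ∈ (A.ch i).source ∧
      (A.ch i (ofL z)).2 = (A.ch i (ofL y)).2 := by
  have hb := (ch_mem hy).2
  have he : pcho A i _ hb ∈ IsManifold.maximalAtlas 𝓘(ℂ, EV n₁) ω (Leaf1 A) :=
    IsManifold.subset_maximalAtlas (pcho_mem A i _ hb)
  have hs : y ∈ (pcho A i _ hb).source := ⟨hy, rfl⟩
  refine ⟨contMDiffAt_of_mem_maximalAtlas he hs, ?_⟩
  filter_upwards [(pcho A i _ hb).open_source.mem_nhds hs] with z hz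
  exact hz

end Crest.Agent.R266
end

-- ▼ part R266/GLeafInv
section

/-!
R266 / GLeafInv (helper529): local inverse of an immersed plaque (block G4).
-/

set_option autoImplicit false

open scoped Manifold ContDiff Topology
open Set Metric Filter

namespace Crest.Agent.R266

variable {n₁ n₂ : ℕ} {X : Type} [TopologicalSpace X]

/-- local inverse of an immersed plaque -/
theorem leaf_inverse {A : PFol n₁ n₂ X} {t : EV n₁} {c : EV n₁ → X} (h : Imm1 A {t} c) :
    ∃ κ : Leaf1 A → EV n₁, ContMDiffAt 𝓘(ℂ, EV n₁) 𝓘(ℂ, EV n₁) ω κ (toL A (c t)) ∧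
      (∀ᶠ s in 𝓝 t, κ (toL A (c s)) = s) ∧
      ∀ᶠ y : Leaf1 A in 𝓝 (toL A (c t)), toL A (c (κ y)) = y := by
  obtain ⟨i, a, b, ha, ⟨f', hf'⟩, hev⟩ := h t rfl
  have ht := hev.self_of_nhds
  have hC : ContDiffAt ℂ ω a t := ha.contDiffAt
  have hD : HasFDerivAt a (f' : EV n₁ →L[ℂ] EV n₁) t := by
    rw [hf']
    exact ha.differentiableAt.hasFDerivAt
  have hn : (ω : WithTop ℕ∞) ≠ 0 := by simp
  set e := hC.toOpenPartialHomeomorph a hD hn with he
  have hts : t ∈ e.source := hC.mem_toOpenPartialHomeomorph_source hD hn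
  have hea : (e : EV n₁ → EV n₁) = a := rfl
  have hsymm : ContDiffAt ℂ ω e.symm (a t) := hC.to_localInverse hD hn
  have hat : a t ∈ e.target := e.map_source hts
  have hsa : e.symm (a t) = t := e.left_inv hts
  obtain ⟨hco, hco2⟩ := leaf_coord A i (toL A (c t)) ht.1
  have hy0 : (A.ch i (ofL (toL A (c t)))).1 = a t := by
    show (A.ch i (c t)).1 = a t
    rw [ht.2]
  have hκ : ContMDiffAt 𝓘(ℂ, EV n₁) 𝓘(ℂ, EV n₁) ω
      (fun y : Leaf1 A => e.symm (A.ch i (ofL y)).1) (toL A (c t)) := by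
    refine ContMDiffAt.comp (g := e.symm) (f := fun z : Leaf1 A => (A.ch i (ofL z)).1)
      (toL A (c t)) ?_ hco
    rw [hy0]
    exact hsymm.contMDiffAt
  refine ⟨fun y => e.symm (A.ch i (ofL y)).1, hκ, ?_, ?_⟩
  · filter_upwards [hev, e.open_source.mem_nhds hts] with s hs hse
    show e.symm (A.ch i (c s)).1 = s
    rw [hs.2]
    exact e.left_inv hse
  · have hκc : Tendsto (fun y : Leaf1 A => e.symm (A.ch i (ofL y)).1) (𝓝 (toL A (c t))) (𝓝 t) := by
      have := hκ.continuousAt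
      have h2 : e.symm (A.ch i (ofL (toL A (c t)))).1 = t := by rw [hy0, hsa]
      rw [ContinuousAt, h2] at this
      exact this
    have hcoc : Tendsto (fun y : Leaf1 A => (A.ch i (ofL y)).1) (𝓝 (toL A (c t))) (𝓝 (a t)) := by
      have := hco.continuousAt
      rw [ContinuousAt, hy0] at this
      exact this
    have hb : (A.ch i (ofL (toL A (c t)))).2 = b := by
      show (A.ch i (c t)).2 = b
      rw [ht.2]
    filter_upwards [hco2, hκc.eventually hev, hcoc.eventually (e.open_target.mem_nhds hat)]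
      with y h1 h2 h3
    have h4 : a (e.symm (A.ch i (ofL y)).1) = (A.ch i (ofL y)).1 := e.right_inv h3
    have h5 : A.ch i (c (e.symm (A.ch i (ofL y)).1)) = A.ch i (ofL y) := by
      rw [h2.2, h4, ← hb, ← h1.2]
    have h6 := (A.ch i).injOn h2.1 h1.1 h5
    show toL A (c (e.symm (A.ch i (ofL y)).1)) = y
    rw [h6]
    rfl

end Crest.Agent.R266
end

-- ▼ part R266/GTrans
section

/-!
R266 / GTrans (helper260), node G5 of GlobIface: transport of first-leaf maps.
-/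

set_option autoImplicit false

open scoped Manifold ContDiff Topology
open Set Metric Filter

namespace Crest.Agent.R266

section
variable {n₁ n₂ : ℕ} {X : Type} [TopologicalSpace X]
variable {V V' : Type} [NormedAddCommGroup V] [NormedSpace ℂ V] [NormedAddCommGroup V']
  [NormedSpace ℂ V']

namespace GT

theorem mono {V₁ V₂ : Type} [NormedAddCommGroup V₁] [NormedSpace ℂ V₁] [NormedAddCommGroup V₂]
    [NormedSpace ℂ V₂] {A : PFol n₁ n₂ X} {U U' : Set (V₁ × V₂)} {G : V₁ × V₂ → X}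
    (h : IsPCg A U G) (hU : U' ⊆ U) : IsPCg A U' G := fun z hz => h z (hU hz)

theorem comp {V₁ V₂ V₁' V₂' : Type} [NormedAddCommGroup V₁] [NormedSpace ℂ V₁]
    [NormedAddCommGroup V₂] [NormedSpace ℂ V₂] [NormedAddCommGroup V₁'] [NormedSpace ℂ V₁']
    [NormedAddCommGroup V₂'] [NormedSpace ℂ V₂'] {A : PFol n₁ n₂ X} {U : Set (V₁ × V₂)}
    {U' : Set (V₁' × V₂')}
    {G : V₁ × V₂ → X} (h : IsPCg A U G) {θ₁ : V₁' → V₁} {θ₂ : V₂' → V₂}
    (hθ : ∀ z ∈ U', AnalyticAt ℂ θ₁ z.1 ∧ AnalyticAt ℂ θ₂ z.2 ∧ (θ₁ z.1, θ₂ z.2) ∈ U) :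
    IsPCg A U' (fun z => G (θ₁ z.1, θ₂ z.2)) := by
  intro z hz
  obtain ⟨h1, h2, h3⟩ := hθ z hz
  obtain ⟨i, a, b, ha, hb, hev⟩ := h _ h3
  refine ⟨i, a ∘ θ₁, b ∘ θ₂, (show AnalyticAt ℂ a (θ₁ z.1) from ha).comp h1,
    (show AnalyticAt ℂ b (θ₂ z.2) from hb).comp h2, ?_⟩
  have hc : ContinuousAt (fun z : V₁' × V₂' => (θ₁ z.1, θ₂ z.2)) z :=
    (h1.continuousAt.comp continuousAt_fst).prodMk (h2.continuousAt.comp continuousAt_snd)
  exact hc.eventually hev

theorem of_fst {V₁ V₂ : Type} [NormedAddCommGroup V₁] [NormedSpace ℂ V₁] [NormedAddCommGroup V₂]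
    [NormedSpace ℂ V₂] {A : PFol n₁ n₂ X} {W : Set V₁} {c : V₁ → X} (h : IsE1g A W c)
    (W₂ : Set V₂) : IsPCg A (W ×ˢ W₂) (fun p => c p.1) := by
  intro z hz
  obtain ⟨i, a, b, ha, hev⟩ := h z.1 hz.1
  refine ⟨i, a, fun _ => b, ha, analyticAt_const, ?_⟩
  exact (continuousAt_fst (p := z)).eventually hev

theorem slice {V₁ V₂ : Type} [NormedAddCommGroup V₁] [NormedSpace ℂ V₁] [NormedAddCommGroup V₂]
    [NormedSpace ℂ V₂] {A : PFol n₁ n₂ X} {W₁ : Set V₁} {W₂ : Set V₂} {G : V₁ × V₂ → X}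
    (h : IsPCg A (W₁ ×ˢ W₂) G) {b : V₂} (hb : b ∈ W₂) : IsE1g A W₁ (fun a => G (a, b)) := by
  intro t ht
  obtain ⟨i, a, b', ha, hb', hev⟩ := h (t, b) ⟨ht, hb⟩
  refine ⟨i, a, b' b, ha, ?_⟩
  have hc : ContinuousAt (fun s : V₁ => (s, b)) t := by fun_prop
  exact hc.eventually hev

theorem congr1 {A : PFol n₁ n₂ X} {U : Set V} (hU : IsOpen U) {c c' : V → X} (h : IsE1g A U c)
    (hc : EqOn c c' U) : IsE1g A U c' := by
  intro t ht
  obtain ⟨i, a, b, ha, hev⟩ := h t ht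
  refine ⟨i, a, b, ha, ?_⟩
  filter_upwards [hev, hU.mem_nhds ht] with s hs hs'
  rw [← hc hs']
  exact hs

end GT

theorem trS_mono {A : PFol n₁ n₂ X} {W W' : Set V} {B B' : V → X} (h : TrS A W B B')
    (hW : W' ⊆ W) : TrS A W' B B' := by
  induction h with
  | refl => exact Relation.ReflTransGen.refl
  | tail _ h ih =>
    refine ih.tail ?_
    obtain ⟨R, G, s, hR, hs, hG, h0, h1⟩ := h
    exact ⟨R, G, s, hR, hs, GT.mono hG (prod_mono hW subset_rfl), fun a ha => h0 a (hW ha),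
      fun a ha => h1 a (hW ha)⟩

theorem trS_isE1g {A : PFol n₁ n₂ X} {W : Set V} (hW : IsOpen W) {B B' : V → X}
    (hB : IsE1g A W B) (h : TrS A W B B') : IsE1g A W B' := by
  induction h with
  | refl => exact hB
  | tail _ h _ =>
    obtain ⟨R, G, s, hR, hs, hG, h0, h1⟩ := h
    exact GT.congr1 hW (GT.slice hG hs) h1

theorem GT.tr_of_eqOn {A : PFol n₁ n₂ X} {W : Set V} {B B₁ B₂ : V → X} (hB : IsE1g A W B)
    (e₁ : EqOn B B₁ W) (e₂ : EqOn B B₂ W) : TrS A W B₁ B₂ :=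
  Relation.ReflTransGen.single ⟨1, fun p => B p.1, 0, one_pos, mem_ball_self one_pos,
    GT.of_fst hB _, fun _ ha => e₁ ha, fun _ ha => e₂ ha⟩

/-- congruence on `W` (`W` open, `B` tangent to the first foliation) -/
theorem trS_congr {A : PFol n₁ n₂ X} {W : Set V} (hW : IsOpen W) {B B' B₁ B₁' : V → X}
    (hB : IsE1g A W B) (h : TrS A W B B') (e : EqOn B B₁ W) (e' : EqOn B' B₁' W) :
    TrS A W B₁ B₁' :=
  ((GT.tr_of_eqOn hB e (fun _ _ => rfl)).trans h).trans
    (GT.tr_of_eqOn (trS_isE1g hW hB h) (fun _ _ => rfl) e')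

theorem trS_comp {A : PFol n₁ n₂ X} {W : Set V} {W' : Set V'} {B B' : V → X} (h : TrS A W B B')
    {θ : V' → V} (hθ : AnalyticOnNhd ℂ θ W') (hm : MapsTo θ W' W) :
    TrS A W' (B ∘ θ) (B' ∘ θ) := by
  induction h with
  | refl => exact Relation.ReflTransGen.refl
  | tail _ h ih =>
    refine ih.tail ?_
    obtain ⟨R, G, s, hR, hs, hG, h0, h1⟩ := h
    refine ⟨R, fun z => G (θ z.1, z.2), s, hR, hs, ?_, fun a ha => h0 _ (hm ha),
      fun a ha => h1 _ (hm ha)⟩
    exact GT.comp (θ₂ := id) hG (fun z hz => ⟨hθ _ hz.1, analyticAt_id, hm hz.1, hz.2⟩)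

theorem GT.tr_step {A : PFol n₁ n₂ X} {W : Set V} {R : ℝ} {G : V × ℂ → X}
    (hG : IsPCg A (W ×ˢ ball (0 : ℂ) R) G) {s s' : ℂ} {ρ : ℝ} (hρ : 0 < ρ)
    (h : ball s ρ ⊆ ball 0 R) (hs : s' ∈ ball s ρ) :
    TrS A W (fun a => G (a, s)) (fun a => G (a, s')) := by
  refine Relation.ReflTransGen.single ⟨ρ, fun z => G (z.1, s + z.2), s' - s, hρ, ?_, ?_, ?_, ?_⟩
  · rw [mem_ball_zero_iff, ← dist_eq_norm]; exact hs
  · refine GT.comp (θ₁ := id) (θ₂ := fun t => s + t) hG (fun z hz => ⟨analyticAt_id,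
      analyticAt_const.add analyticAt_id, hz.1, h ?_⟩)
    have := hz.2
    rw [mem_ball_zero_iff] at this
    rw [mem_ball, dist_eq_norm]
    simpa using this
  · intro a _; simp
  · intro a _; simp

set_option linter.unusedVariables false in
/-- the slices of one rectangle are all related -/
theorem trS_slices {A : PFol n₁ n₂ X} {W : Set V} (hW : IsOpen W) {R : ℝ} {G : V × ℂ → X}
    (hG : IsPCg A (W ×ˢ ball (0 : ℂ) R) G) {s s' : ℂ} (hs : s ∈ ball (0 : ℂ) R)
    (hs' : s' ∈ ball (0 : ℂ) R) : TrS A W (fun a => G (a, s)) (fun a => G (a, s')) := by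
  rw [mem_ball_zero_iff] at hs hs'
  set m : ℝ := max ‖s‖ ‖s'‖ with hm
  have hmR : m < R := max_lt hs hs'
  obtain ⟨N, hN⟩ := exists_nat_gt (‖s' - s‖ / (R - m))
  have hN0 : (0 : ℝ) < N := lt_of_le_of_lt (div_nonneg (norm_nonneg _) (sub_pos.2 hmR).le) hN
  have hN1 : ‖s' - s‖ < (R - m) * N := by
    rw [div_lt_iff₀ (sub_pos.2 hmR)] at hN
    linarith
  have hNc : (N : ℂ) ≠ 0 := by exact_mod_cast hN0.ne'
  set p : ℕ → ℂ := fun k => s + ((k : ℂ) / N) * (s' - s) with hp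
  have hpn : ∀ k ≤ N, ‖p k‖ ≤ m := by
    intro k hk
    have hk1 : (k : ℝ) / N ≤ 1 := by
      rw [div_le_one hN0]; exact_mod_cast hk
    have hk0 : (0 : ℝ) ≤ (k : ℝ) / N := by positivity
    have e : p k = (((1 - (k : ℝ) / N : ℝ)) : ℂ) * s + (((k : ℝ) / N : ℝ) : ℂ) * s' := by
      simp only [hp]; push_cast; ring
    rw [e]
    refine (norm_add_le _ _).trans ?_
    rw [norm_mul, norm_mul, Complex.norm_real, Complex.norm_real, Real.norm_of_nonneg hk0,
      Real.norm_of_nonneg (by linarith)]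
    have h1 : ‖s‖ ≤ m := le_max_left _ _
    have h2 : ‖s'‖ ≤ m := le_max_right _ _
    nlinarith [mul_le_mul_of_nonneg_left h1 (by linarith : (0 : ℝ) ≤ 1 - (k : ℝ) / N),
      mul_le_mul_of_nonneg_left h2 hk0]
  have key : ∀ k ≤ N, TrS A W (fun a => G (a, s)) (fun a => G (a, p k)) := by
    intro k
    induction k with
    | zero =>
      intro _
      have : p 0 = s := by simp [hp]
      rw [this]
      exact Relation.ReflTransGen.refl
    | succ k ih =>
      intro hk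
      refine (ih (by omega)).trans (GT.tr_step hG (ρ := R - m) (sub_pos.2 hmR) ?_ ?_)
      · intro z hz
        rw [mem_ball, dist_eq_norm] at hz
        rw [mem_ball_zero_iff]
        have : z = (z - p k) + p k := by ring
        rw [this]
        have := hpn k (by omega)
        linarith [norm_add_le (z - p k) (p k)]
      · rw [mem_ball, dist_eq_norm]
        have : p (k + 1) - p k = (s' - s) / N := by
          simp only [hp]; push_cast; field_simp; ring
        rw [this, norm_div, Complex.norm_natCast, div_lt_iff₀ hN0]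
        exact hN1
  have := key N le_rfl
  have e : p N = s' := by simp only [hp]; field_simp; ring
  rwa [e] at this

theorem trS_symm {A : PFol n₁ n₂ X} {W : Set V} (hW : IsOpen W) {B B' : V → X}
    (hB : IsE1g A W B) (h : TrS A W B B') : TrS A W B' B := by
  induction h with
  | refl => exact Relation.ReflTransGen.refl
  | tail h0 h ih =>
    refine Relation.ReflTransGen.trans ?_ ih
    have hE := trS_isE1g hW hB h0
    obtain ⟨R, G, s, hR, hs, hG, h0, h1⟩ := h
    exact trS_congr hW (GT.slice hG hs) (trS_slices hW hG hs (mem_ball_self hR)) h1 h0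

theorem GT.isE1g_plq (A : PFol n₁ n₂ X) (i : A.ι) {b : EV n₂} (hb : b ∈ ball (0 : EV n₂) 1) :
    IsE1g A (ball 0 1) (plq A i b) := by
  intro t ht
  refine ⟨i, id, b, analyticAt_id, ?_⟩
  filter_upwards [isOpen_ball.mem_nhds ht] with s hs
  have hm : (s, b) ∈ (A.ch i).target := by rw [A.target_eq i]; exact ⟨hs, hb⟩
  exact ⟨(A.ch i).map_target hm, (A.ch i).right_inv hm⟩

theorem GT.isPCg_symm (A : PFol n₁ n₂ X) (i : A.ι) :
    IsPCg A (ball (0 : EV n₁) 1 ×ˢ ball (0 : EV n₂) 1) (A.ch i).symm := by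
  intro z hz
  refine ⟨i, id, id, analyticAt_id, analyticAt_id, ?_⟩
  filter_upwards [(isOpen_ball.prod isOpen_ball).mem_nhds hz] with w hw
  have hm : w ∈ (A.ch i).target := by rw [A.target_eq i]; exact hw
  exact ⟨(A.ch i).map_target hm, (A.ch i).right_inv hm⟩

theorem GT.trS_plq0 (A : PFol n₁ n₂ X) (i : A.ι) {b : EV n₂} (hb : b ∈ ball (0 : EV n₂) 1) :
    TrS A (ball (0 : EV n₁) 1) (plq A i 0) (plq A i b) := by
  rw [mem_ball_zero_iff] at hb
  have hpos : 0 < 1 + ‖b‖ := by positivity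
  refine Relation.ReflTransGen.single ⟨2 / (1 + ‖b‖), fun z => (A.ch i).symm (z.1, z.2 • b), 1,
    by positivity, ?_, ?_, ?_, ?_⟩
  · rw [mem_ball_zero_iff, norm_one, lt_div_iff₀ hpos]; linarith
  · refine GT.comp (θ₁ := id) (θ₂ := fun t : ℂ => t • b) (GT.isPCg_symm A i)
      (fun z hz => ⟨analyticAt_id, by fun_prop, hz.1, ?_⟩)
    have := hz.2
    rw [mem_ball_zero_iff] at this ⊢
    rw [lt_div_iff₀ hpos] at this
    rw [norm_smul]
    nlinarith [norm_nonneg z.2, norm_nonneg b]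
  · intro a _; simp [plq]
  · intro a _; simp [plq]

/-- plaques of one chart are related -/
theorem trS_plq (A : PFol n₁ n₂ X) (i : A.ι) {b b' : EV n₂} (hb : b ∈ ball (0 : EV n₂) 1)
    (hb' : b' ∈ ball (0 : EV n₂) 1) :
    TrS A (ball (0 : EV n₁) 1) (plq A i b) (plq A i b') :=
  (trS_symm isOpen_ball (GT.isE1g_plq A i (mem_ball_self one_pos)) (GT.trS_plq0 A i hb)).trans
    (GT.trS_plq0 A i hb')

/-- change of chart for plaques: near a point of `X` the plaque maps of two charts differ by an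
analytic reparametrisation with invertible derivative -/
theorem plq_change (A : PFol n₁ n₂ X) (i j : A.ι) (x : X) (hi : x ∈ (A.ch i).source)
    (hj : x ∈ (A.ch j).source) :
    ∃ (θ : EV n₁ → EV n₁), AnalyticAt ℂ θ (A.ch i x).1 ∧ θ (A.ch i x).1 = (A.ch j x).1 ∧
      (fderiv ℂ θ (A.ch i x).1).IsInvertible ∧
      (∀ᶠ y in 𝓝 x, θ (A.ch i y).1 = (A.ch j y).1) ∧
      ∀ᶠ a in 𝓝 (A.ch i x).1, plq A i (A.ch i x).2 a = plq A j (A.ch j x).2 (θ a) := by
  obtain ⟨φ, ψ, hφ, hψ, h⟩ := A.compat i j x ⟨hi, hj⟩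
  obtain ⟨φ', ψ', hφ', hψ', h'⟩ := A.compat j i x ⟨hj, hi⟩
  have hx : (A.ch i).symm (A.ch i x) = x := (A.ch i).left_inv hi
  have hx' : (A.ch j).symm (A.ch j x) = x := (A.ch j).left_inv hj
  have e0 : A.ch j x = (φ (A.ch i x).1, ψ (A.ch i x).2) := by
    have := h.self_of_nhds; rwa [hx] at this
  have e0' : A.ch i x = (φ' (A.ch j x).1, ψ' (A.ch j x).2) := by
    have := h'.self_of_nhds; rwa [hx'] at this
  have ci : ContinuousAt (A.ch i) x := (A.ch i).continuousAt hi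
  have cj : ContinuousAt (A.ch j) x := (A.ch j).continuousAt hj
  -- near x
  have n1 : ∀ᶠ y in 𝓝 x, A.ch j y = (φ (A.ch i y).1, ψ (A.ch i y).2) := by
    filter_upwards [ci.eventually h, (A.ch i).open_source.mem_nhds hi] with y hy hyi
    rwa [(A.ch i).left_inv hyi] at hy
  have n2 : ∀ᶠ y in 𝓝 x, A.ch i y = (φ' (A.ch j y).1, ψ' (A.ch j y).2) := by
    filter_upwards [cj.eventually h', (A.ch j).open_source.mem_nhds hj] with y hy hyj
    rwa [(A.ch j).left_inv hyj] at hy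
  -- inverse relations
  have ti : (A.ch i x) ∈ (A.ch i).target := (A.ch i).map_source hi
  have tj : (A.ch j x) ∈ (A.ch j).target := (A.ch j).map_source hj
  have si : ContinuousAt (A.ch i).symm (A.ch i x) := (A.ch i).continuousAt_symm ti
  have sj : ContinuousAt (A.ch j).symm (A.ch j x) := (A.ch j).continuousAt_symm tj
  have si' : Tendsto (A.ch i).symm (𝓝 (A.ch i x)) (𝓝 x) := by
    have := si.tendsto; rwa [hx] at this
  have sj' : Tendsto (A.ch j).symm (𝓝 (A.ch j x)) (𝓝 x) := by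
    have := sj.tendsto; rwa [hx'] at this
  have k1 : ∀ᶠ a in 𝓝 (A.ch i x).1, φ' (φ a) = a := by
    have hc : Tendsto (fun a => (a, (A.ch i x).2)) (𝓝 (A.ch i x).1) (𝓝 (A.ch i x)) := by
      have : ContinuousAt (fun a => (a, (A.ch i x).2)) (A.ch i x).1 := by fun_prop
      exact this
    have hm := hc.eventually ((si'.eventually (n1.and n2)).and
      ((A.ch i).open_target.mem_nhds ti))
    filter_upwards [hm] with a ha
    obtain ⟨⟨h1, h2⟩, h3⟩ := ha
    rw [(A.ch i).right_inv h3] at h1 h2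
    have := congrArg Prod.fst h2
    simp only [h1] at this
    exact this.symm
  have k2 : ∀ᶠ a in 𝓝 (A.ch j x).1, φ (φ' a) = a := by
    have hc : Tendsto (fun a => (a, (A.ch j x).2)) (𝓝 (A.ch j x).1) (𝓝 (A.ch j x)) := by
      have : ContinuousAt (fun a => (a, (A.ch j x).2)) (A.ch j x).1 := by fun_prop
      exact this
    have hm := hc.eventually ((sj'.eventually (n1.and n2)).and
      ((A.ch j).open_target.mem_nhds tj))
    filter_upwards [hm] with a ha
    obtain ⟨⟨h1, h2⟩, h3⟩ := ha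
    rw [(A.ch j).right_inv h3] at h1 h2
    have := congrArg Prod.fst h1
    simp only [h2] at this
    exact this.symm
  have e1 : φ (A.ch i x).1 = (A.ch j x).1 := by rw [e0]
  have e1' : φ' (A.ch j x).1 = (A.ch i x).1 := by rw [e0']
  refine ⟨φ, hφ, e1, ?_, ?_, ?_⟩
  · have d1 : HasFDerivAt φ (fderiv ℂ φ (A.ch i x).1) (A.ch i x).1 :=
      hφ.differentiableAt.hasFDerivAt
    have d2 : HasFDerivAt φ' (fderiv ℂ φ' (A.ch j x).1) (A.ch j x).1 :=
      hφ'.differentiableAt.hasFDerivAt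
    have c1 : (fderiv ℂ φ' (A.ch j x).1).comp (fderiv ℂ φ (A.ch i x).1)
        = ContinuousLinearMap.id ℂ (EV n₁) := by
      have d3 : HasFDerivAt (φ' ∘ φ) ((fderiv ℂ φ' (A.ch j x).1).comp
          (fderiv ℂ φ (A.ch i x).1)) (A.ch i x).1 := by
        rw [← e1] at d2 ⊢
        exact d2.comp _ d1
      have d4 : HasFDerivAt (φ' ∘ φ) (ContinuousLinearMap.id ℂ (EV n₁)) (A.ch i x).1 :=
        (hasFDerivAt_id _).congr_of_eventuallyEq k1
      exact d3.unique d4
    have c2 : (fderiv ℂ φ (A.ch i x).1).comp (fderiv ℂ φ' (A.ch j x).1)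
        = ContinuousLinearMap.id ℂ (EV n₁) := by
      have d3 : HasFDerivAt (φ ∘ φ') ((fderiv ℂ φ (A.ch i x).1).comp
          (fderiv ℂ φ' (A.ch j x).1)) (A.ch j x).1 := by
        rw [← e1'] at d1 ⊢
        exact d1.comp _ d2
      have d4 : HasFDerivAt (φ ∘ φ') (ContinuousLinearMap.id ℂ (EV n₁)) (A.ch j x).1 :=
        (hasFDerivAt_id _).congr_of_eventuallyEq k2
      exact d3.unique d4
    exact ContinuousLinearMap.IsInvertible.of_inverse c2 c1
  · filter_upwards [n1] with y hy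
    rw [hy]
  · have hc : Tendsto (fun a => (a, (A.ch i x).2)) (𝓝 (A.ch i x).1) (𝓝 (A.ch i x)) := by
      have : ContinuousAt (fun a => (a, (A.ch i x).2)) (A.ch i x).1 := by fun_prop
      exact this
    filter_upwards [hc.eventually ((si'.eventually (n1.and ((A.ch j).open_source.mem_nhds hj))).and
      ((A.ch i).open_target.mem_nhds ti))] with a ha
    obtain ⟨⟨h1, h2⟩, h3⟩ := ha
    rw [(A.ch i).right_inv h3] at h1
    have h4 : (φ a, (A.ch j x).2) = A.ch j ((A.ch i).symm (a, (A.ch i x).2)) := by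
      rw [h1, e0]
    simp only [plq]
    rw [h4, (A.ch j).left_inv h2]

end

end Crest.Agent.R266
end

-- ▼ part R266/GImm
section

/-!
R266 / GImm (part of node G5b of the global part): immersed plaques.
-/

set_option autoImplicit false

open scoped Manifold ContDiff Topology
open Set Metric Filter

namespace Crest.Agent.R266

section
variable {n₁ n₂ : ℕ} {X : Type} [TopologicalSpace X]

theorem imm1_plq (A : PFol n₁ n₂ X) (i : A.ι) {b : EV n₂} (hb : b ∈ ball (0 : EV n₂) 1) :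
    Imm1 A (ball 0 1) (plq A i b) := by
  intro t ht
  refine ⟨i, id, b, analyticAt_id, ?_, ?_⟩
  · rw [fderiv_id]
    exact ⟨ContinuousLinearEquiv.refl ℂ _, rfl⟩
  · filter_upwards [isOpen_ball.mem_nhds ht] with s hs
    have hm : (s, b) ∈ (A.ch i).target := by
      rw [A.target_eq]; exact ⟨hs, hb⟩
    exact ⟨(A.ch i).map_target hm, (A.ch i).right_inv hm⟩

theorem imm1_isE1g {A : PFol n₁ n₂ X} {U : Set (EV n₁)} {c : EV n₁ → X} (h : Imm1 A U c) :
    IsE1g A U c := by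
  intro t ht
  obtain ⟨i, a, b, ha, _, hev⟩ := h t ht
  exact ⟨i, a, b, ha, hev⟩

namespace GTE

/-- the transition maps of a product-foliated atlas have invertible first component -/
lemma trans_invertible (A : PFol n₁ n₂ X) (i j : A.ι) (x : X) (hi : x ∈ (A.ch i).source)
    (hj : x ∈ (A.ch j).source) (φ : EV n₁ → EV n₁) (ψ : EV n₂ → EV n₂)
    (hφ : AnalyticAt ℂ φ (A.ch i x).1)
    (h : ∀ᶠ p in 𝓝 (A.ch i x), A.ch j ((A.ch i).symm p) = (φ p.1, ψ p.2)) :
    (fderiv ℂ φ (A.ch i x).1).IsInvertible := by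
  obtain ⟨φ', ψ', hφ', _, h'⟩ := A.compat j i x ⟨hj, hi⟩
  -- values at the point
  have hix : (A.ch i).symm (A.ch i x) = x := (A.ch i).left_inv hi
  have hjx : (A.ch j).symm (A.ch j x) = x := (A.ch j).left_inv hj
  have v1 : φ (A.ch i x).1 = (A.ch j x).1 := by
    have := h.self_of_nhds
    rw [hix] at this
    rw [this]
  have v2 : φ' (A.ch j x).1 = (A.ch i x).1 := by
    have := h'.self_of_nhds
    rw [hjx] at this
    rw [this]
  -- slices
  have key : ∀ (k l : A.ι) (_ : x ∈ (A.ch k).source) (_ : x ∈ (A.ch l).source)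
      (f g : EV n₁ → EV n₁) (f₂ g₂ : EV n₂ → EV n₂)
      (_ : ∀ᶠ p in 𝓝 (A.ch k x), A.ch l ((A.ch k).symm p) = (f p.1, f₂ p.2))
      (_ : ∀ᶠ p in 𝓝 (A.ch l x), A.ch k ((A.ch l).symm p) = (g p.1, g₂ p.2)),
      ∀ᶠ a in 𝓝 (A.ch k x).1, g (f a) = a := by
    intro k l hk hl f g f₂ g₂ hf hg
    have hkt : A.ch k x ∈ (A.ch k).target := (A.ch k).map_source hk
    -- continuity of p ↦ ch l (symm p)
    have hc1 : Tendsto (fun p => (A.ch k).symm p) (𝓝 (A.ch k x)) (𝓝 x) := by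
      have := (A.ch k).continuousAt_symm hkt
      rw [ContinuousAt, (A.ch k).left_inv hk] at this
      exact this
    have hc2 : Tendsto (fun p => A.ch l ((A.ch k).symm p)) (𝓝 (A.ch k x)) (𝓝 (A.ch l x)) :=
      ((A.ch l).continuousAt hl).tendsto.comp hc1
    have e1 : ∀ᶠ p in 𝓝 (A.ch k x), g (f p.1) = p.1 := by
      filter_upwards [hf, hc2.eventually hg, hc1.eventually ((A.ch l).open_source.mem_nhds hl),
        (A.ch k).open_target.mem_nhds hkt] with p hp hp2 hp3 hp4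
      rw [(A.ch l).left_inv hp3, (A.ch k).right_inv hp4, hp] at hp2
      have := congrArg Prod.fst hp2
      exact this.symm
    have hsl : Tendsto (fun a : EV n₁ => (a, (A.ch k x).2)) (𝓝 (A.ch k x).1) (𝓝 (A.ch k x)) := by
      have : Continuous (fun a : EV n₁ => (a, (A.ch k x).2)) := by fun_prop
      exact this.tendsto _
    exact hsl.eventually e1
  have e1 : ∀ᶠ a in 𝓝 (A.ch i x).1, φ' (φ a) = a := key i j hi hj φ φ' ψ ψ' h h'
  have e2 : ∀ᶠ a in 𝓝 (A.ch j x).1, φ (φ' a) = a := key j i hj hi φ' φ ψ' ψ h' h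
  have d1 : (fderiv ℂ φ' (A.ch j x).1).comp (fderiv ℂ φ (A.ch i x).1) =
      ContinuousLinearMap.id ℂ _ := by
    have hc : HasFDerivAt (fun a => φ' (φ a))
        ((fderiv ℂ φ' (A.ch j x).1).comp (fderiv ℂ φ (A.ch i x).1)) (A.ch i x).1 := by
      refine HasFDerivAt.comp (A.ch i x).1 ?_ hφ.differentiableAt.hasFDerivAt
      rw [v1]
      exact hφ'.differentiableAt.hasFDerivAt
    exact (hc.congr_of_eventuallyEq (f₁ := fun a => a) (e1.mono fun a ha => ha.symm)).unique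
      (hasFDerivAt_id _)
  have d2 : (fderiv ℂ φ (A.ch i x).1).comp (fderiv ℂ φ' (A.ch j x).1) =
      ContinuousLinearMap.id ℂ _ := by
    have hc : HasFDerivAt (fun a => φ (φ' a))
        ((fderiv ℂ φ (A.ch i x).1).comp (fderiv ℂ φ' (A.ch j x).1)) (A.ch j x).1 := by
      refine HasFDerivAt.comp (A.ch j x).1 ?_ hφ'.differentiableAt.hasFDerivAt
      rw [v2]
      exact hφ.differentiableAt.hasFDerivAt
    exact (hc.congr_of_eventuallyEq (f₁ := fun a => a) (e2.mono fun a ha => ha.symm)).unique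
      (hasFDerivAt_id _)
  refine ⟨ContinuousLinearEquiv.equivOfInverse (fderiv ℂ φ (A.ch i x).1)
    (fderiv ℂ φ' (A.ch j x).1) (fun v => ?_) (fun v => ?_), rfl⟩
  · exact DFunLike.congr_fun d1 v
  · exact DFunLike.congr_fun d2 v

/-- being an immersed plaque can be tested in any chart -/
lemma imm_iff (A : PFol n₁ n₂ X) {c : EV n₁ → X} {t : EV n₁} {i : A.ι} {a : EV n₁ → EV n₁}
    {b : EV n₂} (ha : AnalyticAt ℂ a t)
    (h : ∀ᶠ s in 𝓝 t, c s ∈ (A.ch i).source ∧ A.ch i (c s) = (a s, b)) :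
    Imm1 A {t} c ↔ (fderiv ℂ a t).IsInvertible := by
  constructor
  · intro hI
    obtain ⟨j, a', b', ha', hinv, hev⟩ := hI t rfl
    have hi : c t ∈ (A.ch i).source := h.self_of_nhds.1
    have hj : c t ∈ (A.ch j).source := hev.self_of_nhds.1
    obtain ⟨φ, ψ, hφ, hψ, hT⟩ := A.compat j i (c t) ⟨hj, hi⟩
    have hφinv := trans_invertible A j i (c t) hj hi φ ψ hφ hT
    have hjt : A.ch j (c t) = (a' t, b') := hev.self_of_nhds.2
    -- continuity of a' at t
    have hcont : Tendsto (fun s => (a' s, b')) (𝓝 t) (𝓝 (A.ch j (c t))) := by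
      rw [hjt]
      exact ha'.continuousAt.prodMk_nhds tendsto_const_nhds
    have e : a =ᶠ[𝓝 t] (fun s => φ (a' s)) := by
      filter_upwards [h, hev, hcont.eventually hT] with s h1 h2 h3
      have h4 : (A.ch j).symm (a' s, b') = c s := by
        rw [← h2.2, (A.ch j).left_inv h2.1]
      rw [h4, h1.2] at h3
      exact congrArg Prod.fst h3
    have hφ' : AnalyticAt ℂ φ (a' t) := by
      have : (A.ch j (c t)).1 = a' t := by rw [hjt]
      rw [← this]; exact hφ
    have hφi' : (fderiv ℂ φ (a' t)).IsInvertible := by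
      have : (A.ch j (c t)).1 = a' t := by rw [hjt]
      rw [← this]; exact hφinv
    rw [e.fderiv_eq, fderiv_fun_comp t hφ'.differentiableAt ha'.differentiableAt]
    exact hφi'.comp hinv
  · intro hinv s hs
    rw [mem_singleton_iff] at hs
    subst hs
    exact ⟨i, a, b, ha, hinv, h⟩

end GTE

theorem trS_imm1 {A : PFol n₁ n₂ X} {W : Set (EV n₁)} (hW : IsOpen W) {B B' : EV n₁ → X}
    (hB : Imm1 A W B) (h : TrS A W B B') : Imm1 A W B' := by
  induction h with
  | refl => exact hB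
  | @tail B₁ B₂ _ htr ih =>
    obtain ⟨R, G, s, hR, hs, hG, hG0, hGs⟩ := htr
    intro t ht
    -- the property along the disc
    have hloc : ∀ s₀ ∈ ball (0 : ℂ) R, ∀ᶠ s' in 𝓝[ball (0 : ℂ) R] s₀,
        (Imm1 A {t} (fun a => G (a, s₀)) ↔ Imm1 A {t} (fun a => G (a, s'))) := by
      intro s₀ hs₀
      obtain ⟨i, α, β, hα, _, hev⟩ := hG (t, s₀) ⟨ht, hs₀⟩
      have hsw : Tendsto (fun w : ℂ × EV n₁ => (w.2, w.1)) (𝓝 (s₀, t)) (𝓝 (t, s₀)) :=
        (continuous_snd.prodMk continuous_fst).tendsto _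
      have h2 : ∀ᶠ s' in 𝓝 s₀, ∀ᶠ a in 𝓝 t, G (a, s') ∈ (A.ch i).source ∧
          A.ch i (G (a, s')) = (α a, β s') := (hsw.eventually hev).curry_nhds
      have h3 := h2.self_of_nhds
      refine (h2.filter_mono nhdsWithin_le_nhds).mono fun s' hs' => ?_
      rw [GTE.imm_iff A hα h3, GTE.imm_iff A hα hs']
    have hconst := (convex_ball (0 : ℂ) R).isPreconnected.induction₂
      (fun u v => (Imm1 A {t} (fun a => G (a, u)) ↔ Imm1 A {t} (fun a => G (a, v)))) hloc
      (fun u v w _ _ _ h1 h2 => h1.trans h2) (fun u v _ _ h1 => h1.symm)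
      (mem_ball_self hR) hs
    -- congruence at both ends
    have hcg : ∀ (c c' : EV n₁ → X), (∀ a ∈ W, c a = c' a) → Imm1 A {t} c → Imm1 A {t} c' := by
      intro c c' hcc hc u hu
      rw [mem_singleton_iff] at hu
      subst hu
      obtain ⟨i, a, b, ha, hinv, hev⟩ := hc u rfl
      refine ⟨i, a, b, ha, hinv, ?_⟩
      filter_upwards [hev, hW.mem_nhds ht] with v hv hvW
      rw [← hcc v hvW]
      exact hv
    have h1 : Imm1 A {t} B₁ := fun u hu => by
      rw [mem_singleton_iff] at hu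
      subst hu
      exact ih u ht
    have h2 : Imm1 A {t} (fun a => G (a, 0)) := hcg _ _ (fun a ha => (hG0 a ha).symm) h1
    exact hcg _ _ hGs (hconst.1 h2) t rfl

end

end Crest.Agent.R266
end

-- ▼ part R266/GTransExt
section

/-!
R266 / GTransExt (node G5b of the global part): extension of transported germs.
-/

set_option autoImplicit false

open scoped Manifold ContDiff Topology
open Set Metric Filter

namespace Crest.Agent.R266



section
variable {n₁ n₂ : ℕ} {X : Type} [TopologicalSpace X]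
variable {V : Type} [NormedAddCommGroup V] [NormedSpace ℂ V]

/-- EXTENSION: a transported germ of a map defined on a big ball extends to the big ball -/
theorem trS_extend [T2Space X] {A : PFol n₁ n₂ X} (hC : CompG A V ℂ) {a₀ : V} {δ r : ℝ}
    (hδ : 0 < δ) (hr : δ ≤ r) {B B' : V → X} (hB : IsE1g A (ball a₀ r) B)
    (h : TrS A (ball a₀ δ) B B') :
    ∃ B'' : V → X, TrS A (ball a₀ r) B B'' ∧ ∀ a ∈ ball a₀ δ, B'' a = B' a := by
  induction h with
  | refl => exact ⟨B, Relation.ReflTransGen.refl, fun _ _ => rfl⟩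
  | @tail B₁ B₂ _ htr ih =>
    obtain ⟨B₁', hB₁', he⟩ := ih
    obtain ⟨R, G, s, hR, hs, hG, hG0, hGs⟩ := htr
    have hmem : a₀ ∈ ball a₀ δ := mem_ball_self hδ
    have hE1 : IsE1g A (ball a₀ r) B₁' := trS_isE1g isOpen_ball hB hB₁'
    have hE2 : IsE2g A (ball (0 : ℂ) R) (fun t => G (a₀, t)) := isPCg_slice2 hG hmem
    obtain ⟨G', hG', h1, h2⟩ := hC a₀ 0 r R B₁' (fun t => G (a₀, t)) (hδ.trans_le hr) hR hE1 hE2
      (by rw [he a₀ hmem, hG0 a₀ hmem])
    refine ⟨fun a => G' (a, s), hB₁'.tail ⟨R, G', s, hR, hs, hG', h1, fun _ _ => rfl⟩, ?_⟩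
    intro a ha
    have hsub : ball a₀ δ ×ˢ ball (0 : ℂ) R ⊆ ball a₀ r ×ˢ ball (0 : ℂ) R :=
      prod_mono (ball_subset_ball hr) Subset.rfl
    have hEq : EqOn G' G (ball a₀ δ ×ˢ ball (0 : ℂ) R) := by
      refine isPCg_unique_axes isOpen_ball isOpen_ball (convex_ball a₀ δ).isPreconnected
        (convex_ball (0 : ℂ) R).isPreconnected (isPCg_mono hG' hsub) hG hmem (mem_ball_self hR) ?_ ?_
      · filter_upwards [isOpen_ball.mem_nhds hmem] with b hb
        rw [h1 b (ball_subset_ball hr hb), he b hb, hG0 b hb]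
      · filter_upwards [isOpen_ball.mem_nhds (mem_ball_self hR)] with b hb
        rw [h2 b hb]
    show G' (a, s) = B₂ a
    rw [hEq ⟨ha, hs⟩, hGs a ha]

end

end Crest.Agent.R266
end

-- ▼ part R266/GProjBasic
section

/-!
R266 / GProjBasic (helper529): uniqueness and basic properties of global sections (block G6).
-/

set_option autoImplicit false

open scoped Manifold ContDiff Topology
open Set Metric Filter

namespace Crest.Agent.R266

namespace GPB

/-- clopen induction on a preconnected set -/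
theorem preconn_ind {Y : Type} [TopologicalSpace Y] {U : Set Y} (hU : IsPreconnected U)
    {P : Y → Prop} (hex : ∃ y ∈ U, ∀ᶠ z in 𝓝 y, P z)
    (h : ∀ y ∈ U, (∃ᶠ z in 𝓝 y, ∀ᶠ w in 𝓝 z, P w) → ∀ᶠ z in 𝓝 y, P z) :
    ∀ y ∈ U, ∀ᶠ z in 𝓝 y, P z := by
  have hsub : U ⊆ {y | ∀ᶠ z in 𝓝 y, P z} := by
    refine hU.subset_of_closure_inter_subset isOpen_setOfPred_eventually_nhds ?_ ?_
    · obtain ⟨y, hy, hy'⟩ := hex
      exact ⟨y, hy, hy'⟩
    · rintro y ⟨hy, hyU⟩
      exact h y hyU (mem_closure_iff_frequently.mp hy)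
  exact hsub

variable {n₁ n₂ : ℕ} {X : Type} [TopologicalSpace X]

theorem trS_plq_isE1g {A : PFol n₁ n₂ X} {i : A.ι} {b : EV n₂} (hb : b ∈ ball (0 : EV n₂) 1)
    {a₀ : EV n₁} {δ : ℝ} (hδ : ball a₀ δ ⊆ ball 0 1) {B : EV n₁ → X}
    (h : TrS A (ball a₀ δ) (plq A i b) B) : IsE1g A (ball a₀ δ) B :=
  trS_isE1g isOpen_ball (isE1g_mono (isE1g_plq A i hb) hδ) h

end GPB

open GPB

variable {n₁ n₂ : ℕ} {X : Type} [TopologicalSpace X]

/-- a section maps first-leaf curves to first-leaf curves -/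
theorem sec1_comp {V : Type} [NormedAddCommGroup V] [NormedSpace ℂ V] {A : PFol n₁ n₂ X}
    {p : X → X} (hp : Sec1 A univ p) {U : Set V} {c : V → X} (hc : IsE1g A U c) :
    IsE1g A U (p ∘ c) := by
  intro t ht
  obtain ⟨i, B, δ, hδ, hi, hsub, hTr, hev⟩ := hp (c t) (mem_univ _)
  obtain ⟨a, ha, hca⟩ := isE1g_chart hc ht hi
  have hb : (A.ch i (c t)).2 ∈ ball (0 : EV n₂) 1 := by
    have := (A.ch i).map_source hi
    rw [A.target_eq i] at this
    exact this.2
  have hB := trS_plq_isE1g hb hsub hTr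
  have hat : a t = (A.ch i (c t)).1 := by
    rw [hca.self_of_nhds.2]
  have h1 : IsE1g A {t} (B ∘ a) := by
    refine isE1g_comp hB ?_ ?_
    · rintro s rfl
      exact ha
    · rintro s rfl
      rw [hat]
      exact mem_ball_self hδ
  have hcont : ContinuousAt c t := isE1g_continuousAt hc ht
  have h2 : IsE1g A {t} (p ∘ c) := by
    refine isE1g_congr h1 ?_
    rintro s rfl
    filter_upwards [hca, hcont.eventually hev] with s' e1 e2
    show B (a s') = p (c s')
    rw [e2, e1.2]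
  exact h2 t rfl

/-- a section is constant along second-leaf curves -/
theorem sec1_const {V : Type} [NormedAddCommGroup V] [NormedSpace ℂ V] {A : PFol n₁ n₂ X}
    {p : X → X} (hp : Sec1 A univ p) {U : Set V} (hU : IsOpen U) (hU' : IsPreconnected U)
    {c : V → X} (hc : IsE2g A U c) {s t : V} (hs : s ∈ U) (ht : t ∈ U) : p (c s) = p (c t) := by
  have hloc : ∀ r ∈ U, ∀ᶠ r' in 𝓝 r, p (c r') = p (c r) := by
    intro r hr
    obtain ⟨i, B, δ, hδ, hi, hsub, hTr, hev⟩ := hp (c r) (mem_univ _)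
    obtain ⟨b, hb, hcb⟩ := isE2g_chart hc hr hi
    have hcont : ContinuousAt c r := isE2g_continuousAt hc hr
    have e0 := hev.self_of_nhds
    filter_upwards [hcb, hcont.eventually hev] with r' e1 e2
    rw [e2, e0, e1.2]
  have key := preconn_ind hU' (P := fun r => p (c r) = p (c t)) ⟨t, ht, hloc t ht⟩ ?_
  · exact (key s hs).self_of_nhds
  · intro r hr hfr
    have h1 := hloc r hr
    obtain ⟨r', h2, h3⟩ := (hfr.and_eventually h1).exists
    have h4 : p (c r) = p (c t) := by rw [← h3]; exact h2.self_of_nhds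
    filter_upwards [h1] with r'' h5
    rw [h5, h4]

theorem sec1_unique [T2Space X] {A : PFol n₁ n₂ X} {U : Set X} (hU : IsOpen U)
    (hU' : IsPreconnected U) {f g : X → X} (hf : Sec1 A U f) (hg : Sec1 A U g) {x : X}
    (hx : x ∈ U) (e : f =ᶠ[𝓝 x] g) : EqOn f g U := by
  have key := preconn_ind hU' (P := fun y => f y = g y) ⟨x, hx, e⟩ ?_
  · intro y hy
    exact (key y hy).self_of_nhds
  intro y hy hfr
  obtain ⟨i, B, δ, hδ, hi, hsub, hTr, hev⟩ := hf y hy
  obtain ⟨j, B', δ', hδ', hj, hsub', hTr', hev'⟩ := hg y hy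
  obtain ⟨θ, hθ, hθ0, -, hθe, -⟩ := plq_change A i j y hi hj
  have hbi : (A.ch i y).2 ∈ ball (0 : EV n₂) 1 := by
    have := (A.ch i).map_source hi
    rw [A.target_eq i] at this
    exact this.2
  have hbj : (A.ch j y).2 ∈ ball (0 : EV n₂) 1 := by
    have := (A.ch j).map_source hj
    rw [A.target_eq j] at this
    exact this.2
  have hB := trS_plq_isE1g hbi hsub hTr
  have hB' := trS_plq_isE1g hbj hsub' hTr'
  -- a small ball around `a₀`
  have hθb : ∀ᶠ a in 𝓝 (A.ch i y).1, θ a ∈ ball (A.ch j y).1 δ' := by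
    have h1 := hθ.continuousAt
    rw [ContinuousAt, hθ0] at h1
    exact h1.eventually (isOpen_ball.mem_nhds (mem_ball_self hδ'))
  obtain ⟨ρ, hρ, hρs⟩ := Metric.eventually_nhds_iff_ball.mp
    ((hθ.eventually_analyticAt.and hθb).and
      (isOpen_ball.mem_nhds (mem_ball_self hδ) : ∀ᶠ a in 𝓝 (A.ch i y).1, a ∈ ball (A.ch i y).1 δ))
  have hBρ : IsE1g A (ball (A.ch i y).1 ρ) B := isE1g_mono hB fun a ha => (hρs a ha).2
  have hBρ' : IsE1g A (ball (A.ch i y).1 ρ) (B' ∘ θ) :=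
    isE1g_comp hB' (fun a ha => (hρs a ha).1.1) fun a ha => (hρs a ha).1.2
  -- all the facts near `y`
  have hchc : ContinuousAt (fun y' => (A.ch i y').1) y :=
    continuous_fst.continuousAt.comp ((A.ch i).continuousAt hi)
  have hall : ∀ᶠ z in 𝓝 y, (f z = B (A.ch i z).1 ∧ g z = (B' ∘ θ) (A.ch i z).1) ∧
      z ∈ (A.ch i).source ∧ (A.ch i z).1 ∈ ball (A.ch i y).1 ρ := by
    filter_upwards [hev, hev', hθe, (A.ch i).open_source.mem_nhds hi,
      hchc.eventually (isOpen_ball.mem_nhds (mem_ball_self hρ))] with z e1 e2 e3 e4 e5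
    refine ⟨⟨e1, ?_⟩, e4, e5⟩
    show g z = B' (θ (A.ch i z).1)
    rw [e2, e3]
  obtain ⟨z, hz1, hz2⟩ := (hfr.and_eventually hall.eventually_nhds).exists
  have hz0 := hz2.self_of_nhds
  have hBB : B =ᶠ[𝓝 (A.ch i z).1] (B' ∘ θ) := by
    have hc : Tendsto (fun a : EV n₁ => (A.ch i).symm (a, (A.ch i z).2)) (𝓝 (A.ch i z).1)
        (𝓝 z) := by
      have h1 : ContinuousAt (fun a : EV n₁ => (a, (A.ch i z).2)) (A.ch i z).1 := by fun_prop
      have h2 : ContinuousAt (A.ch i).symm (A.ch i z) :=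
        (A.ch i).continuousAt_symm ((A.ch i).map_source hz0.2.1)
      have h3 := ContinuousAt.comp (g := (A.ch i).symm)
        (f := fun a : EV n₁ => (a, (A.ch i z).2)) (x := (A.ch i z).1) h2 h1
      have h4 : (A.ch i).symm ((A.ch i z).1, (A.ch i z).2) = z := (A.ch i).left_inv hz0.2.1
      rw [ContinuousAt, Function.comp_apply, h4] at h3
      exact h3
    have hbz : (A.ch i z).2 ∈ ball (0 : EV n₂) 1 := by
      have := (A.ch i).map_source hz0.2.1
      rw [A.target_eq i] at this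
      exact this.2
    have haz : (A.ch i z).1 ∈ ball (0 : EV n₁) 1 := by
      have := (A.ch i).map_source hz0.2.1
      rw [A.target_eq i] at this
      exact this.1
    filter_upwards [hc.eventually hz1, hc.eventually hz2, isOpen_ball.mem_nhds haz]
      with a h1 h2 h3
    have h5 : A.ch i ((A.ch i).symm (a, (A.ch i z).2)) = (a, (A.ch i z).2) :=
      (A.ch i).right_inv (by rw [A.target_eq i]; exact ⟨h3, hbz⟩)
    have h6 := h2.1.1
    have h7 := h2.1.2
    rw [h5] at h6 h7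
    rw [← h6, ← h7]
    exact h1
  have hEq := isE1g_unique isOpen_ball (convex_ball _ _).isPreconnected hBρ hBρ' hz0.2.2 hBB
  filter_upwards [hall] with w hw
  rw [hw.1.1, hw.1.2]
  exact hEq hw.2.2

end Crest.Agent.R266
end

-- ▼ part R266/GProjChart
section

/-!
R266 / GProjChart (helper668, node G6): local form of sections in an arbitrary chart.
-/

set_option autoImplicit false

open scoped Manifold ContDiff Topology
open Set Metric Filter

namespace Crest.Agent.R266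

section
variable {n₁ n₂ : ℕ} {X : Type} [TopologicalSpace X]

theorem imm1_mono {A : PFol n₁ n₂ X} {U U' : Set (EV n₁)} {c : EV n₁ → X} (h : Imm1 A U c)
    (hU : U' ⊆ U) : Imm1 A U' c := fun t ht => h t (hU ht)

/-- change of chart for transports of plaques -/
theorem trS_plq_change {A : PFol n₁ n₂ X} {y : X} {i j : A.ι} (hi : y ∈ (A.ch i).source)
    (hj : y ∈ (A.ch j).source) {B : EV n₁ → X} {δ : ℝ} (hδ : 0 < δ)
    (hb : ball (A.ch j y).1 δ ⊆ ball 0 1)
    (hT : TrS A (ball (A.ch j y).1 δ) (plq A j (A.ch j y).2) B) :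
    ∃ (θ : EV n₁ → EV n₁) (δ' : ℝ), 0 < δ' ∧ AnalyticOnNhd ℂ θ (ball (A.ch i y).1 δ') ∧
      ball (A.ch i y).1 δ' ⊆ ball 0 1 ∧ MapsTo θ (ball (A.ch i y).1 δ') (ball (A.ch j y).1 δ) ∧
      TrS A (ball (A.ch i y).1 δ') (plq A i (A.ch i y).2) (B ∘ θ) ∧
      ∀ᶠ y' in 𝓝 y, θ (A.ch i y').1 = (A.ch j y').1 := by
  obtain ⟨θ, hθ, hθ0, -, h1, h2⟩ := plq_change A i j y hi hj
  have hmem := GB.ch_mem A hi
  have e1 : ∀ᶠ a in 𝓝 (A.ch i y).1, a ∈ ball (0 : EV n₁) 1 := isOpen_ball.mem_nhds hmem.1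
  have e2 : ∀ᶠ a in 𝓝 (A.ch i y).1, θ a ∈ ball (A.ch j y).1 δ := by
    refine hθ.continuousAt.eventually (isOpen_ball.mem_nhds ?_)
    rw [hθ0]; exact mem_ball_self hδ
  obtain ⟨δ', hδ', e⟩ := Metric.eventually_nhds_iff_ball.1
    (((e1.and e2).and h2).and hθ.eventually_analyticAt)
  have hmaps : MapsTo θ (ball (A.ch i y).1 δ') (ball (A.ch j y).1 δ) := fun a ha => (e a ha).1.1.2
  have hana : AnalyticOnNhd ℂ θ (ball (A.ch i y).1 δ') := fun a ha => (e a ha).2
  have hE : IsE1g A (ball (A.ch j y).1 δ) (plq A j (A.ch j y).2) :=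
    isE1g_mono (isE1g_plq A j (GB.ch_mem A hj).2) hb
  refine ⟨θ, δ', hδ', hana, fun a ha => (e a ha).1.1.1, hmaps, ?_, h1⟩
  refine trS_congr isOpen_ball (isE1g_comp hE hana hmaps) (trS_comp hT hana hmaps) ?_
    (fun _ _ => rfl)
  intro a ha
  exact (e a ha).1.2.symm

/-- local form of a section in ANY chart: `f = B ∘ (ch i ·).1` with `B` an immersion to a first leaf
obtained by transport of the plaque -/
theorem sec1_chart {A : PFol n₁ n₂ X} {U : Set X} (_hU : IsOpen U) {f : X → X} (hf : Sec1 A U f)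
    {y : X} (hy : y ∈ U) {i : A.ι} (hi : y ∈ (A.ch i).source) :
    ∃ (B : EV n₁ → X) (δ : ℝ), 0 < δ ∧ ball (A.ch i y).1 δ ⊆ ball 0 1 ∧
      TrS A (ball (A.ch i y).1 δ) (plq A i (A.ch i y).2) B ∧ Imm1 A (ball (A.ch i y).1 δ) B ∧
      ∀ᶠ y' in 𝓝 y, f y' = B (A.ch i y').1 := by
  obtain ⟨j, B, δ, hδ, hj, hb, hT, hfB⟩ := hf y hy
  obtain ⟨θ, δ', hδ', -, hb', -, hT', hθ⟩ := trS_plq_change hi hj hδ hb hT
  refine ⟨B ∘ θ, δ', hδ', hb', hT', ?_, ?_⟩
  · exact trS_imm1 isOpen_ball (imm1_mono (imm1_plq A i (GB.ch_mem A hi).2) hb') hT'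
  · filter_upwards [hfB, hθ] with y' h1 h2
    rw [h1, Function.comp_apply, h2]

theorem sec1_mono {A : PFol n₁ n₂ X} {U V : Set X} {f : X → X} (h : Sec1 A U f) (hV : V ⊆ U) :
    Sec1 A V f := fun y hy => h y (hV hy)

theorem sec1_congr {A : PFol n₁ n₂ X} {U : Set X} (hU : IsOpen U) {f g : X → X}
    (h : Sec1 A U f) (e : EqOn f g U) : Sec1 A U g := by
  intro y hy
  obtain ⟨j, B, δ, hδ, hj, hb, hT, hfB⟩ := h y hy
  refine ⟨j, B, δ, hδ, hj, hb, hT, ?_⟩
  filter_upwards [hfB, hU.mem_nhds hy] with y' h1 h2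
  rw [← e h2, h1]

end

end Crest.Agent.R266
end

-- ▼ part R266/GProjExt
section

/-!
R266 / GProjExt (helper668, node G6): extension of section germs over a chart box.
-/

set_option autoImplicit false

open scoped Manifold ContDiff Topology
open Set Metric Filter

namespace Crest.Agent.R266

section
variable {n₁ n₂ : ℕ} {X : Type} [TopologicalSpace X]

/-- sections of the form `B ∘ (ch i ·).1` on a set contained in the chart domain -/
theorem sec1_of_plq {A : PFol n₁ n₂ X} {i : A.ι} {U : Set X} (hU : U ⊆ (A.ch i).source)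
    {W : Set (EV n₁)} (hW : IsOpen W) (hW1 : W ⊆ ball 0 1) {b : EV n₂} (hb : b ∈ ball (0 : EV n₂) 1)
    {B : EV n₁ → X} (hT : TrS A W (plq A i b) B) (hUW : ∀ y ∈ U, (A.ch i y).1 ∈ W) :
    Sec1 A U (fun y => B (A.ch i y).1) := by
  intro y hy
  obtain ⟨δ, hδ, hδW⟩ := Metric.isOpen_iff.1 hW _ (hUW y hy)
  refine ⟨i, B, δ, hδ, hU hy, hδW.trans hW1, ?_, Eventually.of_forall fun _ => rfl⟩
  exact (trS_mono (trS_plq A i (GB.ch_mem A (hU hy)).2 hb) (hδW.trans hW1)).trans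
    (trS_mono hT hδW)

theorem sec1_extend [T2Space X] {A : PFol n₁ n₂ X} (hC : CompG A (EV n₁) ℂ) (y : X) :
    ∃ U, IsOpen U ∧ y ∈ U ∧ IsPreconnected U ∧
      ∀ x ∈ U, ∀ V f, IsOpen V → x ∈ V → Sec1 A V f → ∃ g, Sec1 A U g ∧ g =ᶠ[𝓝 x] f := by
  obtain ⟨i, hi, hi'⟩ := A.cover y
  have hm := GB.ch_mem A hi
  -- radii
  have hρ : (0 : ℝ) < 1 / 8 := by norm_num
  set a₀ : EV n₁ := (A.ch i y).1 with ha₀
  set b₀ : EV n₂ := (A.ch i y).2 with hb₀
  have ha₀n : ‖a₀‖ < 1 / 2 := by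
    have := hi'.1
    rwa [mem_ball_zero_iff] at this
  have hb₀n : ‖b₀‖ < 1 / 2 := by
    have := hi'.2
    rwa [mem_ball_zero_iff] at this
  have hbox : ball a₀ (1 / 8) ×ˢ ball b₀ (1 / 8) ⊆ (A.ch i).target := by
    rintro ⟨p, q⟩ ⟨hp, hq⟩
    rw [GB.mem_target, mem_ball_zero_iff, mem_ball_zero_iff]
    rw [mem_ball, dist_eq_norm] at hp hq
    constructor
    · have : p = (p - a₀) + a₀ := by abel
      show ‖p‖ < 1
      rw [this]
      linarith [norm_add_le (p - a₀) a₀]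
    · have : q = (q - b₀) + b₀ := by abel
      show ‖q‖ < 1
      rw [this]
      linarith [norm_add_le (q - b₀) b₀]
  refine ⟨(A.ch i).symm '' (ball a₀ (1 / 8) ×ˢ ball b₀ (1 / 8)), ?_, ?_, ?_, ?_⟩
  · exact (A.ch i).symm.isOpen_image_of_subset_source (isOpen_ball.prod isOpen_ball) hbox
  · exact ⟨A.ch i y, ⟨mem_ball_self hρ, mem_ball_self hρ⟩, (A.ch i).left_inv hi⟩
  · exact ((convex_ball a₀ (1 / 8)).prod (convex_ball b₀ (1 / 8))).isPreconnected.image _
      ((A.ch i).continuousOn_symm.mono hbox)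
  · intro x hx V f hV hxV hf
    have hUs : (A.ch i).symm '' (ball a₀ (1 / 8) ×ˢ ball b₀ (1 / 8)) ⊆ (A.ch i).source := by
      rintro _ ⟨p, hp, rfl⟩
      exact (A.ch i).map_target (hbox hp)
    have hUb : ∀ z ∈ (A.ch i).symm '' (ball a₀ (1 / 8) ×ˢ ball b₀ (1 / 8)),
        A.ch i z ∈ ball a₀ (1 / 8) ×ˢ ball b₀ (1 / 8) := by
      rintro _ ⟨p, hp, rfl⟩
      rw [(A.ch i).right_inv (hbox hp)]
      exact hp
    have hxi := hUs hx
    have hxb := hUb x hx
    obtain ⟨B, δ, hδ, hb, hT, -, hfB⟩ := sec1_chart hV hf hxV hxi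
    have hx1 : ‖(A.ch i x).1‖ < 5 / 8 := by
      have := hxb.1
      rw [mem_ball, dist_eq_norm] at this
      have e : (A.ch i x).1 = ((A.ch i x).1 - a₀) + a₀ := by abel
      rw [e]
      linarith [norm_add_le ((A.ch i x).1 - a₀) a₀]
    have hbig : ball (A.ch i x).1 (1 / 4) ⊆ ball (0 : EV n₁) 1 := by
      intro p hp
      rw [mem_ball, dist_eq_norm] at hp
      rw [mem_ball_zero_iff]
      have e : p = (p - (A.ch i x).1) + (A.ch i x).1 := by abel
      rw [e]
      linarith [norm_add_le (p - (A.ch i x).1) (A.ch i x).1]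
    have hx2 := (GB.ch_mem A hxi).2
    have hδ' : 0 < min δ (1 / 4) := lt_min hδ (by norm_num)
    obtain ⟨B'', hT'', hB''⟩ := trS_extend hC (a₀ := (A.ch i x).1) hδ' (min_le_right δ (1 / 4))
      (isE1g_mono (isE1g_plq A i hx2) hbig)
      (trS_mono hT (ball_subset_ball (min_le_left δ (1 / 4))))
    refine ⟨fun z => B'' (A.ch i z).1, ?_, ?_⟩
    · refine sec1_of_plq hUs isOpen_ball hbig hx2 hT'' ?_
      intro z hz
      have h1 := (hUb z hz).1
      have h2 := hxb.1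
      rw [mem_ball] at h1 h2 ⊢
      linarith [dist_triangle_right (A.ch i z).1 (A.ch i x).1 a₀]
    · have hc : ContinuousAt (fun z => (A.ch i z).1) x :=
        continuousAt_fst.comp ((A.ch i).continuousAt hxi)
      filter_upwards [hfB, hc.eventually (isOpen_ball.mem_nhds (mem_ball_self hδ'))] with z h1 h2
      rw [h1]
      exact hB'' _ h2

end

end Crest.Agent.R266
end

-- ▼ part R266/GProjLift
section

/-!
R266 / GProjLift (part of node G6): lifting leaf balls through a global section.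
-/

set_option autoImplicit false

open scoped Manifold ContDiff Topology
open Set Metric Filter

namespace Crest.Agent.R266

variable {n₁ n₂ : ℕ} {X : Type} [TopologicalSpace X]

/-- local inverse with analytic inverse, pointwise form -/
lemma GPL.exists_local_inv {f : EV n₁ → EV n₁} {a : EV n₁} (hf : AnalyticAt ℂ f a)
    (hinv : (fderiv ℂ f a).IsInvertible) :
    ∃ g : EV n₁ → EV n₁, AnalyticAt ℂ g (f a) ∧ g (f a) = a ∧ ∀ᶠ y in 𝓝 (f a), f (g y) = y := by
  obtain ⟨L, hL⟩ := hinv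
  have h' : HasFDerivAt f (L : EV n₁ →L[ℂ] EV n₁) a := by
    rw [hL]; exact hf.differentiableAt.hasFDerivAt
  obtain ⟨e, ha, _, he, _, hes, _⟩ := exists_chart hf h' (N := univ) univ_mem
  have hfa : f a ∈ e.target := by rw [← he a]; exact e.map_source ha
  refine ⟨e.symm, hes _ hfa, ?_, ?_⟩
  · rw [← he a]; exact e.left_inv ha
  · filter_upwards [e.open_target.mem_nhds hfa] with y hy
    rw [← he, e.right_inv hy]

/-- local form of a section in any chart -/
lemma GPL.chart {A : PFol n₁ n₂ X} {U : Set X} {f : X → X} (hf : Sec1 A U f)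
    {y : X} (hy : y ∈ U) {i : A.ι} (hi : y ∈ (A.ch i).source) :
    ∃ (B : EV n₁ → X) (δ : ℝ), 0 < δ ∧ ball (A.ch i y).1 δ ⊆ ball 0 1 ∧
      TrS A (ball (A.ch i y).1 δ) (plq A i (A.ch i y).2) B ∧ Imm1 A (ball (A.ch i y).1 δ) B ∧
      ∀ᶠ y' in 𝓝 y, f y' = B (A.ch i y').1 := by
  obtain ⟨k, B₀, δ₀, hδ₀, hk, hb₀, hT₀, hf₀⟩ := hf y hy
  obtain ⟨θ, hθ, hθv, _, hθy, hθp⟩ := plq_change A i k y hi hk
  have him : A.ch i y ∈ ball (0 : EV n₁) 1 ×ˢ ball (0 : EV n₂) 1 := by
    rw [← A.target_eq i]; exact (A.ch i).map_source hi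
  have hθc : Tendsto θ (𝓝 (A.ch i y).1) (𝓝 (A.ch k y).1) := by
    have := hθ.continuousAt.tendsto
    rwa [hθv] at this
  have hall : ∀ᶠ a in 𝓝 (A.ch i y).1, (AnalyticAt ℂ θ a ∧ θ a ∈ ball (A.ch k y).1 δ₀) ∧
      plq A i (A.ch i y).2 a = plq A k (A.ch k y).2 (θ a) ∧ a ∈ ball (0 : EV n₁) 1 :=
    (hθ.eventually_analyticAt.and (hθc.eventually (isOpen_ball.mem_nhds (mem_ball_self hδ₀)))).and
      (hθp.and (isOpen_ball.mem_nhds him.1))
  obtain ⟨δ, hδ, hb⟩ := Metric.eventually_nhds_iff_ball.1 hall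
  have hsub : ball (A.ch i y).1 δ ⊆ ball 0 1 := fun a ha => (hb a ha).2.2
  have hE : Imm1 A (ball (A.ch i y).1 δ) (plq A i (A.ch i y).2) :=
    fun a ha => imm1_plq A i him.2 a (hsub ha)
  have hkm : (A.ch k y).2 ∈ ball (0 : EV n₂) 1 := by
    have h := (A.ch k).map_source hk
    rw [A.target_eq] at h
    exact h.2
  have hEk : IsE1g A (ball (A.ch i y).1 δ) (plq A k (A.ch k y).2 ∘ θ) :=
    isE1g_comp (isE1g_mono (isE1g_plq A k hkm) hb₀) (fun a ha => (hb a ha).1.1)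
      (fun a ha => (hb a ha).1.2)
  have hT : TrS A (ball (A.ch i y).1 δ) (plq A i (A.ch i y).2) (B₀ ∘ θ) :=
    trS_congr isOpen_ball hEk
      (trS_comp hT₀ (fun a ha => (hb a ha).1.1) (fun a ha => (hb a ha).1.2))
      (fun a ha => ((hb a ha).2.1).symm) (fun a _ => rfl)
  refine ⟨B₀ ∘ θ, δ, hδ, hsub, hT, trS_imm1 isOpen_ball hE hT, ?_⟩
  filter_upwards [hf₀, hθy] with y' h1 h2
  rw [h1, Function.comp, h2]

/-- a section maps first-leaf curves to first-leaf curves -/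
lemma GPL.comp {V : Type} [NormedAddCommGroup V] [NormedSpace ℂ V] {A : PFol n₁ n₂ X}
    {p : X → X} (hp : Sec1 A univ p) {U : Set V} {c : V → X} (hc : IsE1g A U c) :
    IsE1g A U (p ∘ c) := by
  intro t ht
  obtain ⟨i, hi, _⟩ := A.cover (c t)
  obtain ⟨a, ha, hev⟩ := isE1g_chart hc ht hi
  obtain ⟨B, δ, hδ, _, _, hI, hpB⟩ := GPL.chart hp (mem_univ (c t)) hi
  have hat : a t = (A.ch i (c t)).1 := (congrArg Prod.fst hev.self_of_nhds.2).symm
  have hB : IsE1g A (ball (A.ch i (c t)).1 δ) B := imm1_isE1g hI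
  have hBa : IsE1g A {t} (B ∘ a) :=
    isE1g_comp hB (fun s hs => by rw [mem_singleton_iff] at hs; rw [hs]; exact ha)
      (fun s hs => by rw [mem_singleton_iff] at hs; rw [hs, hat]; exact mem_ball_self hδ)
  have hcc : ContinuousAt c t := isE1g_continuousAt hc ht
  have he : (B ∘ a) =ᶠ[𝓝 t] (p ∘ c) := by
    filter_upwards [hev, hcc.eventually hpB] with s h1 h2
    simp only [Function.comp]
    rw [h2, h1.2]
  exact (isE1g_congr hBa (fun s hs => by rw [mem_singleton_iff] at hs; rw [hs]; exact he)) t rfl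

/-- lifting of leaf balls: if `p` is a global section and `p q = u`, then over a ball of a plaque
around `u` there is a first-leaf map `R` with `R` at the centre equal to `q` and `p ∘ R = ` plaque. -/
theorem exists_leaf_lift [T2Space X] {A : PFol n₁ n₂ X} (hC : CompG A (EV n₁) ℂ) {p : X → X}
    (hp : Sec1 A univ p) (q : X) {j : A.ι} (hj : p q ∈ (A.ch j).source) {r : ℝ} (hr : 0 < r)
    (hb : ball (A.ch j (p q)).1 r ⊆ ball 0 1) :
    ∃ R : EV n₁ → X, IsE1g A (ball (A.ch j (p q)).1 r) R ∧ R (A.ch j (p q)).1 = q ∧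
      ∀ a ∈ ball (A.ch j (p q)).1 r, p (R a) = plq A j (A.ch j (p q)).2 a := by
  obtain ⟨i, hi, _⟩ := A.cover q
  obtain ⟨B, δ, hδ, hδb, hTB, hIB, hpB⟩ := GPL.chart hp (mem_univ q) hi
  set α₀ := (A.ch i q).1 with hα₀
  set bq := (A.ch i q).2 with hbq
  set a₁ := (A.ch j (p q)).1 with ha₁
  set bu := (A.ch j (p q)).2 with hbu
  have hα₀m : α₀ ∈ ball α₀ δ := mem_ball_self hδ
  have hBα : B α₀ = p q := (hpB.self_of_nhds).symm
  -- heights are in the unit ball
  have hbum : bu ∈ ball (0 : EV n₂) 1 := by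
    have h := (A.ch j).map_source hj
    rw [A.target_eq] at h
    exact h.2
  have hbqm : bq ∈ ball (0 : EV n₂) 1 := by
    have h := (A.ch i).map_source hi
    rw [A.target_eq] at h
    exact h.2
  -- local form of `B` in the chart `j`
  have hEB : IsE1g A (ball α₀ δ) B := imm1_isE1g hIB
  obtain ⟨θ₀, hθ₀, hθ₀ev⟩ := isE1g_chart hEB hα₀m (i := j) (by rw [hBα]; exact hj)
  rw [hBα] at hθ₀ev
  have hinv : (fderiv ℂ θ₀ α₀).IsInvertible :=
    (GTE.imm_iff A hθ₀ hθ₀ev).1 (fun u hu => by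
      rw [mem_singleton_iff] at hu; subst hu; exact hIB _ hα₀m)
  have hθ₀v : θ₀ α₀ = a₁ := by
    have := hθ₀ev.self_of_nhds.2
    rw [hBα] at this
    exact (congrArg Prod.fst this).symm
  obtain ⟨θ, hθ, hθv, hθi⟩ := GPL.exists_local_inv hθ₀ hinv
  rw [hθ₀v] at hθ hθv hθi
  have hθc : Tendsto θ (𝓝 a₁) (𝓝 α₀) := by
    have := hθ.continuousAt.tendsto
    rwa [hθv] at this
  -- `B (θ a) = plq j bu a` near `a₁`
  have hBθ : ∀ᶠ a in 𝓝 a₁, B (θ a) = plq A j bu a := by
    filter_upwards [hθc.eventually hθ₀ev, hθi] with a h1 h2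
    unfold plq
    rw [← (A.ch j).left_inv h1.1, h1.2, h2]
  -- choose a small ball
  have hall : ∀ᶠ a in 𝓝 a₁, B (θ a) = plq A j bu a ∧ AnalyticAt ℂ θ a ∧ θ a ∈ ball α₀ δ :=
    hBθ.and (hθ.eventually_analyticAt.and (hθc.eventually (isOpen_ball.mem_nhds hα₀m)))
  obtain ⟨δ₁, hδ₁, hδ₁b⟩ := Metric.eventually_nhds_iff_ball.1 hall
  set δ' := min δ₁ r with hδ'
  have hδ'pos : 0 < δ' := lt_min hδ₁ hr
  have hsm : ∀ a ∈ ball a₁ δ', B (θ a) = plq A j bu a ∧ AnalyticAt ℂ θ a ∧ θ a ∈ ball α₀ δ :=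
    fun a ha => hδ₁b a (ball_subset_ball (min_le_left _ _) ha)
  -- transport pulled back by `θ`
  have hT1 : TrS A (ball a₁ δ') (plq A i bq ∘ θ) (B ∘ θ) :=
    trS_comp hTB (fun a ha => (hsm a ha).2.1) (fun a ha => (hsm a ha).2.2)
  have hE1 : IsE1g A (ball a₁ δ') (plq A i bq ∘ θ) :=
    isE1g_comp (isE1g_mono (isE1g_plq A i hbqm) hδb) (fun a ha => (hsm a ha).2.1)
      (fun a ha => (hsm a ha).2.2)
  have hT2 : TrS A (ball a₁ δ') (B ∘ θ) (plq A i bq ∘ θ) := trS_symm isOpen_ball hE1 hT1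
  have hT3 : TrS A (ball a₁ δ') (plq A j bu) (plq A i bq ∘ θ) :=
    trS_congr isOpen_ball (trS_isE1g isOpen_ball hE1 hT1) hT2 (fun a ha => (hsm a ha).1)
      (fun a _ => rfl)
  have hEj : IsE1g A (ball a₁ r) (plq A j bu) := isE1g_mono (isE1g_plq A j hbum) hb
  obtain ⟨R, hTR, hRe⟩ := trS_extend hC hδ'pos (min_le_right _ _) hEj hT3
  have hER : IsE1g A (ball a₁ r) R := trS_isE1g isOpen_ball hEj hTR
  have hqplq : plq A i bq α₀ = q := by
    unfold plq
    exact (A.ch i).left_inv hi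
  have hRa : R a₁ = q := by
    rw [hRe a₁ (mem_ball_self hδ'pos)]
    show plq A i bq (θ a₁) = q
    rw [hθv, hqplq]
  refine ⟨R, hER, hRa, ?_⟩
  -- `p ∘ R` and the plaque agree near `a₁`
  have hcplq : Tendsto (fun a => plq A i bq (θ a)) (𝓝 a₁) (𝓝 q) := by
    have h1 : ContinuousAt (plq A i bq) α₀ :=
      isE1g_continuousAt (isE1g_plq A i hbqm) (hδb hα₀m)
    have h2 := h1.tendsto.comp hθc
    rw [hqplq] at h2
    exact h2
  have hnear : (p ∘ R) =ᶠ[𝓝 a₁] plq A j bu := by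
    filter_upwards [hcplq.eventually hpB, isOpen_ball.mem_nhds (mem_ball_self hδ'pos)] with a h1 h2
    show p (R a) = plq A j bu a
    rw [hRe a h2]
    show p (plq A i bq (θ a)) = plq A j bu a
    rw [h1]
    have hm : (θ a, bq) ∈ (A.ch i).target := by
      rw [A.target_eq]; exact ⟨hδb (hsm a h2).2.2, hbqm⟩
    have h3 : (A.ch i (plq A i bq (θ a))).1 = θ a := by
      unfold plq
      rw [(A.ch i).right_inv hm]
    rw [h3]
    exact (hsm a h2).1
  intro a ha
  exact isE1g_unique isOpen_ball (convex_ball a₁ r).isPreconnected (GPL.comp hp hER) hEj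
    (mem_ball_self hr) hnear ha

end Crest.Agent.R266
end

-- ▼ part R266/GProj
section

/-!
R266 / GProj (helper660): the global projection to a first leaf (`exists_proj`).
-/

set_option autoImplicit false

open scoped Manifold ContDiff Topology
open Set Metric Filter

namespace Crest.Agent.R266

variable {n₁ n₂ : ℕ} {X : Type} [TopologicalSpace X]

namespace GProj

theorem sec1_mono {A : PFol n₁ n₂ X} {U V : Set X} {f : X → X} (h : Sec1 A U f) (hV : V ⊆ U) :
    Sec1 A V f := fun y hy => h y (hV hy)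

theorem sec1_congr {A : PFol n₁ n₂ X} {U : Set X} {f g : X → X} (hU : IsOpen U)
    (h : Sec1 A U f) (e : EqOn f g U) : Sec1 A U g := by
  intro y hy
  obtain ⟨i, B, δ, hδ, hi, hb, hT, hf⟩ := h y hy
  refine ⟨i, B, δ, hδ, hi, hb, hT, ?_⟩
  filter_upwards [hf, hU.mem_nhds hy] with y' h1 h2
  rw [← e h2, h1]

/-- the projection inside a chart -/
theorem sec1_chartProj (A : PFol n₁ n₂ X) (i : A.ι) {b : EV n₂} (hb : b ∈ ball (0 : EV n₂) 1) :
    Sec1 A (A.ch i).source (fun y => plq A i b (A.ch i y).1) := by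
  intro y hy
  have ht := (A.ch i).map_source hy
  rw [A.target_eq i] at ht
  obtain ⟨δ, hδ, hsub⟩ := Metric.isOpen_iff.1 isOpen_ball (A.ch i y).1 ht.1
  refine ⟨i, plq A i b, δ, hδ, hy, hsub, trS_mono (trS_plq A i ht.2 hb) hsub, ?_⟩
  exact Eventually.of_forall fun y' => rfl

end GProj

open GProj in
/-- the global projection to the first leaf through `o` (germ at `o`: projection inside a chart) -/
theorem exists_proj [T2Space X] [SimplyConnectedSpace X] [LocallyPathConnectedSpace X]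
    {A : PFol n₁ n₂ X} (hC : CompG A (EV n₁) ℂ) (o : X) :
    ∃ p : X → X, Sec1 A univ p ∧ p o = o ∧
      (∀ i, o ∈ (A.ch i).source → ∀ᶠ y in 𝓝 o, p y = plq A i (A.ch i o).2 (A.ch i y).1) := by
  obtain ⟨i, hi, -⟩ := A.cover o
  have ht := (A.ch i).map_source hi
  rw [A.target_eq i] at ht
  obtain ⟨p, hp, hpo⟩ := monodromy_sections (Y := X) (T := X) (fun U f => Sec1 A U f)
    (fun U V f _ hVU h => sec1_mono h hVU)
    (fun U f g hU h e => sec1_congr hU h e)
    (fun U f g hU hU' hf hg ⟨x, hx, e⟩ => _root_.Crest.Agent.R266.sec1_unique hU hU' hf hg hx e)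
    (fun y => _root_.Crest.Agent.R266.sec1_extend hC y)
    o (A.ch i).source (fun y => plq A i (A.ch i o).2 (A.ch i y).1) (A.ch i).open_source hi
    (sec1_chartProj A i ht.2)
  refine ⟨p, ?_, ?_, ?_⟩
  · intro y _
    obtain ⟨U, -, hyU, hU⟩ := hp y
    exact hU y hyU
  · rw [hpo.self_of_nhds]
    simp only [plq]
    exact (A.ch i).left_inv hi
  · intro j hj
    obtain ⟨θ, hθ, -, -, h1, h2⟩ := plq_change A i j o hi hj
    have hc : Tendsto (fun y => (A.ch i y).1) (𝓝 o) (𝓝 (A.ch i o).1) :=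
      (continuous_fst.tendsto _).comp ((A.ch i).continuousAt hi)
    filter_upwards [hpo, h1, hc.eventually h2] with y k1 k2 k3
    rw [k1, k3, k2]

end Crest.Agent.R266
end

-- ▼ part R266/GTop
section

/-!
R266 / GTop: topology lemmas for the GLOBAL part (G7 of GlobIface).
-/

set_option autoImplicit false

open Set Filter Topology

namespace Crest.Agent.R266

theorem simplyConnected_of_retract {Y Z : Type} [TopologicalSpace Y] [TopologicalSpace Z]
    [SimplyConnectedSpace Y] (i : Z → Y) (p : Y → Z) (hi : Continuous i) (hp : Continuous p)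
    (h : ∀ z, p (i z) = z) : SimplyConnectedSpace Z := by
  rw [simply_connected_iff_paths_homotopic']
  have hne : Nonempty Y := PathConnectedSpace.nonempty
  refine ⟨⟨⟨p hne.some⟩, fun x y => ?_⟩, ?_⟩
  · obtain ⟨γ⟩ := PathConnectedSpace.joined (i x) (i y)
    exact ⟨(γ.map hp).cast (h x).symm (h y).symm⟩
  · intro x y γ γ'
    have h1 : Path.Homotopic (γ.map hi) (γ'.map hi) := SimplyConnectedSpace.paths_homotopic _ _
    have h2 := h1.map ⟨p, hp⟩
    have h3 := h2.pathCast (h x).symm (h y).symm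
    have e : ∀ δ : Path x y, ((δ.map hi).map hp).cast (h x).symm (h y).symm = δ := by
      intro δ
      ext t
      simp [h]
    have e1 := e γ
    have e2 := e γ'
    exact e1 ▸ e2 ▸ h3

theorem simplyConnected_prod {Y Z : Type} [TopologicalSpace Y] [TopologicalSpace Z]
    [SimplyConnectedSpace Y] [SimplyConnectedSpace Z] : SimplyConnectedSpace (Y × Z) := by
  rw [simply_connected_iff_paths_homotopic']
  refine ⟨⟨⟨(PathConnectedSpace.nonempty (X := Y)).some, (PathConnectedSpace.nonempty (X := Z)).some⟩,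
    fun x y => ?_⟩, ?_⟩
  · obtain ⟨γ⟩ := PathConnectedSpace.joined x.1 y.1
    obtain ⟨δ⟩ := PathConnectedSpace.joined x.2 y.2
    exact ⟨γ.prod δ⟩
  · rintro ⟨x₁, x₂⟩ ⟨y₁, y₂⟩ γ γ'
    obtain ⟨H₁⟩ := SimplyConnectedSpace.paths_homotopic (γ.map continuous_fst)
      (γ'.map continuous_fst)
    obtain ⟨H₂⟩ := SimplyConnectedSpace.paths_homotopic (γ.map continuous_snd)
      (γ'.map continuous_snd)
    have H := Path.Homotopic.prodHomotopy H₁ H₂
    have e : ∀ δ : Path ((x₁, x₂) : Y × Z) (y₁, y₂),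
        (δ.map continuous_fst).prod (δ.map continuous_snd) = δ := by
      intro δ
      ext t <;> simp
    have e1 := e γ
    have e2 := e γ'
    have hH : Path.Homotopic ((γ.map continuous_fst).prod (γ.map continuous_snd))
      ((γ'.map continuous_fst).prod (γ'.map continuous_snd)) := ⟨H⟩
    exact e1 ▸ e2 ▸ hH

/-- two continuous lifts through a locally injective map that agree at one point agree -/
theorem lifts_eq {Y Z T : Type} [TopologicalSpace Y] [TopologicalSpace Z] [TopologicalSpace T]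
    [T2Space Z] [PreconnectedSpace Y] {Φ : Z → T} (hΦ : ∀ z, ∃ U ∈ 𝓝 z, InjOn Φ U)
    {f g : Y → Z} (hf : Continuous f) (hg : Continuous g) (h : ∀ y, Φ (f y) = Φ (g y)) {y₀ : Y}
    (h₀ : f y₀ = g y₀) : f = g :=
  IsSeparatedMap.eq_of_comp_eq (T2Space.isSeparatedMap Φ) (isLocallyInjective_iff_nhds.2 hΦ) hf hg
    (funext h) y₀ h₀

end Crest.Agent.R266
end

-- ▼ part R266/GAsm

/-!
R266 / GAsm (helper926): the abstract global theorem `global_product`.
-/

set_option autoImplicit false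

open scoped Manifold ContDiff Topology
open Set Metric Filter

namespace Crest.Agent.R266

namespace GA

variable {n₁ n₂ : ℕ} {X : Type} [TopologicalSpace X]

/-! ### the leaf through `o` -/

theorem contMDiffAt_val_iff {n m : ℕ} {M M' : Type} [TopologicalSpace M] [TopologicalSpace M']
    [ChartedSpace (EV n) M] [ChartedSpace (EV m) M'] {U : TopologicalSpace.Opens M'} {f : M → U}
    {x : M} :
    ContMDiffAt 𝓘(ℂ, EV n) 𝓘(ℂ, EV m) ω (Subtype.val ∘ f) x ↔
      ContMDiffAt 𝓘(ℂ, EV n) 𝓘(ℂ, EV m) ω f x := by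
  rw [ContMDiffAt, ContMDiffAt]
  exact ChartedSpace.liftPropWithinAt_subtypeVal_comp_iff ..

theorem isOpen_cc (A : PFol n₁ n₂ X) (y : Leaf1 A) : IsOpen (connectedComponent y) := by
  haveI : LocallyConnectedSpace (Leaf1 A) := ChartedSpace.locallyConnectedSpace (EV n₁) (Leaf1 A)
  exact isOpen_connectedComponent

/-- the leaf of the first foliation through `o`, as an open subset of the leaf manifold -/
noncomputable def LY (A : PFol n₁ n₂ X) (o : X) : TopologicalSpace.Opens (Leaf1 A) :=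
  ⟨connectedComponent (toL A o), isOpen_cc A _⟩

theorem ly_connected (A : PFol n₁ n₂ X) (o : X) : ConnectedSpace (LY A o) :=
  isConnected_iff_connectedSpace.1 isConnected_connectedComponent

/-- local form of a section: chart, immersion -/
theorem sec_chart {A : PFol n₁ n₂ X} {p : X → X} (hp : Sec1 A univ p) {y : X} {i : A.ι}
    (hi : y ∈ (A.ch i).source) :
    ∃ (B : EV n₁ → X) (δ : ℝ), 0 < δ ∧ Imm1 A (ball (A.ch i y).1 δ) B ∧
      ∀ᶠ y' in 𝓝 y, p y' = B (A.ch i y').1 := by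
  obtain ⟨B, δ, hδ, _, _, h3, h4⟩ := sec1_chart isOpen_univ hp (mem_univ y) hi
  exact ⟨B, δ, hδ, h3, h4⟩

theorem continuousAt_ch {A : PFol n₁ n₂ X} {y : X} {i : A.ι} (hi : y ∈ (A.ch i).source) :
    ContinuousAt (A.ch i) y :=
  (A.ch i).continuousAt hi

theorem imm_cont {A : PFol n₁ n₂ X} {t : EV n₁} {B : EV n₁ → X} {δ : ℝ} (hδ : 0 < δ)
    (h : Imm1 A (ball t δ) B) : ContinuousAt (fun s => toL A (B s)) t :=
  leaf_continuousAt (isE1g_mono (imm1_isE1g h) (by simpa using hδ))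

/-- a global section is continuous into the leaf space -/
theorem sec_continuous {A : PFol n₁ n₂ X} {p : X → X} (hp : Sec1 A univ p) :
    Continuous (fun y => toL A (p y)) := by
  rw [continuous_iff_continuousAt]
  intro y
  obtain ⟨i, hi, -⟩ := A.cover y
  obtain ⟨B, δ, hδ, hB, h⟩ := sec_chart hp hi
  have h1 := imm_cont hδ hB
  have h2 : ContinuousAt (fun y' => toL A (B (A.ch i y').1)) y :=
    ContinuousAt.comp' (g := fun s => toL A (B s)) (f := fun y' => (A.ch i y').1) h1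
      (continuous_fst.continuousAt.comp (continuousAt_ch hi))
  exact h2.congr (h.mono fun y' hy' => by simp [hy'])

/-- the plaque through a point, as a curve in the leaf space, near the point -/
theorem plq_coord {A : PFol n₁ n₂ X} {i : A.ι} {z : Leaf1 A} (hz : ofL z ∈ (A.ch i).source)
    {b : EV n₂} (hb : (A.ch i (ofL z)).2 = b) : toL A (plq A i b (A.ch i (ofL z)).1) = z := by
  have : (A.ch i).symm ((A.ch i (ofL z)).1, b) = ofL z := by
    rw [← hb]
    exact (A.ch i).left_inv hz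
  show toL A ((A.ch i).symm ((A.ch i (ofL z)).1, b)) = z
  rw [this]
  rfl

theorem ch_mem {A : PFol n₁ n₂ X} {i : A.ι} {y : X} (hy : y ∈ (A.ch i).source) :
    (A.ch i y).1 ∈ ball (0 : EV n₁) 1 ∧ (A.ch i y).2 ∈ ball (0 : EV n₂) 1 := by
  have := (A.ch i).map_source hy
  rw [A.target_eq i] at this
  exact this

theorem ch_symm {A : PFol n₁ n₂ X} {i : A.ι} {a : EV n₁} {b : EV n₂} (ha : a ∈ ball (0 : EV n₁) 1)
    (hb : b ∈ ball (0 : EV n₂) 1) :
    (A.ch i).symm (a, b) ∈ (A.ch i).source ∧ A.ch i ((A.ch i).symm (a, b)) = (a, b) := by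
  have h : (a, b) ∈ (A.ch i).target := by
    rw [A.target_eq i]
    exact ⟨ha, hb⟩
  exact ⟨(A.ch i).map_target h, (A.ch i).right_inv h⟩

/-- the section is the identity on the leaf through `o` -/
theorem sec_id [T2Space X] {A : PFol n₁ n₂ X} {p : X → X} (hp : Sec1 A univ p) {o : X}
    (ho : ∀ i, o ∈ (A.ch i).source → ∀ᶠ y in 𝓝 o, p y = plq A i (A.ch i o).2 (A.ch i y).1)
    (z : Leaf1 A) (hz : z ∈ connectedComponent (toL A o)) : toL A (p (ofL z)) = z := by
  let C : Set (Leaf1 A) := {z | ∀ᶠ z' in 𝓝 z, toL A (p (ofL z')) = z'}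
  have hCo : IsOpen C := isOpen_iff_eventually.2 fun z hz => eventually_eventually_nhds.2 hz
  have ho' : toL A o ∈ C := by
    obtain ⟨i, hi, -⟩ := A.cover o
    have h1 : ∀ᶠ z' : Leaf1 A in 𝓝 (toL A o), p (ofL z') = plq A i (A.ch i o).2 (A.ch i (ofL z')).1 :=
      (leaf_continuous A).continuousAt.eventually (ho i hi)
    have h2 := (leaf_coord A i (toL A o) hi).2
    show ∀ᶠ z' in 𝓝 (toL A o), toL A (p (ofL z')) = z'
    filter_upwards [h1, h2] with z' e1 e2
    rw [e1]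
    exact plq_coord e2.1 e2.2
  have hCc : IsClosed C := by
    rw [← closure_subset_iff_isClosed]
    intro z hz
    obtain ⟨i, hi, -⟩ := A.cover (ofL z)
    have hb := (ch_mem hi).2
    have h2 := (leaf_coord A i z hi).2
    have h2o : ∀ᶠ z' in 𝓝 z, ∀ᶠ z'' in 𝓝 z', ofL z'' ∈ (A.ch i).source ∧
        (A.ch i (ofL z'')).2 = (A.ch i (ofL z)).2 := eventually_eventually_nhds.2 h2
    obtain ⟨z', hz'1, hz'2⟩ := mem_closure_iff_nhds.1 hz _ h2o
    set b := (A.ch i (ofL z)).2 with hbdef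
    have hs' := hz'1.self_of_nhds
    have key : EqOn (p ∘ plq A i b) (plq A i b) (ball 0 1) := by
      have ht : (A.ch i (ofL z')).1 ∈ ball (0 : EV n₁) 1 := (ch_mem hs'.1).1
      refine isE1g_unique isOpen_ball (convex_ball _ _).isPreconnected
        (sec1_comp hp (isE1g_plq A i hb)) (isE1g_plq A i hb) ht ?_
      -- near `t`, `plq t` is near `z'` in the leaf topology
      have hc : ContinuousAt (fun s => toL A (plq A i b s)) (A.ch i (ofL z')).1 :=
        leaf_continuousAt (isE1g_mono (isE1g_plq A i hb) (by simpa using ht))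
      have he : toL A (plq A i b (A.ch i (ofL z')).1) = z' := plq_coord hs'.1 hs'.2
      have hev : ∀ᶠ s in 𝓝 (A.ch i (ofL z')).1,
          toL A (p (ofL (toL A (plq A i b s)))) = toL A (plq A i b s) := by
        have := hc.eventually (p := fun w => toL A (p (ofL w)) = w) (by
          show ∀ᶠ w in 𝓝 (toL A (plq A i b (A.ch i (ofL z')).1)), _
          rw [he]; exact hz'2)
        exact this
      filter_upwards [hev] with s hs
      exact hs
    show ∀ᶠ z' in 𝓝 z, toL A (p (ofL z')) = z'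
    filter_upwards [h2] with w hw
    have hw1 := key (ch_mem hw.1).1
    have hw2 : toL A (plq A i b (A.ch i (ofL w)).1) = w := plq_coord hw.1 hw.2
    have hw3 : plq A i b (A.ch i (ofL w)).1 = ofL w := hw2
    simp only [Function.comp_apply, hw3] at hw1
    rw [hw1]
    rfl
  have hcl : IsClopen C := ⟨hCc, hCo⟩
  have : z ∈ C := hcl.connectedComponent_subset ho' hz
  exact this.self_of_nhds

theorem sec_mem {A : PFol n₁ n₂ X} [ConnectedSpace X] {p : X → X} (hp : Sec1 A univ p) {o : X}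
    (hpo : p o = o) (y : X) : toL A (p y) ∈ connectedComponent (toL A o) := by
  have h1 : IsPreconnected (range fun y => toL A (p y)) :=
    isPreconnected_range (sec_continuous hp)
  have h2 : toL A o ∈ range fun y => toL A (p y) := ⟨o, by simp [hpo]⟩
  exact h1.subset_connectedComponent h2 ⟨y, rfl⟩

/-- the projection to the leaf through `o` -/
noncomputable def prj (A : PFol n₁ n₂ X) [ConnectedSpace X] {p : X → X} (hp : Sec1 A univ p)
    {o : X} (hpo : p o = o) (y : X) : LY A o := ⟨toL A (p y), sec_mem hp hpo y⟩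

section
variable {A : PFol n₁ n₂ X} [ConnectedSpace X] {p : X → X} (hp : Sec1 A univ p) {o : X}
  (hpo : p o = o)

theorem prj_continuous : Continuous (prj A hp hpo) :=
  (sec_continuous hp).subtype_mk _


/-- inclusion of the leaf in `X` -/
noncomputable def inc (A : PFol n₁ n₂ X) (o : X) (z : LY A o) : X := ofL (z : Leaf1 A)

theorem inc_continuous (A : PFol n₁ n₂ X) (o : X) : Continuous (inc A o) :=
  (leaf_continuous A).comp continuous_subtype_val

theorem prj_inc [T2Space X]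
    (ho : ∀ i, o ∈ (A.ch i).source → ∀ᶠ y in 𝓝 o, p y = plq A i (A.ch i o).2 (A.ch i y).1)
    (z : LY A o) : prj A hp hpo (inc A o z) = z := by
  apply Subtype.ext
  exact sec_id hp ho z.1 z.2

/-- local form of the projection with a left inverse in the first variable -/
theorem prj_loc (x : X) (i : A.ι) (hi : x ∈ (A.ch i).source) :
    ∃ (φ : EV n₁ → LY A o) (κ : LY A o → EV n₁),
      ContMDiffAt 𝓘(ℂ, EV n₁) 𝓘(ℂ, EV n₁) ω φ (A.ch i x).1 ∧
      ContMDiffAt 𝓘(ℂ, EV n₁) 𝓘(ℂ, EV n₁) ω κ (prj A hp hpo x) ∧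
      (∀ᶠ y in 𝓝 x, prj A hp hpo y = φ (A.ch i y).1) ∧
      (∀ᶠ y in 𝓝 x, κ (prj A hp hpo y) = (A.ch i y).1) := by
  classical
  obtain ⟨B, δ, hδ, hB, h⟩ := sec_chart hp hi
  obtain ⟨κ, hκ, hκ1, hκ2⟩ := leaf_inverse (t := (A.ch i x).1) (c := B)
    (fun t ht => hB t (by rw [mem_singleton_iff.1 ht]; exact mem_ball_self hδ))
  have hBx : B (A.ch i x).1 = p x := h.self_of_nhds.symm
  -- `φ`
  have hmem : toL A (B (A.ch i x).1) ∈ LY A o := by
    rw [hBx]
    exact sec_mem hp hpo x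
  have hBc : ContinuousAt (fun s => toL A (B s)) (A.ch i x).1 := imm_cont hδ hB
  have hev : ∀ᶠ s in 𝓝 (A.ch i x).1, toL A (B s) ∈ LY A o :=
    hBc.eventually ((LY A o).isOpen.mem_nhds hmem)
  let φ : EV n₁ → LY A o := fun s =>
    if hs : toL A (B s) ∈ LY A o then ⟨toL A (B s), hs⟩ else ⟨toL A (B (A.ch i x).1), hmem⟩
  have hφ : ∀ᶠ s in 𝓝 (A.ch i x).1, ((φ s : LY A o) : Leaf1 A) = toL A (B s) := by
    filter_upwards [hev] with s hs
    simp only [φ]
    rw [dif_pos hs]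
  have hBm : ContMDiffAt 𝓘(ℂ, EV n₁) 𝓘(ℂ, EV n₁) ω (fun s => toL A (B s)) (A.ch i x).1 :=
    leaf_contMDiffAt (isE1g_mono (imm1_isE1g hB) (by simpa using hδ))
  have hφm : ContMDiffAt 𝓘(ℂ, EV n₁) 𝓘(ℂ, EV n₁) ω φ (A.ch i x).1 := by
    rw [← contMDiffAt_val_iff]
    exact hBm.congr_of_eventuallyEq hφ
  refine ⟨φ, fun z => κ (z : Leaf1 A), hφm, ?_, ?_, ?_⟩
  · have h1 : ContMDiffAt 𝓘(ℂ, EV n₁) 𝓘(ℂ, EV n₁) ω (Subtype.val : LY A o → Leaf1 A)
        (prj A hp hpo x) := contMDiff_subtype_val.contMDiffAt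
    have h2 : ContMDiffAt 𝓘(ℂ, EV n₁) 𝓘(ℂ, EV n₁) ω κ ((prj A hp hpo x : LY A o) : Leaf1 A) := by
      have : ((prj A hp hpo x : LY A o) : Leaf1 A) = toL A (B (A.ch i x).1) := by
        rw [hBx]
        rfl
      rw [this]
      exact hκ
    exact ContMDiffAt.comp (prj A hp hpo x) h2 h1
  · have h3 : ∀ᶠ y in 𝓝 x, ((φ (A.ch i y).1 : LY A o) : Leaf1 A) = toL A (B (A.ch i y).1) :=
      (continuous_fst.continuousAt.comp (continuousAt_ch hi)).eventually hφ
    filter_upwards [h, h3] with y hy hy3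
    apply Subtype.ext
    rw [hy3, ← hy]
    rfl
  · have h3 : ∀ᶠ y in 𝓝 x, κ (toL A (B (A.ch i y).1)) = (A.ch i y).1 :=
      (continuous_fst.continuousAt.comp (continuousAt_ch hi)).eventually hκ1
    filter_upwards [h, h3] with y hy hy3
    have : ((prj A hp hpo y : LY A o) : Leaf1 A) = toL A (B (A.ch i y).1) := by
      rw [← hy]
      rfl
    show κ ((prj A hp hpo y : LY A o) : Leaf1 A) = _
    rw [this, hy3]

end

/-! ### plaque neighbourhoods in the leaf through `o` -/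

/-- the plaque neighbourhood -/
def nb (A : PFol n₁ n₂ X) (o : X) (j : A.ι) (a₀ : EV n₁) (b : EV n₂) (r : ℝ) : Set (LY A o) :=
  {z | inc A o z ∈ (A.ch j).source ∧ (A.ch j (inc A o z)).2 = b ∧
    (A.ch j (inc A o z)).1 ∈ ball a₀ r}

theorem nb_open (A : PFol n₁ n₂ X) (o : X) (j : A.ι) (a₀ : EV n₁) (b : EV n₂) (r : ℝ) :
    IsOpen (nb A o j a₀ b r) := by
  rw [isOpen_iff_mem_nhds]
  rintro z ⟨h1, h2, h3⟩
  have hc := leaf_coord A j (z : Leaf1 A) h1
  have e1 : ∀ᶠ w : Leaf1 A in 𝓝 (z : Leaf1 A), (A.ch j (ofL w)).1 ∈ ball a₀ r :=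
    hc.1.continuousAt.eventually (isOpen_ball.mem_nhds h3)
  have e2 : ∀ᶠ w : Leaf1 A in 𝓝 (z : Leaf1 A), ofL w ∈ (A.ch j).source ∧
      (A.ch j (ofL w)).2 = b ∧ (A.ch j (ofL w)).1 ∈ ball a₀ r := by
    filter_upwards [e1, hc.2] with w hw1 hw2
    exact ⟨hw2.1, hw2.2.trans h2, hw1⟩
  exact continuous_subtype_val.continuousAt.eventually e2

theorem nb_preconnected (A : PFol n₁ n₂ X) (o : X) (j : A.ι) {a₀ : EV n₁} {b : EV n₂} {r : ℝ}
    (hr : ball a₀ r ⊆ ball 0 1) (hb : b ∈ ball (0 : EV n₂) 1) :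
    IsPreconnected (nb A o j a₀ b r) := by
  classical
  rcases (nb A o j a₀ b r).eq_empty_or_nonempty with he | ⟨z₀, hz₀⟩
  · rw [he]; exact isPreconnected_empty
  -- the plaque map into the leaf space
  have hcont : ContinuousOn (fun a => toL A (plq A j b a)) (ball a₀ r) := by
    intro a ha
    exact (leaf_continuousAt (isE1g_mono (isE1g_plq A j hb)
      (by simpa using hr ha))).continuousWithinAt
  have himg : IsPreconnected ((fun a => toL A (plq A j b a)) '' ball a₀ r) :=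
    (convex_ball a₀ r).isPreconnected.image _ hcont
  have himg' : (fun a => toL A (plq A j b a)) '' ball a₀ r = Subtype.val '' nb A o j a₀ b r := by
    have hz₀' : (z₀ : Leaf1 A) ∈ (fun a => toL A (plq A j b a)) '' ball a₀ r :=
      ⟨_, hz₀.2.2, plq_coord hz₀.1 hz₀.2.1⟩
    have hsub : (fun a => toL A (plq A j b a)) '' ball a₀ r ⊆ connectedComponent (toL A o) := by
      have h1 := himg.subset_connectedComponent hz₀'
      have h2 : connectedComponent (z₀ : Leaf1 A) = connectedComponent (toL A o) :=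
        (connectedComponent_eq z₀.2).symm
      rw [h2] at h1
      exact h1
    ext w
    constructor
    · rintro ⟨a, ha, rfl⟩
      have hm : toL A (plq A j b a) ∈ connectedComponent (toL A o) := hsub ⟨a, ha, rfl⟩
      refine ⟨⟨toL A (plq A j b a), hm⟩, ?_, rfl⟩
      have := ch_symm (A := A) (i := j) (hr ha) hb
      refine ⟨this.1, ?_, ?_⟩
      · show (A.ch j ((A.ch j).symm (a, b))).2 = b
        rw [this.2]
      · show (A.ch j ((A.ch j).symm (a, b))).1 ∈ _
        rw [this.2]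
        exact ha
    · rintro ⟨z, hz, rfl⟩
      exact ⟨_, hz.2.2, plq_coord hz.1 hz.2.1⟩
  rw [himg'] at himg
  exact (Topology.IsInducing.subtypeVal.isPreconnected_image).1 himg

/-- the first half of the extension: chart data at a point of the leaf through `o` -/
theorem lift1 [T2Space X] [ConnectedSpace X] {A : PFol n₁ n₂ X} (hC : CompG A (EV n₁) ℂ)
    {p : X → X} (hp : Sec1 A univ p) {o : X} (hpo : p o = o) (y : LY A o) :
    ∃ (j : A.ι) (a₀ : EV n₁) (b : EV n₂), b ∈ ball (0 : EV n₂) 1 ∧ ball a₀ (1 / 8) ⊆ ball 0 1 ∧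
      y ∈ nb A o j a₀ b (1 / 8) ∧
      ∀ x ∈ nb A o j a₀ b (1 / 8), ∀ q : X, prj A hp hpo q = x →
        ∃ R : EV n₁ → X, IsE1g A (ball (A.ch j (inc A o x)).1 (1 / 4)) R ∧
          R (A.ch j (inc A o x)).1 = q ∧
          ball a₀ (1 / 8) ⊆ ball (A.ch j (inc A o x)).1 (1 / 4) ∧
          ∀ a ∈ ball (A.ch j (inc A o x)).1 (1 / 4), p (R a) = plq A j b a := by
  obtain ⟨j, hj, hj2⟩ := A.cover (inc A o y)
  refine ⟨j, (A.ch j (inc A o y)).1, (A.ch j (inc A o y)).2, (ch_mem hj).2, ?_, ?_, ?_⟩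
  · intro a ha
    have h1 : dist a (A.ch j (inc A o y)).1 < 1 / 8 := ha
    have h2 : dist (A.ch j (inc A o y)).1 0 < 1 / 2 := hj2.1
    have := dist_triangle a (A.ch j (inc A o y)).1 0
    show dist a 0 < 1
    linarith
  · exact ⟨hj, rfl, mem_ball_self (by norm_num)⟩
  · intro x hx q hq
    have hx1 : dist (A.ch j (inc A o x)).1 (A.ch j (inc A o y)).1 < 1 / 8 := hx.2.2
    have h2 : dist (A.ch j (inc A o y)).1 0 < 1 / 2 := hj2.1
    have hpq : p q = inc A o x := by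
      rw [← hq]; rfl
    have hbb : ball (A.ch j (p q)).1 (1 / 4) ⊆ ball 0 1 := by
      rw [hpq]
      intro a ha
      have h1 : dist a (A.ch j (inc A o x)).1 < 1 / 4 := ha
      have t1 := dist_triangle a (A.ch j (inc A o x)).1 0
      have t2 := dist_triangle (A.ch j (inc A o x)).1 (A.ch j (inc A o y)).1 0
      show dist a 0 < 1
      linarith
    obtain ⟨R, hR1, hR2, hR3⟩ := exists_leaf_lift hC hp q (j := j) (by rw [hpq]; exact hx.1)
      (r := 1 / 4) (by norm_num) hbb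
    rw [hpq] at hR1 hR2 hR3
    refine ⟨R, hR1, hR2, ?_, ?_⟩
    · intro a ha
      have h1 : dist a (A.ch j (inc A o y)).1 < 1 / 8 := ha
      have t1 := dist_triangle_right a (A.ch j (inc A o x)).1 (A.ch j (inc A o y)).1
      show dist a (A.ch j (inc A o x)).1 < 1 / 4
      linarith
    · rw [hx.2.1] at hR3
      exact hR3

end GA

section Main

variable {n₁ n₂ : ℕ} {X : Type} [TopologicalSpace X]

open GA

theorem global_product [T2Space X]
    [SimplyConnectedSpace X] [LocallyPathConnectedSpace X] (A : PFol n₁ n₂ X)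
    (hC : Completeness A) :
    ∃ (Y₁ : Type) (Y₂ : Type) (_ : TopologicalSpace Y₁) (_ : TopologicalSpace Y₂)
      (_ : ChartedSpace (EV n₁) Y₁) (_ : ChartedSpace (EV n₂) Y₂)
      (_ : IsManifold 𝓘(ℂ, EV n₁) ω Y₁) (_ : IsManifold 𝓘(ℂ, EV n₂) ω Y₂),
      ConnectedSpace Y₁ ∧ ConnectedSpace Y₂ ∧ SimplyConnectedSpace Y₁ ∧ SimplyConnectedSpace Y₂ ∧
      ∃ (Φ : X → Y₁ × Y₂) (Ψ : Y₁ × Y₂ → X), ProdStr A Y₁ Y₂ Φ Ψ := by
  classical
  have hC1 : CompG A (EV n₁) ℂ := compG_of_completeness hC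
  have hC2 : CompG A.swap (EV n₂) ℂ := compG_swap.2 (compG_of_completeness hC)
  have hC12 : CompG A (EV n₁) (EV n₂) := compG_of_completeness hC
  haveI : ConnectedSpace X := inferInstance
  obtain ⟨o⟩ : Nonempty X := inferInstance
  obtain ⟨p₁, hp₁, hpo₁, hg₁⟩ := exists_proj hC1 o
  obtain ⟨p₂, hp₂, hpo₂, hg₂⟩ := exists_proj (A := A.swap) hC2 o
  let Y₁ := LY A o
  let Y₂ := LY A.swap o
  let P₁ : X → Y₁ := prj A hp₁ hpo₁
  let P₂ : X → Y₂ := prj A.swap hp₂ hpo₂
  let Φ : X → Y₁ × Y₂ := fun x => (P₁ x, P₂ x)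
  have hΦ : Continuous Φ := (prj_continuous hp₁ hpo₁).prodMk (prj_continuous hp₂ hpo₂)
  haveI sc₁ : SimplyConnectedSpace Y₁ :=
    simplyConnected_of_retract (inc A o) P₁ (inc_continuous A o) (prj_continuous hp₁ hpo₁)
      (prj_inc hp₁ hpo₁ hg₁)
  haveI sc₂ : SimplyConnectedSpace Y₂ :=
    simplyConnected_of_retract (inc A.swap o) P₂ (inc_continuous A.swap o)
      (prj_continuous hp₂ hpo₂) (prj_inc hp₂ hpo₂ hg₂)
  haveI scp : SimplyConnectedSpace (Y₁ × Y₂) := simplyConnected_prod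
  haveI l1 : LocallyPathConnectedSpace Y₁ := ChartedSpace.locallyPathConnectedSpace (EV n₁) Y₁
  haveI l2 : LocallyPathConnectedSpace Y₂ := ChartedSpace.locallyPathConnectedSpace (EV n₂) Y₂
  haveI lm : LocallyPathConnectedSpace (ModelProd (EV n₁) (EV n₂)) :=
    inferInstanceAs (LocallyPathConnectedSpace (EV n₁ × EV n₂))
  haveI lp : LocallyPathConnectedSpace (Y₁ × Y₂) :=
    ChartedSpace.locallyPathConnectedSpace (ModelProd (EV n₁) (EV n₂)) (Y₁ × Y₂)
  -- local injectivity of `Φ`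
  have hinj : ∀ x, ∃ U ∈ 𝓝 x, InjOn Φ U := by
    intro x
    obtain ⟨i, hi, -⟩ := A.cover x
    obtain ⟨-, κ₁, -, -, -, hκ₁⟩ := prj_loc hp₁ hpo₁ x i hi
    obtain ⟨-, κ₂, -, -, -, hκ₂⟩ := prj_loc (A := A.swap) hp₂ hpo₂ x i (by simpa using hi)
    have hs : ∀ᶠ y in 𝓝 x, y ∈ (A.ch i).source := (A.ch i).open_source.mem_nhds hi
    refine ⟨{y | κ₁ (P₁ y) = (A.ch i y).1 ∧ κ₂ (P₂ y) = (A.swap.ch i y).1 ∧
      y ∈ (A.ch i).source}, by filter_upwards [hκ₁, hκ₂, hs] with y a b c using ⟨a, b, c⟩, ?_⟩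
    rintro y ⟨a, b, c⟩ y' ⟨a', b', c'⟩ he
    have he1 : P₁ y = P₁ y' := congrArg Prod.fst he
    have he2 : P₂ y = P₂ y' := congrArg Prod.snd he
    refine (A.ch i).injOn c c' (Prod.ext ?_ ?_)
    · rw [← a, ← a', he1]
    · have : (A.swap.ch i y).1 = (A.swap.ch i y').1 := by rw [← b, ← b', he2]
      exact this
  -- sections of `Φ`
  let Sec : Set (Y₁ × Y₂) → (Y₁ × Y₂ → X) → Prop := fun U f =>
    ContinuousOn f U ∧ ∀ u ∈ U, Φ (f u) = u
  have EX : ∀ y : Y₁ × Y₂, ∃ U, IsOpen U ∧ y ∈ U ∧ IsPreconnected U ∧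
      ∀ x ∈ U, ∀ q : X, Φ q = x → ∃ g, Sec U g ∧ g x = q := by
    rintro ⟨y₁, y₂⟩
    obtain ⟨j₁, a₁, b₁, hb₁, hr₁, hy₁, H₁⟩ := lift1 hC1 hp₁ hpo₁ y₁
    obtain ⟨j₂, a₂, b₂, hb₂, hr₂, hy₂, H₂⟩ := lift1 (A := A.swap) hC2 hp₂ hpo₂ y₂
    refine ⟨nb A o j₁ a₁ b₁ (1 / 8) ×ˢ nb A.swap o j₂ a₂ b₂ (1 / 8),
      (nb_open ..).prod (nb_open ..), ⟨hy₁, hy₂⟩,
      (nb_preconnected A o j₁ hr₁ hb₁).prod (nb_preconnected A.swap o j₂ hr₂ hb₂), ?_⟩
    rintro ⟨x₁, x₂⟩ ⟨hx₁, hx₂⟩ q hq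
    have hq1 : P₁ q = x₁ := congrArg Prod.fst hq
    have hq2 : P₂ q = x₂ := congrArg Prod.snd hq
    obtain ⟨R₁, hR₁, hR₁q, hs₁, hR₁p⟩ := H₁ x₁ hx₁ q hq1
    obtain ⟨R₂, hR₂, hR₂q, hs₂, hR₂p⟩ := H₂ x₂ hx₂ q hq2
    set c₁ := (A.ch j₁ (inc A o x₁)).1 with hc₁
    set c₂ := (A.swap.ch j₂ (inc A.swap o x₂)).1 with hc₂
    obtain ⟨G, hG, hG1, hG2⟩ := hC12 c₁ c₂ (1 / 4) (1 / 4) R₁ R₂ (by norm_num) (by norm_num)
      hR₁ (isE1g_swap.1 hR₂) (by rw [hR₁q, hR₂q])
    let k₁ : Y₁ → EV n₁ := fun z => (A.ch j₁ (inc A o z)).1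
    let k₂ : Y₂ → EV n₂ := fun z => (A.swap.ch j₂ (inc A.swap o z)).1
    have hk₁ : ContinuousOn k₁ (nb A o j₁ a₁ b₁ (1 / 8)) := by
      intro z hz
      refine ContinuousAt.continuousWithinAt ?_
      exact continuous_fst.continuousAt.comp
        ((continuousAt_ch hz.1).comp (inc_continuous A o).continuousAt)
    have hk₂ : ContinuousOn k₂ (nb A.swap o j₂ a₂ b₂ (1 / 8)) := by
      intro z hz
      refine ContinuousAt.continuousWithinAt ?_
      exact continuous_fst.continuousAt.comp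
        ((continuousAt_ch hz.1).comp (inc_continuous A.swap o).continuousAt)
    refine ⟨fun z => G (k₁ z.1, k₂ z.2), ⟨?_, ?_⟩, ?_⟩
    · rintro ⟨z₁, z₂⟩ ⟨hz₁, hz₂⟩
      have hGc : ContinuousAt G (k₁ z₁, k₂ z₂) :=
        isPCg_continuousAt hG ⟨hs₁ hz₁.2.2, hs₂ hz₂.2.2⟩
      have hkc : ContinuousWithinAt (fun z : Y₁ × Y₂ => (k₁ z.1, k₂ z.2))
          (nb A o j₁ a₁ b₁ (1 / 8) ×ˢ nb A.swap o j₂ a₂ b₂ (1 / 8)) (z₁, z₂) := by
        refine ContinuousWithinAt.prodMk ?_ ?_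
        · exact ContinuousWithinAt.comp (g := k₁) (f := Prod.fst)
            (t := nb A o j₁ a₁ b₁ (1 / 8)) (hk₁ z₁ hz₁) continuousWithinAt_fst (fun w hw => hw.1)
        · exact ContinuousWithinAt.comp (g := k₂) (f := Prod.snd)
            (t := nb A.swap o j₂ a₂ b₂ (1 / 8)) (hk₂ z₂ hz₂) continuousWithinAt_snd
            (fun w hw => hw.2)
      exact ContinuousAt.comp_continuousWithinAt (g := G)
        (f := fun z : Y₁ × Y₂ => (k₁ z.1, k₂ z.2)) (x := (z₁, z₂)) hGc hkc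
    · rintro ⟨z₁, z₂⟩ ⟨hz₁, hz₂⟩
      have hm1 : k₁ z₁ ∈ ball c₁ (1 / 4) := hs₁ hz₁.2.2
      have hm2 : k₂ z₂ ∈ ball c₂ (1 / 4) := hs₂ hz₂.2.2
      refine Prod.ext ?_ ?_
      · apply Subtype.ext
        show toL A (p₁ (G (k₁ z₁, k₂ z₂))) = z₁
        have e1 : p₁ (G (k₁ z₁, k₂ z₂)) = p₁ (G (k₁ z₁, c₂)) :=
          sec1_const hp₁ isOpen_ball (convex_ball _ _).isPreconnected (isPCg_slice2 hG hm1)
            hm2 (mem_ball_self (by norm_num))
        rw [e1, hG1 _ hm1, hR₁p _ hm1]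
        exact plq_coord (z := (z₁ : Leaf1 A)) hz₁.1 hz₁.2.1
      · apply Subtype.ext
        show toL A.swap (p₂ (G (k₁ z₁, k₂ z₂))) = z₂
        have hsl : IsE1g A (ball c₁ (1 / 4)) (fun a => G (a, k₂ z₂)) := isPCg_slice1 hG hm2
        have e1 : p₂ (G (k₁ z₁, k₂ z₂)) = p₂ (G (c₁, k₂ z₂)) :=
          sec1_const hp₂ isOpen_ball (convex_ball _ _).isPreconnected (isE2g_swap.2 hsl)
            hm1 (mem_ball_self (by norm_num))
        rw [e1, hG2 _ hm2, hR₂p _ hm2]
        exact plq_coord (z := (z₂ : Leaf1 A.swap)) hz₂.1 hz₂.2.1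
    · show G (c₁, c₂) = q
      rw [hG1 _ (mem_ball_self (by norm_num)), hR₁q]
  have sepΦ : IsSeparatedMap Φ := T2Space.isSeparatedMap Φ
  have linj : IsLocallyInjective Φ := by
    rw [isLocallyInjective_iff_nhds]
    exact hinj
  obtain ⟨Ψ, hΨ, hΨo⟩ : ∃ Ψ : Y₁ × Y₂ → X, (∀ y, ∃ U, IsOpen U ∧ y ∈ U ∧ Sec U Ψ) ∧
      Ψ (Φ o) = o := by
    obtain ⟨V₀, hV₀, hV₀m, -, hV₀e⟩ := EX (Φ o)
    obtain ⟨f₀, hf₀, hf₀o⟩ := hV₀e _ hV₀m o rfl
    obtain ⟨g, hg, hg'⟩ := monodromy_sections Sec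
      (fun U V f _ hVU hf => ⟨hf.1.mono hVU, fun u hu => hf.2 u (hVU hu)⟩)
      (fun U f g _ hf he => ⟨hf.1.congr he.symm, fun u hu => by rw [← he hu]; exact hf.2 u hu⟩)
      (by
        rintro U f g hU hU' hf hg ⟨x, hx, hfg⟩
        exact sepΦ.eqOn_of_comp_eqOn linj hU' hf.1 hg.1
          (fun u hu => (hf.2 u hu).trans (hg.2 u hu).symm) hx hfg.self_of_nhds)
      (by
        intro y
        obtain ⟨U, hU, hyU, hUp, hUe⟩ := EX y
        refine ⟨U, hU, hyU, hUp, ?_⟩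
        intro x hx V f hV hxV hf
        obtain ⟨g, hg, hgx⟩ := hUe x hx (f x) (hf.2 x hxV)
        refine ⟨g, hg, ?_⟩
        obtain ⟨W, hW, hWi⟩ := hinj (f x)
        have e1 : ∀ᶠ z in 𝓝 x, f z ∈ W :=
          (hf.1.continuousAt (hV.mem_nhds hxV)).eventually hW
        have e2 : ∀ᶠ z in 𝓝 x, g z ∈ W := by
          refine (hg.1.continuousAt (hU.mem_nhds hx)).eventually ?_
          rw [hgx]
          exact hW
        filter_upwards [e1, e2, hV.mem_nhds hxV, hU.mem_nhds hx] with z h1 h2 h3 h4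
        exact hWi h2 h1 ((hg.2 z h4).trans (hf.2 z h3).symm))
      (Φ o) V₀ f₀ hV₀ hV₀m hf₀
    exact ⟨g, hg, by rw [hg'.self_of_nhds]; exact hf₀o⟩
  have hΨc : Continuous Ψ := by
    rw [continuous_iff_continuousAt]
    intro y
    obtain ⟨U, hU, hy, hS⟩ := hΨ y
    exact hS.1.continuousAt (hU.mem_nhds hy)
  have hΦΨ : ∀ y, Φ (Ψ y) = y := by
    intro y
    obtain ⟨U, hU, hy, hS⟩ := hΨ y
    exact hS.2 y hy
  have hΨΦ : (fun x => Ψ (Φ x)) = (fun x => x) :=
    lifts_eq hinj (hΨc.comp hΦ) continuous_id (fun x => hΦΨ (Φ x)) (y₀ := o) hΨo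
  refine ⟨Y₁, Y₂, inferInstance, inferInstance, inferInstance, inferInstance, inferInstance,
    inferInstance, ly_connected A o, ly_connected A.swap o, sc₁, sc₂, Φ, Ψ, ?_, hΦΨ, ?_, ?_⟩
  · intro x
    exact congrFun hΨΦ x
  · intro x i hi
    obtain ⟨φ, -, hφ, -, h1, -⟩ := prj_loc hp₁ hpo₁ x i hi
    obtain ⟨ψ, -, hψ, -, h2, -⟩ := prj_loc (A := A.swap) hp₂ hpo₂ x i (by simpa using hi)
    refine ⟨φ, ψ, hφ, hψ, ?_⟩
    filter_upwards [h1, h2] with y e1 e2
    exact Prod.ext e1 e2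
  · intro q i hi
    obtain ⟨-, κ₁, -, h1', -, h1⟩ := prj_loc hp₁ hpo₁ (Ψ q) i hi
    obtain ⟨-, κ₂, -, h2', -, h2⟩ := prj_loc (A := A.swap) hp₂ hpo₂ (Ψ q) i (by simpa using hi)
    have hq1 : P₁ (Ψ q) = q.1 := congrArg Prod.fst (hΦΨ q)
    have hq2 : P₂ (Ψ q) = q.2 := congrArg Prod.snd (hΦΨ q)
    have hq1' : prj A hp₁ hpo₁ (Ψ q) = q.1 := hq1
    have hq2' : prj A.swap hp₂ hpo₂ (Ψ q) = q.2 := hq2
    rw [hq1'] at h1'
    rw [hq2'] at h2'
    refine ⟨κ₁, κ₂, h1', h2', ?_⟩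
    have hs : ∀ᶠ y in 𝓝 (Ψ q), y ∈ (A.ch i).source := (A.ch i).open_source.mem_nhds hi
    have e1 := hΨc.continuousAt.eventually (h1.and (h2.and hs))
    filter_upwards [e1] with q' hq'
    refine ⟨hq'.2.2, Prod.ext ?_ ?_⟩
    · have : P₁ (Ψ q') = q'.1 := congrArg Prod.fst (hΦΨ q')
      show (A.ch i (Ψ q')).1 = κ₁ q'.1
      rw [← hq'.1]
      exact congrArg κ₁ this
    · have : P₂ (Ψ q') = q'.2 := congrArg Prod.snd (hΦΨ q')
      have h3 := hq'.2.1
      show (A.swap.ch i (Ψ q')).1 = κ₂ q'.2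
      rw [← h3]
      exact congrArg κ₂ this

end Main

end Crest.Agent.R266
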