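import Mathlib

-- ▼ part R266/RatBasic
section

/-! Row 266, S0404 Step 3 (RAT), part 1: rational curves of bounded degree, closedness, reduction. -/

set_option autoImplicit false

namespace Crest.Agent.R266.RatK

open Polynomial Metric Set Filter Topology

variable {ι : Type*} [Fintype ι]

/-- proportionality of two vectors (wedge = 0) -/
def Par (a b : ι → ℂ) : Prop := ∀ i j, a i * b j = a j * b i

omit [Fintype ι] in
theorem Par.symm {a b : ι → ℂ} (h : Par a b) : Par b a := fun i j => by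
  have := h j i
  linear_combination this

omit [Fintype ι] in
theorem Par.exists_smul {a b : ι → ℂ} (h : Par a b) (hb : b ≠ 0) : ∃ c : ℂ, a = c • b := by
  obtain ⟨j, hj⟩ := Function.ne_iff.1 hb
  have hj' : b j ≠ 0 := by simpa using hj
  refine ⟨a j / b j, ?_⟩
  funext i
  have := h i j
  rw [Pi.smul_apply, smul_eq_mul, div_mul_eq_mul_div, eq_div_iff hj', this]

omit [Fintype ι] in
theorem Par.trans {a b c : ι → ℂ} (h : Par a b) (hb : b ≠ 0) (h' : Par b c) : Par a c := by
  obtain ⟨t, rfl⟩ := h.exists_smul hb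
  intro i j
  have := h' i j
  simp only [Pi.smul_apply, smul_eq_mul]
  linear_combination t * this

omit [Fintype ι] in
theorem Par.smul_left {a b : ι → ℂ} (h : Par a b) (t : ℂ) : Par (t • a) b := by
  intro i j
  have := h i j
  simp only [Pi.smul_apply, smul_eq_mul]
  linear_combination t * this

omit [Fintype ι] in
theorem Par.sub_left {a a' b : ι → ℂ} (h : Par a b) (h' : Par a' b) : Par (a - a') b := by
  intro i j
  have := h i j
  have h2 := h' i j
  simp only [Pi.sub_apply]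
  linear_combination this - h2


/-- evaluation of the vector polynomial with coefficient vectors `c 0, …, c (n-1)` -/
noncomputable def E {n : ℕ} (c : Fin n → ι → ℂ) (z : ℂ) : ι → ℂ := fun i => ∑ m, c m i * z ^ (m : ℕ)

/-- the polynomials with coefficients `c` -/
noncomputable def poly {n : ℕ} (c : Fin n → ι → ℂ) (i : ι) : ℂ[X] := ∑ m : Fin n, C (c m i) * X ^ (m : ℕ)

omit [Fintype ι] in
theorem eval_poly {n : ℕ} (c : Fin n → ι → ℂ) (i : ι) (z : ℂ) : (poly c i).eval z = E c z i := by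
  simp [poly, E, eval_finsetSum]

omit [Fintype ι] in
theorem coeff_poly {n : ℕ} (c : Fin n → ι → ℂ) (i : ι) (m : Fin n) : (poly c i).coeff m = c m i := by
  rw [poly, finsetSum_coeff, Finset.sum_eq_single m]
  · simp
  · intro b _ hb
    rw [coeff_C_mul, coeff_X_pow, if_neg, mul_zero]
    intro h
    exact hb (Fin.ext h.symm)
  · simp

omit [Fintype ι] in
theorem degree_poly {n : ℕ} (c : Fin n → ι → ℂ) (i : ι) : (poly c i).degree < n := by
  rw [poly]
  refine (degree_sum_le _ _).trans_lt ?_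
  rw [Finset.sup_lt_iff (by exact_mod_cast WithBot.bot_lt_coe n)]
  intro m _
  refine (degree_C_mul_X_pow_le _ _).trans_lt ?_
  exact_mod_cast m.2

/-- coefficients of a vector of polynomials -/
noncomputable def coefs (n : ℕ) (p : ι → ℂ[X]) : Fin n → ι → ℂ := fun m i => (p i).coeff m

omit [Fintype ι] in
theorem E_coefs {n : ℕ} {p : ι → ℂ[X]} (hp : ∀ i, (p i).degree < n) (z : ℂ) :
    E (coefs n p) z = fun i => (p i).eval z := by
  funext i
  rw [E]
  simp only [coefs]
  by_cases h0 : p i = 0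
  · simp [h0]
  have h1 : (p i).natDegree < n := by
    have := hp i
    rwa [degree_eq_natDegree h0, Nat.cast_lt] at this
  rw [eval_eq_sum_range' h1, Finset.sum_range]

omit [Fintype ι] in
theorem coefs_ne_zero {n : ℕ} {p : ι → ℂ[X]} (hp : ∀ i, (p i).degree < n) (h0 : p ≠ 0) :
    coefs n p ≠ 0 := by
  intro h
  apply h0
  funext i
  ext m
  by_cases hm : m < n
  · have := congrFun (congrFun h ⟨m, hm⟩) i
    simpa [coefs] using this
  · rw [coeff_eq_zero_of_degree_lt]
    · rfl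
    · exact (hp i).trans_le (by exact_mod_cast not_lt.1 hm)

omit [Fintype ι] in
theorem eq_zero_of_E {n : ℕ} {c : Fin n → ι → ℂ} {A : Set ℂ} (hA : A.Infinite)
    (h : ∀ z ∈ A, E c z = 0) : c = 0 := by
  funext m i
  have : poly c i = 0 := by
    refine eq_zero_of_infinite_isRoot _ (hA.mono ?_)
    intro z hz
    have := congrFun (h z hz) i
    rw [mem_ofPred_eq, IsRoot.def, eval_poly, this]
    rfl
  rw [← coeff_poly c i m, this]
  simp

omit [Fintype ι] in
theorem E_smul {n : ℕ} (t : ℂ) (c : Fin n → ι → ℂ) (z : ℂ) : E (t • c) z = t • E c z := by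
  funext i
  simp [E, Finset.mul_sum, mul_assoc]

omit [Fintype ι] in
theorem E_sub {n : ℕ} (c c' : Fin n → ι → ℂ) (z : ℂ) : E (c - c') z = E c z - E c' z := by
  funext i
  simp [E, sub_mul, Finset.sum_sub_distrib]

omit [Fintype ι] in
theorem continuous_E {n : ℕ} : Continuous (fun q : (Fin n → ι → ℂ) × ℂ => E q.1 q.2) := by
  unfold E
  fun_prop

/-- `φ` restricted to `D` is proportional to a nonzero vector polynomial with `n` coefficients. -/
def RatLT (n : ℕ) (φ : ℂ → ι → ℂ) (D : Set ℂ) : Prop :=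
  ∃ c : Fin n → ι → ℂ, c ≠ 0 ∧ ∀ z ∈ D, Par (E c z) (φ z)

omit [Fintype ι] in
theorem not_ratLT_zero (φ : ℂ → ι → ℂ) (D : Set ℂ) : ¬ RatLT 0 φ D := by
  rintro ⟨c, hc, -⟩
  exact hc (Subsingleton.elim _ _)

omit [Fintype ι] in
theorem RatLT.of_poly {n : ℕ} {φ : ℂ → ι → ℂ} {D : Set ℂ} {p : ι → ℂ[X]}
    (hp : ∀ i, (p i).degree < n) (h0 : p ≠ 0) (h : ∀ z ∈ D, Par (fun i => (p i).eval z) (φ z)) :
    RatLT n φ D :=
  ⟨coefs n p, coefs_ne_zero hp h0, fun z hz => by rw [E_coefs hp]; exact h z hz⟩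

omit [Fintype ι] in
theorem exists_E_eq_of_le {n n' : ℕ} (hn : n ≤ n') (c : Fin n → ι → ℂ) :
    ∃ c' : Fin n' → ι → ℂ, (∀ z, E c' z = E c z) ∧ (c ≠ 0 → c' ≠ 0) := by
  have hd : ∀ i, (poly c i).degree < (n' : WithBot ℕ) := fun i =>
    (degree_poly c i).trans_le (by exact_mod_cast hn)
  refine ⟨coefs n' (poly c), fun z => ?_, fun h => ?_⟩
  · rw [E_coefs hd]
    funext i
    rw [eval_poly]
  · apply coefs_ne_zero hd
    intro h0
    apply h
    funext m i
    rw [← coeff_poly c i m, h0]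
    simp

omit [Fintype ι] in
theorem RatLT.mono {n n' : ℕ} (hn : n ≤ n') {φ : ℂ → ι → ℂ} {D : Set ℂ} (h : RatLT n φ D) :
    RatLT n' φ D := by
  obtain ⟨c, hc, h⟩ := h
  obtain ⟨c', h1, h2⟩ := exists_E_eq_of_le hn c
  exact ⟨c', h2 hc, fun z hz => by rw [h1]; exact h z hz⟩

omit [Fintype ι] in
/-- Par is a closed condition -/
theorem par_of_closure {φ ψ : ℂ → ι → ℂ} {D A : Set ℂ} (hφ : ContinuousOn φ D)
    (hψ : ContinuousOn ψ D) (hA : ∀ z ∈ A, Par (ψ z) (φ z)) {z : ℂ} (hz : z ∈ D)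
    (hAD : A ⊆ D) (hcl : z ∈ closure A) : Par (ψ z) (φ z) := by
  intro i j
  have h1 : ContinuousWithinAt (fun z => ψ z i * φ z j) A z :=
    (((continuous_apply i).continuousAt.comp_continuousWithinAt (hψ z hz)).mul
      ((continuous_apply j).continuousAt.comp_continuousWithinAt (hφ z hz))).mono hAD
  have h2 : ContinuousWithinAt (fun z => ψ z j * φ z i) A z :=
    (((continuous_apply j).continuousAt.comp_continuousWithinAt (hψ z hz)).mul
      ((continuous_apply i).continuousAt.comp_continuousWithinAt (hφ z hz))).mono hAD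
  have : (𝓝[A] z).NeBot := mem_closure_iff_nhdsWithin_neBot.1 hcl
  refine tendsto_nhds_unique_of_eventuallyEq h1.tendsto h2.tendsto ?_
  filter_upwards [self_mem_nhdsWithin] with w hw
  exact hA w hw i j

omit [Fintype ι] in
/-- Reduction: a solution whose top coefficient vanishes, or with a common zero, can be
replaced by one of lower degree. -/
theorem RatLT.reduce {n : ℕ} {φ : ℂ → ι → ℂ} {D : Set ℂ} (hD : IsOpen D) (hφ : ContinuousOn φ D)
    {c : Fin (n + 1) → ι → ℂ} (hc : c ≠ 0) (h : ∀ z ∈ D, Par (E c z) (φ z))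
    (hz : c (Fin.last n) = 0 ∨ ∃ r, E c r = 0) : RatLT n φ D := by
  have hp0 : poly c ≠ 0 := by
    intro h0
    apply hc
    funext m i
    rw [← coeff_poly c i m, h0]
    simp
  rcases hz with hz | ⟨r, hr⟩
  · refine RatLT.of_poly (p := poly c) ?_ hp0 ?_
    · intro i
      have h1 : (poly c i).degree < (n + 1 : ℕ) := degree_poly c i
      refine lt_of_le_of_ne ?_ ?_ |>.trans_le le_rfl
      · by_cases h0 : poly c i = 0
        · rw [h0]; simp
        · rw [degree_eq_natDegree h0, Nat.cast_lt] at h1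
          rw [degree_eq_natDegree h0]
          exact_mod_cast Nat.lt_succ_iff.1 h1
      · intro he
        have h2 := coeff_poly c i (Fin.last n)
        rw [hz] at h2
        simp only [Fin.val_last, Pi.zero_apply] at h2
        exact coeff_ne_zero_of_eq_degree he h2
    · intro z hz
      have := h z hz
      simpa [eval_poly] using this
  · -- divide by (X - r)
    have hdvd : ∀ i, ∃ q : ℂ[X], poly c i = (X - C r) * q := by
      intro i
      have : IsRoot (poly c i) r := by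
        rw [IsRoot.def, eval_poly, hr]; rfl
      exact dvd_iff_isRoot.2 this
    choose q hq using hdvd
    have hq0 : q ≠ 0 := by
      intro h0
      apply hp0
      funext i
      rw [hq i, h0]
      simp
    refine RatLT.of_poly (p := q) ?_ hq0 ?_
    · intro i
      by_cases h0 : q i = 0
      · rw [h0]; simp
      · have h1 : (poly c i).degree < (n + 1 : ℕ) := degree_poly c i
        rw [hq i, degree_mul, degree_X_sub_C, degree_eq_natDegree h0] at h1
        rw [degree_eq_natDegree h0]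
        have h2 : (1 + (q i).natDegree : ℕ) < n + 1 := by exact_mod_cast h1
        have h3 : (q i).natDegree < n := by omega
        exact_mod_cast h3
    · have hA : ∀ z ∈ D \ {r}, Par (fun i => (q i).eval z) (φ z) := by
        intro z hz
        have h1 := h z hz.1
        have hzr : z - r ≠ 0 := sub_ne_zero.2 hz.2
        intro i j
        have h2 := h1 i j
        rw [← eval_poly, ← eval_poly, hq i, hq j] at h2
        simp only [eval_mul, eval_sub, eval_X, eval_C] at h2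
        have h3 : (z - r) * (eval z (q i) * φ z j) = (z - r) * (eval z (q j) * φ z i) := by
          linear_combination h2
        exact mul_left_cancel₀ hzr h3
      intro z hz
      refine par_of_closure hφ (ψ := fun z i => (q i).eval z) ?_ hA hz sdiff_subset ?_
      · exact continuousOn_pi.2 fun i => (q i).continuous.continuousOn
      · by_cases hzr : z = r
        · subst hzr
          have h1 : (𝓝[≠] z).NeBot := inferInstance
          rw [mem_closure_iff_nhdsWithin_neBot]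
          have : 𝓝[D \ {z}] z = 𝓝[≠] z := by
            rw [sdiff_eq, inter_comm, nhdsWithin_inter_of_mem']
            exact mem_nhdsWithin_of_mem_nhds (hD.mem_nhds hz)
          rw [this]
          exact h1
        · exact subset_closure ⟨hz, hzr⟩

omit [Fintype ι] in
/-- reduced representation -/
theorem RatLT.exists_reduced {n : ℕ} {φ : ℂ → ι → ℂ} {D : Set ℂ} (hD : IsOpen D)
    (hφ : ContinuousOn φ D) (h : RatLT n φ D) :
    ∃ c : Fin n → ι → ℂ, (∀ z, E c z ≠ 0) ∧ ∀ z ∈ D, Par (E c z) (φ z) := by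
  induction n with
  | zero => exact absurd h (not_ratLT_zero _ _)
  | succ n ih =>
    by_cases h' : RatLT n φ D
    · obtain ⟨c, h1, h2⟩ := ih h'
      obtain ⟨c', h3, -⟩ := exists_E_eq_of_le (Nat.le_succ n) c
      exact ⟨c', fun z => by rw [h3]; exact h1 z, fun z hz => by rw [h3]; exact h2 z hz⟩
    · obtain ⟨c, hc, hp⟩ := h
      refine ⟨c, fun z hz => ?_, hp⟩
      exact h' (RatLT.reduce hD hφ hc hp (Or.inr ⟨z, hz⟩))

omit [Fintype ι] in
/-- uniqueness up to scalar in minimal degree -/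
theorem unique_of_minimal {n : ℕ} {φ : ℂ → ι → ℂ} {D : Set ℂ} (hD : IsOpen D) (hne : D.Nonempty)
    (hφ : ContinuousOn φ D) (hφ0 : ∀ z ∈ D, φ z ≠ 0) (hmin : ¬ RatLT n φ D)
    {c c' : Fin (n + 1) → ι → ℂ} (hc : c ≠ 0) (h : ∀ z ∈ D, Par (E c z) (φ z))
    (h' : ∀ z ∈ D, Par (E c' z) (φ z)) : ∃ t : ℂ, c' = t • c := by
  obtain ⟨z0, hz0⟩ := hne
  have h0 : E c z0 ≠ 0 := fun hz => hmin (RatLT.reduce hD hφ hc h (Or.inr ⟨z0, hz⟩))
  obtain ⟨t, ht⟩ := ((h' z0 hz0).trans (hφ0 z0 hz0) (h z0 hz0).symm).exists_smul h0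
  refine ⟨t, ?_⟩
  by_contra hne
  have h1 : c' - t • c ≠ 0 := sub_ne_zero.2 hne
  refine hmin (RatLT.reduce hD hφ h1 ?_ (Or.inr ⟨z0, ?_⟩))
  · intro z hz
    rw [E_sub, E_smul]
    exact (h' z hz).sub_left ((h z hz).smul_left t)
  · rw [E_sub, E_smul, ht, sub_self]

/-- closedness of the bounded degree condition -/
theorem ratLT_of_mem_closure {T : Type*} [MetricSpace T] {n : ℕ} {Φ : T → ℂ → ι → ℂ} {D : Set ℂ}
    {A : Set T} (hΦ : ∀ z ∈ D, ContinuousOn (fun t => Φ t z) A) {t : T} (ht : t ∈ A)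
    (hcl : t ∈ closure {t' | t' ∈ A ∧ RatLT n (Φ t') D}) : RatLT n (Φ t) D := by
  obtain ⟨u, hu, hut⟩ := mem_closure_iff_seq_limit.1 hcl
  have hex : ∀ j, ∃ c : Fin n → ι → ℂ, c ∈ sphere (0 : Fin n → ι → ℂ) 1 ∧
      ∀ z ∈ D, Par (E c z) (Φ (u j) z) := by
    intro j
    obtain ⟨c, hc, hp⟩ := (hu j).2
    refine ⟨((‖c‖⁻¹ : ℝ) : ℂ) • c, ?_, fun z hz => ?_⟩
    · rw [mem_sphere_zero_iff_norm, norm_smul, Complex.norm_real, norm_inv, norm_norm,
        inv_mul_cancel₀ (norm_ne_zero_iff.2 hc)]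
    · rw [E_smul]
      exact (hp z hz).smul_left _
  choose c hc hp using hex
  obtain ⟨c0, hc0, ψ, hψ, hlim⟩ := (isCompact_sphere (0 : Fin n → ι → ℂ) 1).tendsto_subseq hc
  refine ⟨c0, ?_, fun z hz i j => ?_⟩
  · rintro rfl
    rw [mem_sphere_zero_iff_norm, norm_zero] at hc0
    exact zero_ne_one hc0
  · have hA : Tendsto (fun k => u (ψ k)) atTop (𝓝[A] t) := by
      refine tendsto_nhdsWithin_iff.2 ⟨hut.comp hψ.tendsto_atTop, ?_⟩
      exact Eventually.of_forall fun k => (hu _).1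
    have h1 : Tendsto (fun k => Φ (u (ψ k)) z) atTop (𝓝 (Φ t z)) := (hΦ z hz t ht).tendsto.comp hA
    have h2 : Tendsto (fun k => E (c (ψ k)) z) atTop (𝓝 (E c0 z)) := by
      have h3 : Continuous fun c : Fin n → ι → ℂ => E c z :=
        continuous_E.comp (continuous_id.prodMk continuous_const)
      exact (h3.tendsto c0).comp hlim
    have h3 : ∀ k, E (c (ψ k)) z i * Φ (u (ψ k)) z j = E (c (ψ k)) z j * Φ (u (ψ k)) z i :=
      fun k => hp _ z hz i j
    have h4 := (((continuous_apply i).tendsto _).comp h2).mul (((continuous_apply j).tendsto _).comp h1)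
    have h5 := (((continuous_apply j).tendsto _).comp h2).mul (((continuous_apply i).tendsto _).comp h1)
    refine tendsto_nhds_unique h4 (h5.congr fun k => ?_)
    exact (h3 k).symm

/-- Baire, relative to an open set -/
theorem baire_open {T : Type*} [TopologicalSpace T] [BaireSpace T] {O : Set T} (hO : IsOpen O)
    (hne : O.Nonempty) (C : ℕ → Set T) (hcov : ∀ t ∈ O, ∃ n, t ∈ C n)
    (hcl : ∀ n, ∀ t ∈ O, t ∈ closure {t' | t' ∈ O ∧ t' ∈ C n} → t ∈ C n) :
    ∃ n, (interior {t' | t' ∈ O ∧ t' ∈ C n}).Nonempty := by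
  let f : Option ℕ → Set T := fun n => match n with
    | none => Oᶜ
    | some n => closure {t' | t' ∈ O ∧ t' ∈ C n}
  have hf : ∀ n, IsClosed (f n) := by
    rintro (_ | n)
    · exact hO.isClosed_compl
    · exact isClosed_closure
  have hU : ⋃ n, f n = univ := by
    refine eq_univ_of_forall fun t => ?_
    by_cases ht : t ∈ O
    · obtain ⟨n, hn⟩ := hcov t ht
      exact mem_iUnion.2 ⟨some n, subset_closure ⟨ht, hn⟩⟩
    · exact mem_iUnion.2 ⟨none, ht⟩
  have hd := dense_iUnion_interior_of_closed hf hU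
  obtain ⟨x, hxO, hx⟩ := hd.exists_mem_open hO hne
  obtain ⟨n, hn⟩ := mem_iUnion.1 hxO
  rcases n with _ | n
  · exact absurd hx (interior_subset hn)
  · refine ⟨n, x, ?_⟩
    have hopen : IsOpen (O ∩ interior (f (some n))) := hO.inter isOpen_interior
    refine mem_interior.2 ⟨_, ?_, hopen, hx, hn⟩
    rintro y ⟨hy, hy'⟩
    exact ⟨hy, hcl n y hy (interior_subset hy')⟩

end Crest.Agent.R266.RatK
end

-- ▼ part R266/RatSel
section

/-! Row 266, S0404 Step 3 (RAT), part 2: selection of functionals, polynomial kernels,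
holomorphic dependence. -/

set_option autoImplicit false

namespace Crest.Agent.R266.RatK

open Polynomial Metric Set Filter Topology

/-- A family of functionals with trivial common kernel contains `finrank` many with trivial
common kernel. -/
theorem exists_select {K V : Type*} [Field K] [AddCommGroup V] [Module K V]
    [FiniteDimensional K V] {J : Type*} (ℓ : J → Module.Dual K V)
    (h : ∀ v, (∀ j, ℓ j v = 0) → v = 0) :
    ∃ f : Fin (Module.finrank K V) → J, ∀ v, (∀ a, ℓ (f a) v = 0) → v = 0 := by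
  have htop : Submodule.span K (range ℓ) = ⊤ := by
    apply Submodule.eq_top_of_finrank_eq
    have h1 := Subspace.finrank_add_finrank_dualCoannihilator_eq (Submodule.span K (range ℓ))
    have h2 : (Submodule.span K (range ℓ)).dualCoannihilator = ⊥ := by
      rw [eq_bot_iff]
      intro v hv
      rw [Submodule.mem_dualCoannihilator] at hv
      exact h v fun j => hv _ (Submodule.subset_span ⟨j, rfl⟩)
    rw [h2, finrank_bot, add_zero] at h1
    rw [h1, Subspace.dual_finrank_eq]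
  obtain ⟨b, hb, hbs, hbl⟩ := exists_linearIndependent K (range ℓ)
  have hbt : ⊤ ≤ Submodule.span K (range ((↑) : b → Module.Dual K V)) := by
    rw [Subtype.range_coe, hbs, htop]
  let B : Module.Basis b K (Module.Dual K V) := Module.Basis.mk hbl hbt
  have : Finite b := Module.Finite.finite_basis B
  have : Fintype b := Fintype.ofFinite b
  have hcard : Fintype.card b = Module.finrank K V := by
    rw [← Module.finrank_eq_card_basis B, Subspace.dual_finrank_eq]
  let e : Fin (Module.finrank K V) ≃ b := (Fintype.equivFinOfCardEq hcard).symm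
  have hch : ∀ x : b, ∃ j, ℓ j = x := fun x => hb x.2
  choose g hg using hch
  refine ⟨fun a => g (e a), fun v hv => h v fun j => ?_⟩
  have hall : ∀ φ : Module.Dual K V, φ v = 0 := by
    intro φ
    have h1 : φ ∈ Submodule.span K (range ((↑) : b → Module.Dual K V)) := hbt trivial
    refine Submodule.span_induction (p := fun φ _ => φ v = 0) ?_ ?_ ?_ ?_ h1
    · rintro _ ⟨x, rfl⟩
      have h2 : ℓ (g (e (e.symm x))) v = 0 := hv (e.symm x)
      rw [Equiv.apply_symm_apply, hg] at h2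
      exact h2
    · simp
    · intro x y _ _ hx hy
      rw [LinearMap.add_apply, hx, hy, add_zero]
    · intro a x _ hx
      rw [LinearMap.smul_apply, hx, smul_zero]
  exact hall _

/-- A polynomial linear system with a nontrivial solution at infinitely many points has a
nontrivial polynomial solution. -/
theorem exists_poly_kernel {σ : Type*} [Fintype σ] [DecidableEq σ] {J : Type*}
    (row : J → σ → ℂ[X]) {B : Set ℂ} (hB : B.Infinite)
    (h : ∀ β ∈ B, ∃ v : σ → ℂ, v ≠ 0 ∧ ∀ j, ∑ s, (row j s).eval β * v s = 0) :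
    ∃ v : σ → ℂ[X], v ≠ 0 ∧ ∀ j, ∑ s, row j s * v s = 0 := by
  by_contra hcon
  push Not at hcon
  let K := FractionRing ℂ[X]
  let ℓ : J → Module.Dual K (σ → K) := fun j =>
    ∑ s, (algebraMap ℂ[X] K (row j s)) • LinearMap.proj s
  have hℓ : ∀ j v, ℓ j v = ∑ s, algebraMap ℂ[X] K (row j s) * v s := by
    intro j v
    simp [ℓ, Algebra.smul_def]
  have hinj : Function.Injective (algebraMap ℂ[X] K) := IsFractionRing.injective _ _
  have hker : ∀ v : σ → K, (∀ j, ℓ j v = 0) → v = 0 := by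
    intro v hv
    obtain ⟨b, hb⟩ := IsLocalization.exist_integer_multiples_of_finite (nonZeroDivisors ℂ[X]) v
    choose w hw using hb
    have hb0 : algebraMap ℂ[X] K (b : ℂ[X]) ≠ 0 := by
      intro h0
      have : (b : ℂ[X]) = 0 := hinj (by rw [h0, map_zero])
      exact nonZeroDivisors.ne_zero b.2 this
    have hw0 : w = 0 := by
      by_contra hne
      obtain ⟨j, hj⟩ := hcon w hne
      apply hj
      apply hinj
      rw [map_sum, map_zero]
      have h1 := hv j
      rw [hℓ] at h1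
      calc ∑ s, algebraMap ℂ[X] K (row j s * w s)
          = ∑ s, algebraMap ℂ[X] K (b : ℂ[X]) * (algebraMap ℂ[X] K (row j s) * v s) := by
            refine Finset.sum_congr rfl fun s _ => ?_
            rw [map_mul, hw s, Algebra.smul_def]
            ring
        _ = 0 := by rw [← Finset.mul_sum, h1, mul_zero]
    funext s
    have h1 := hw s
    rw [hw0, Pi.zero_apply, map_zero, Algebra.smul_def] at h1
    exact (mul_eq_zero.1 h1.symm).resolve_left hb0
  obtain ⟨f, hf⟩ := exists_select ℓ hker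
  have hcard : Module.finrank K (σ → K) = Fintype.card σ := Module.finrank_fintype_fun_eq_card K
  let e : σ ≃ Fin (Module.finrank K (σ → K)) := (Fintype.equivFinOfCardEq hcard.symm)
  let M : Matrix σ σ ℂ[X] := Matrix.of fun s s' => row (f (e s)) s'
  have hdet : M.det ≠ 0 := by
    intro h0
    obtain ⟨v, hv0, hv⟩ := Matrix.exists_mulVec_eq_zero_iff.2 h0
    have h1 : (fun s => algebraMap ℂ[X] K (v s)) = 0 := by
      apply hf
      intro a
      rw [hℓ]
      have h2 := congrFun hv (e.symm a)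
      have h3 : ∑ s, row (f a) s * v s = 0 := by
        simpa [Matrix.mulVec, dotProduct, M] using h2
      rw [← map_zero (algebraMap ℂ[X] K), ← h3, map_sum]
      exact Finset.sum_congr rfl fun s _ => (map_mul _ _ _).symm
    apply hv0
    funext s
    apply hinj
    rw [Pi.zero_apply, map_zero]
    exact congrFun h1 s
  have hex : ∃ β ∈ B, M.det.eval β ≠ 0 := by
    by_contra hno
    push Not at hno
    exact hdet (eq_zero_of_infinite_isRoot _ (hB.mono fun β hβ => hno β hβ))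
  obtain ⟨β, hβ, hne⟩ := hex
  obtain ⟨v, hv0, hv⟩ := h β hβ
  have h1 : (M.map (eval β)).det ≠ 0 := by
    have : (M.map (eval β)).det = M.det.eval β := by
      have := (RingHom.map_det (evalRingHom β) M).symm
      simpa using this
    rw [this]
    exact hne
  apply h1
  apply Matrix.exists_mulVec_eq_zero_iff.1
  refine ⟨v, hv0, ?_⟩
  funext s
  have := hv (f (e s))
  simpa [Matrix.mulVec, dotProduct, M, Matrix.map_apply] using this

variable {ι : Type*} [Fintype ι]

/-- the functional `c ↦ E c z i` -/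
noncomputable def evL (n : ℕ) (z : ℂ) (i : ι) : (Fin n → ι → ℂ) →L[ℂ] ℂ :=
  ∑ m : Fin n, (z ^ (m : ℕ)) • ((ContinuousLinearMap.proj (R := ℂ) (φ := fun _ : ι => ℂ) i).comp
    (ContinuousLinearMap.proj (R := ℂ) (φ := fun _ : Fin n => ι → ℂ) m))

omit [Fintype ι] in
theorem evL_apply (n : ℕ) (z : ℂ) (i : ι) (c : Fin n → ι → ℂ) : evL n z i c = E c z i := by
  simp [evL, E, mul_comm]

/-- holomorphic dependence of the (minimal degree) representation -/
theorem holo_family {W : Type*} [NormedAddCommGroup W] [NormedSpace ℂ W] {O : Set W}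
    (hO : IsOpen O) {D : Set ℂ} (hD : IsOpen D) (hDne : D.Nonempty) {n : ℕ}
    {Φ : W → ℂ → ι → ℂ} (hΦc : ∀ w ∈ O, ContinuousOn (Φ w) D)
    (hΦ0 : ∀ w ∈ O, ∀ z ∈ D, Φ w z ≠ 0)
    (hΦd : ∀ z ∈ D, DifferentiableOn ℂ (fun w => Φ w z) O)
    (hrat : ∀ w ∈ O, RatLT (n + 1) (Φ w) D) (hmin : ∀ w ∈ O, ¬ RatLT n (Φ w) D)
    {w0 : W} (hw0 : w0 ∈ O) :
    ∃ O', IsOpen O' ∧ w0 ∈ O' ∧ O' ⊆ O ∧ ∃ a : W → Fin (n + 1) → ι → ℂ,
      DifferentiableOn ℂ a O' ∧ ∀ w ∈ O', a w ≠ 0 ∧ ∀ z ∈ D, Par (E (a w) z) (Φ w z) := by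
  classical
  obtain ⟨c0, hc0, hp0⟩ := hrat w0 hw0
  obtain ⟨m0, hm0⟩ := Function.ne_iff.1 hc0
  obtain ⟨i0, hi0⟩ := Function.ne_iff.1 hm0
  simp only [Pi.zero_apply] at hi0
  let V := Fin (n + 1) → ι → ℂ
  let lam : V →L[ℂ] ℂ := (ContinuousLinearMap.proj (R := ℂ) (φ := fun _ : ι => ℂ) i0).comp
    (ContinuousLinearMap.proj (R := ℂ) (φ := fun _ : Fin (n + 1) => ι → ℂ) m0)
  have hlam : ∀ c : V, lam c = c m0 i0 := fun c => rfl
  let ℓ : W → Option (D × ι × ι) → V →L[ℂ] ℂ := fun w j => match j with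
    | none => lam
    | some (z, i, j) => Φ w z j • evL (n + 1) z i - Φ w z i • evL (n + 1) z j
  have hℓ : ∀ w (z : D) i j c, ℓ w (some (z, i, j)) c = Φ w z j * E c z i - Φ w z i * E c z j := by
    intro w z i j c
    show Φ w z j • evL (n + 1) z i c - Φ w z i • evL (n + 1) z j c = _
    rw [evL_apply, evL_apply, smul_eq_mul, smul_eq_mul]
  have hPar : ∀ w c, (∀ z ∈ D, Par (E c z) (Φ w z)) ↔ ∀ q, ℓ w (some q) c = 0 := by
    intro w c
    constructor
    · rintro h ⟨z, i, j⟩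
      rw [hℓ]
      have := h z z.2 i j
      linear_combination this
    · intro h z hz i j
      have := h (⟨z, hz⟩, i, j)
      rw [hℓ] at this
      linear_combination this
  have hker : ∀ c : V, (∀ j, (ℓ w0 j : V →ₗ[ℂ] ℂ) c = 0) → c = 0 := by
    intro c hc
    have h1 : ∀ z ∈ D, Par (E c z) (Φ w0 z) := (hPar w0 c).2 fun q => hc (some q)
    obtain ⟨t, rfl⟩ := unique_of_minimal hD hDne (hΦc w0 hw0) (hΦ0 w0 hw0) (hmin w0 hw0) hc0 hp0 h1
    have h2 : lam (t • c0) = 0 := hc none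
    rw [hlam, Pi.smul_apply, Pi.smul_apply, smul_eq_mul] at h2
    rw [(mul_eq_zero.1 h2).resolve_right hi0, zero_smul]
  obtain ⟨f, hf⟩ := exists_select (fun j => (ℓ w0 j : V →ₗ[ℂ] ℂ)) hker
  let M : W → V →L[ℂ] (Fin (Module.finrank ℂ V) → ℂ) := fun w => ContinuousLinearMap.pi fun a => ℓ w (f a)
  have hM : ∀ w c a, M w c a = ℓ w (f a) c := fun w c a => rfl
  have hMinj : Function.Injective (M w0) := by
    rw [injective_iff_map_eq_zero]
    intro c hc
    exact hf c fun a => congrFun hc a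
  have hfr : Module.finrank ℂ V = Module.finrank ℂ (Fin (Module.finrank ℂ V) → ℂ) := by
    rw [Module.finrank_fin_fun]
  let e0 : V ≃L[ℂ] (Fin (Module.finrank ℂ V) → ℂ) :=
    (LinearEquiv.ofInjectiveOfFinrankEq (M w0 : V →ₗ[ℂ] (Fin (Module.finrank ℂ V) → ℂ)) hMinj hfr).toContinuousLinearEquiv
  have he0 : (e0 : V →L[ℂ] (Fin (Module.finrank ℂ V) → ℂ)) = M w0 := by
    ext c a
    rfl
  -- differentiability of M
  have hMd : DifferentiableOn ℂ M O := by
    have hMs : M = fun w => ∑ a, (ContinuousLinearMap.single ℂ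
        (fun _ : Fin (Module.finrank ℂ V) => ℂ) a).comp (ℓ w (f a)) := by
      funext w
      ext c b
      rw [hM, sum_apply, Finset.sum_apply, Finset.sum_eq_single b]
      · simp
      · intro a _ hab
        simp [Ne.symm hab]
      · simp
    rw [hMs]
    have hpi : ∀ a, DifferentiableOn ℂ (fun w => ℓ w (f a)) O := by
      intro a
      rcases hfa : f a with _ | ⟨z, i, j⟩
      · exact differentiableOn_const _
      · have h1 : DifferentiableOn ℂ (fun w => Φ w z) O := hΦd z z.2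
        have h2 := differentiableOn_pi.1 h1
        exact ((h2 j).smul_const _).sub ((h2 i).smul_const _)
    refine DifferentiableOn.fun_sum fun a _ => ?_
    exact (differentiableOn_const _).clm_comp (hpi a)
  let bvec : Fin (Module.finrank ℂ V) → ℂ := fun a => match f a with
    | none => 1
    | some _ => 0
  let O' : Set W := O ∩ M ⁻¹' (range ((↑) : (V ≃L[ℂ] (Fin (Module.finrank ℂ V) → ℂ)) → (V →L[ℂ] (Fin (Module.finrank ℂ V) → ℂ))))
  have hO' : IsOpen O' := hMd.continuousOn.isOpen_inter_preimage hO ContinuousLinearEquiv.isOpen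
  refine ⟨O', hO', ⟨hw0, e0, he0⟩, inter_subset_left, fun w => ContinuousLinearMap.inverse (M w) bvec,
    ?_, ?_⟩
  · intro w hw
    obtain ⟨hwO, e, he⟩ := hw
    have h1 : DifferentiableAt ℂ M w := (hMd w hwO).differentiableAt (hO.mem_nhds hwO)
    have h2 : DifferentiableAt ℂ (ContinuousLinearMap.inverse (R := ℂ) (M := V) (M₂ := Fin (Module.finrank ℂ V) → ℂ)) (M w) := by
      rw [← he]
      exact (contDiffAt_map_inverse (n := 1) e).differentiableAt one_ne_zero
    exact ((h2.comp w h1).clm_apply (differentiableAt_const _)).differentiableWithinAt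
  · rintro w ⟨hwO, e, he⟩
    obtain ⟨c, hc, hp⟩ := hrat w hwO
    have h1 := (hPar w c).1 hp
    have h2 : M w c = lam c • bvec := by
      funext a
      rw [hM]
      rcases hfa : f a with _ | q
      · simp [ℓ, bvec, hfa]
      · rw [h1 q]
        simp [bvec, hfa]
    have h3 : lam c ≠ 0 := by
      intro h0
      rw [h0, zero_smul] at h2
      apply hc
      have h4 : e c = 0 := by
        have : (e : V →L[ℂ] (Fin (Module.finrank ℂ V) → ℂ)) c = 0 := by rw [he]; exact h2
        exact this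
      exact (map_eq_zero_iff e e.injective).1 h4
    have h5 : ContinuousLinearMap.inverse (M w) bvec = (lam c)⁻¹ • c := by
      rw [← he, ContinuousLinearMap.inverse_equiv]
      show e.symm bvec = _
      rw [ContinuousLinearEquiv.symm_apply_eq]
      have h6 : e c = lam c • bvec := by
        have : (e : V →L[ℂ] (Fin (Module.finrank ℂ V) → ℂ)) c = lam c • bvec := by rw [he]; exact h2
        exact this
      rw [map_smul, h6, smul_smul, inv_mul_cancel₀ h3, one_smul]
    refine ⟨?_, fun z hz => ?_⟩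
    · show ContinuousLinearMap.inverse (M w) bvec ≠ 0
      rw [h5]
      exact smul_ne_zero (inv_ne_zero h3) hc
    show Par (E (ContinuousLinearMap.inverse (M w) bvec) z) (Φ w z)
    rw [h5, E_smul]
    exact (hp z hz).smul_left _

end Crest.Agent.R266.RatK
end

-- ▼ part R266/RatSlopes
section

/-! Row 266, S0404 Step 3 (RAT), part 3: rationality along two slopes gives rationality along
horizontal lines. -/

set_option autoImplicit false

namespace Crest.Agent.R266.RatK

open Polynomial Metric Set Filter Topology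

variable {ι : Type*} [Fintype ι]

theorem rowsum {R : Type*} [CommRing R] [DecidableEq ι] {n : ℕ} (Z P Q : R) (i j : ι)
    (v : Fin n × ι → R) :
    ∑ s : Fin n × ι, (Z ^ (s.1 : ℕ) * ((if s.2 = i then P else 0) - (if s.2 = j then Q else 0))) * v s
      = (∑ m, v (m, i) * Z ^ (m : ℕ)) * P - (∑ m, v (m, j) * Z ^ (m : ℕ)) * Q := by
  rw [Fintype.sum_prod_type, Finset.sum_mul, Finset.sum_mul, ← Finset.sum_sub_distrib]
  refine Finset.sum_congr rfl fun m _ => ?_
  have h1 : ∀ k : ι, (Z ^ (m : ℕ) * ((if k = i then P else 0) - (if k = j then Q else 0))) * v (m, k)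
      = (if k = i then v (m, k) * Z ^ (m : ℕ) * P else 0)
        - (if k = j then v (m, k) * Z ^ (m : ℕ) * Q else 0) := by
    intro k
    split_ifs <;> ring
  simp only [h1, Finset.sum_sub_distrib, Finset.sum_ite_eq', Finset.mem_univ, if_true]

theorem two_slopes {n : ℕ} {G : ℂ → ℂ → ι → ℂ} {R : Set (ℂ × ℂ)}
    (hG : ContinuousOn (fun q : ℂ × ℂ => G q.1 q.2) R) (hG0 : ∀ q ∈ R, G q.1 q.2 ≠ 0)
    {α α' u v ζ : ℂ} {ρ r r' : ℝ} (hα : α ≠ 0) (hne : α' - α ≠ 0) (hρ : 0 < ρ)
    (hr'r : r' ≤ r) (hP : α * ζ + u = α' * ζ + v)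
    (h1 : ∀ β ∈ ball u ρ, RatLT n (fun z => G z (α * z + β)) (ball ζ r))
    (h2 : ∀ β ∈ ball v ρ, RatLT n (fun z => G z (α' * z + β)) (ball ζ r))
    (hR1 : ∀ β ∈ ball u ρ, ∀ z ∈ ball ζ r, (z, α * z + β) ∈ R)
    (hR2 : ∀ β ∈ ball v ρ, ∀ z ∈ ball ζ r, (z, α' * z + β) ∈ R)
    (hρr : 2 * ρ ≤ ‖α' - α‖ * r)
    (hr1 : r' * (1 + ‖α‖) ≤ ρ) (hr2 : r' * (1 + ‖α'‖) ≤ ρ) :
    ∃ K, ∀ z2 ∈ ball (α * ζ + u) r', RatLT K (fun z => G z z2) (ball ζ r') := by
  classical
  have hred : ∀ b : ball v ρ, ∃ c : Fin n → ι → ℂ, (∀ z, E c z ≠ 0) ∧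
      ∀ z ∈ ball ζ r, Par (E c z) (G z (α' * z + b)) := by
    intro b
    refine RatLT.exists_reduced isOpen_ball ?_ (h2 b b.2)
    have h3 : ContinuousOn (fun z : ℂ => (z, α' * z + (b : ℂ))) (ball ζ r) := by fun_prop
    exact hG.comp h3 fun z hz => hR2 b b.2 z hz
  choose p hp0 hp using hred
  let Z : ball v ρ → ℂ[X] := fun b => C (α' - α)⁻¹ * (X - C (b : ℂ))
  let Pp : ball v ρ → ι → ℂ[X] := fun b i => (poly (p b) i).comp (Z b)
  let row : ball v ρ × ι × ι → Fin n × ι → ℂ[X] := fun q s =>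
    (Z q.1) ^ (s.1 : ℕ) * ((if s.2 = q.2.1 then Pp q.1 q.2.2 else 0) -
      (if s.2 = q.2.2 then Pp q.1 q.2.1 else 0))
  have hZe : ∀ (b : ball v ρ) (β : ℂ), (Z b).eval β = (α' - α)⁻¹ * (β - b) := by
    intro b β; simp [Z]
  have hPe : ∀ (b : ball v ρ) (i : ι) (β : ℂ),
      (Pp b i).eval β = E (p b) ((α' - α)⁻¹ * (β - b)) i := by
    intro b i β
    simp only [Pp]
    rw [eval_comp, eval_poly, hZe]
  have hrow : ∀ q s β, (row q s).eval β = ((α' - α)⁻¹ * (β - q.1)) ^ (s.1 : ℕ) *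
      ((if s.2 = q.2.1 then E (p q.1) ((α' - α)⁻¹ * (β - q.1)) q.2.2 else 0) -
      (if s.2 = q.2.2 then E (p q.1) ((α' - α)⁻¹ * (β - q.1)) q.2.1 else 0)) := by
    intro q s β
    simp only [row]
    rw [eval_mul, eval_pow, hZe, eval_sub, apply_ite (eval β), apply_ite (eval β), hPe, hPe, eval_zero]
  have hBinf : (ball u ρ).Infinite := infinite_of_mem_nhds u (ball_mem_nhds u hρ)
  have hmem : ∀ β ∈ ball u ρ, ∀ b ∈ ball v ρ, (α' - α)⁻¹ * (β - b) ∈ ball ζ r := by
    intro β hβ b hb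
    rw [mem_ball, dist_eq_norm] at hβ hb ⊢
    have h3 : (α' - α) * ((α' - α)⁻¹ * (β - b) - ζ) = (β - u) - (b - v) := by
      rw [mul_sub, mul_inv_cancel_left₀ hne]
      linear_combination hP
    have h4 : ‖α' - α‖ * ‖(α' - α)⁻¹ * (β - b) - ζ‖ < ‖α' - α‖ * r := by
      rw [← norm_mul, h3]
      calc ‖(β - u) - (b - v)‖ ≤ ‖β - u‖ + ‖b - v‖ := norm_sub_le _ _
        _ < 2 * ρ := by linarith
        _ ≤ _ := hρr
    exact lt_of_mul_lt_mul_left h4 (norm_nonneg _)
  obtain ⟨w, hw0, hw⟩ := exists_poly_kernel row hBinf (by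
    intro β hβ
    obtain ⟨c, hc, hcp⟩ := h1 β hβ
    refine ⟨fun s => c s.1 s.2, ?_, ?_⟩
    · intro h0
      apply hc
      funext m i
      exact congrFun h0 (m, i)
    · rintro ⟨b, i, j⟩
      simp only [hrow]
      rw [rowsum (v := fun s => c s.1 s.2)]
      have hz := hmem β hβ b b.2
      set z := (α' - α)⁻¹ * (β - b) with hzdef
      have hzz : α' * z + b = α * z + β := by
        have : (α' - α) * z = β - b := by rw [hzdef, mul_inv_cancel_left₀ hne]
        linear_combination this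
      have h3 := hp b z hz
      rw [hzz] at h3
      have h4 : Par (E c z) (E (p b) z) :=
        (hcp z hz).trans (hG0 (z, α * z + β) (hR1 β hβ z hz)) h3.symm
      have h5 := h4 i j
      simp only [E] at h5 ⊢
      linear_combination h5)
  -- the polynomial family, evaluated
  have hker : ∀ (b : ball v ρ) (β : ℂ), Par (E (fun (m : Fin n) i => (w (m, i)).eval β)
      ((α' - α)⁻¹ * (β - b))) (E (p b) ((α' - α)⁻¹ * (β - b))) := by
    intro b β i j
    have h3 := congrArg (eval β) (hw (b, i, j))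
    rw [eval_finsetSum, eval_zero] at h3
    simp only [eval_mul, hrow] at h3
    rw [rowsum (v := fun s => (w s).eval β)] at h3
    simp only [E] at h3 ⊢
    linear_combination h3
  have hkey : ∀ z1 ∈ ball ζ r', ∀ z2 ∈ ball (α * ζ + u) r',
      Par (E (fun (m : Fin n) i => (w (m, i)).eval (z2 - α * z1)) z1) (G z1 z2) := by
    intro z1 hz1 z2 hz2
    rw [mem_ball, dist_eq_norm] at hz1 hz2
    have hb : z2 - α' * z1 ∈ ball v ρ := by
      rw [mem_ball, dist_eq_norm]
      have : z2 - α' * z1 - v = (z2 - (α * ζ + u)) - α' * (z1 - ζ) := by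
        linear_combination hP
      rw [this]
      calc ‖(z2 - (α * ζ + u)) - α' * (z1 - ζ)‖
          ≤ ‖z2 - (α * ζ + u)‖ + ‖α' * (z1 - ζ)‖ := norm_sub_le _ _
        _ < r' + ‖α'‖ * r' := by
            rw [norm_mul]
            exact add_lt_add_of_lt_of_le hz2 (mul_le_mul_of_nonneg_left hz1.le (norm_nonneg _))
        _ = r' * (1 + ‖α'‖) := by ring
        _ ≤ ρ := hr2
    have hz : (α' - α)⁻¹ * ((z2 - α * z1) - (z2 - α' * z1)) = z1 := by
      have : (z2 - α * z1) - (z2 - α' * z1) = (α' - α) * z1 := by ring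
      rw [this, inv_mul_cancel_left₀ hne]
    have h3 := hker ⟨_, hb⟩ (z2 - α * z1)
    simp only [hz] at h3
    have h4 := hp ⟨_, hb⟩ z1 (by rw [mem_ball, dist_eq_norm]; exact hz1.trans_le hr'r)
    simp only [add_sub_cancel] at h4
    exact h3.trans (hp0 _ _) h4
  -- the polynomial in `z1` for fixed `z2`
  let H : ℂ → ι → ℂ[X] := fun z2 i => ∑ m : Fin n, (w (m, i)).comp (C z2 - C α * X) * X ^ (m : ℕ)
  have hH : ∀ z2 i z, (H z2 i).eval z = E (fun (m : Fin n) i => (w (m, i)).eval (z2 - α * z)) z i := by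
    intro z2 i z
    simp only [H, E]
    rw [eval_finsetSum]
    refine Finset.sum_congr rfl fun m _ => ?_
    rw [eval_mul, eval_comp, eval_pow, eval_X]
    simp
  let d : ℕ := Finset.univ.sup fun s => (w s).natDegree
  have hdeg : ∀ z2 i, (H z2 i).degree < (d + n + 1 : ℕ) := by
    intro z2 i
    refine (degree_sum_le _ _).trans_lt ?_
    rw [Finset.sup_lt_iff (by exact_mod_cast WithBot.bot_lt_coe (d + n + 1))]
    intro m _
    have h3 : ((w (m, i)).comp (C z2 - C α * X) * X ^ (m : ℕ)).natDegree ≤ d + n := by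
      refine natDegree_mul_le.trans (add_le_add ?_ ?_)
      · refine natDegree_comp_le.trans ?_
        have h4 : (C z2 - C α * X : ℂ[X]).natDegree ≤ 1 := by
          refine (natDegree_sub_le _ _).trans ?_
          simp only [natDegree_C]
          exact max_le (Nat.zero_le _) ((natDegree_C_mul_le _ _).trans natDegree_X_le)
        calc (w (m, i)).natDegree * (C z2 - C α * X : ℂ[X]).natDegree
            ≤ (w (m, i)).natDegree * 1 := Nat.mul_le_mul_left _ h4
          _ = (w (m, i)).natDegree := mul_one _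
          _ ≤ d := Finset.le_sup (f := fun s => (w s).natDegree) (Finset.mem_univ (m, i))
      · rw [natDegree_X_pow]
        exact m.2.le
    refine (degree_le_natDegree).trans_lt ?_
    exact_mod_cast Nat.lt_succ_of_le h3
  have hTfin : {z2 | H z2 = 0}.Finite := by
    by_contra hinf
    apply hw0
    funext s
    apply Polynomial.funext
    intro β
    have h3 : (fun (m : Fin n) i => (w (m, i)).eval β) = 0 := by
      refine eq_zero_of_E (A := (fun z : ℂ => β + α * z) ⁻¹' {z2 | H z2 = 0}) ?_ ?_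
      · intro hfin
        apply hinf
        refine (hfin.image fun z : ℂ => β + α * z).subset ?_
        intro z2 hz2
        refine ⟨α⁻¹ * (z2 - β), ?_, ?_⟩
        · show H (β + α * (α⁻¹ * (z2 - β))) = 0
          rw [mul_inv_cancel_left₀ hα, add_sub_cancel]
          exact hz2
        · show β + α * (α⁻¹ * (z2 - β)) = z2
          rw [mul_inv_cancel_left₀ hα, add_sub_cancel]
      · intro z hz
        have hz' : H (β + α * z) = 0 := hz
        funext i
        have h4 := hH (β + α * z) i z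
        rw [hz', add_sub_cancel_right] at h4
        rw [← h4]
        simp
    have h4 := congrFun (congrFun h3 s.1) s.2
    simpa using h4
  refine ⟨d + n + 1, fun z2 hz2 => ?_⟩
  have hgood : ∀ z2 ∈ ball (α * ζ + u) r', H z2 ≠ 0 →
      RatLT (d + n + 1) (fun z => G z z2) (ball ζ r') := by
    intro z2 hz2 hne'
    refine RatLT.of_poly (p := H z2) (hdeg z2) hne' fun z hz => ?_
    have h3 := hkey z hz z2 hz2
    have h4 : (fun i => (H z2 i).eval z) = E (fun (m : Fin n) i => (w (m, i)).eval (z2 - α * z)) z := by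
      funext i
      exact hH z2 i z
    rw [h4]
    exact h3
  refine ratLT_of_mem_closure (Φ := fun t z => G z t) (A := ball (α * ζ + u) r') ?_ hz2 ?_
  · intro z hz
    have h3 : ContinuousOn (fun t : ℂ => (z, t)) (ball (α * ζ + u) r') := by fun_prop
    refine hG.comp h3 fun t ht => ?_
    have h4 : t - α * z ∈ ball u ρ := by
      rw [mem_ball, dist_eq_norm] at hz ht ⊢
      have : t - α * z - u = (t - (α * ζ + u)) - α * (z - ζ) := by ring
      rw [this]
      calc ‖(t - (α * ζ + u)) - α * (z - ζ)‖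
          ≤ ‖t - (α * ζ + u)‖ + ‖α * (z - ζ)‖ := norm_sub_le _ _
        _ < r' + ‖α‖ * r' := by
            rw [norm_mul]
            exact add_lt_add_of_lt_of_le ht (mul_le_mul_of_nonneg_left hz.le (norm_nonneg _))
        _ = r' * (1 + ‖α‖) := by ring
        _ ≤ ρ := hr1
    have h5 := hR1 _ h4 z (ball_subset_ball hr'r hz)
    rwa [add_sub_cancel] at h5
  · have hdense : Dense ({z2 | H z2 = 0}ᶜ) := hTfin.countable.dense_compl ℂ
    have h3 := hdense.open_subset_closure_inter (isOpen_ball (x := α * ζ + u) (ε := r')) hz2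
    refine closure_mono ?_ h3
    rintro t ⟨ht, ht'⟩
    exact ⟨ht, hgood t ht ht'⟩

end Crest.Agent.R266.RatK
end

-- ▼ part R266/RatMain

/-! Row 266, S0404 Step 3 (RAT), part 4: the main theorem (Baire + slopes + minimal degree). -/

set_option autoImplicit false

namespace Crest.Agent.R266.RatK

open Polynomial Metric Set Filter Topology

variable {ι : Type*} [Fintype ι]

omit [Fintype ι] in
theorem differentiable_E {n : ℕ} (c : Fin n → ι → ℂ) (i : ι) : Differentiable ℂ (fun z => E c z i) := by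
  have : (fun z => E c z i) = fun z => (poly c i).eval z := by
    funext z
    rw [eval_poly]
  rw [this]
  exact (poly c i).differentiable

omit [Fintype ι] in
/-- identity theorem for proportionality -/
theorem par_extend {n : ℕ} {c : Fin n → ι → ℂ} {φ : ℂ → ι → ℂ} {D : Set ℂ} (hD : IsOpen D)
    (hDc : IsPreconnected D) (hφ : DifferentiableOn ℂ φ D) {z0 : ℂ} (hz0 : z0 ∈ D)
    (h : ∀ᶠ z in 𝓝 z0, Par (E c z) (φ z)) : ∀ z ∈ D, Par (E c z) (φ z) := by
  intro z hz i j
  have hφi := differentiableOn_pi.1 hφ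
  have h1 : AnalyticOnNhd ℂ (fun z => E c z i * φ z j) D :=
    ((differentiable_E c i).differentiableOn.mul (hφi j)).analyticOnNhd hD
  have h2 : AnalyticOnNhd ℂ (fun z => E c z j * φ z i) D :=
    ((differentiable_E c j).differentiableOn.mul (hφi i)).analyticOnNhd hD
  have h3 : (fun z => E c z i * φ z j) =ᶠ[𝓝 z0] (fun z => E c z j * φ z i) := by
    filter_upwards [h] with z hz using hz i j
  exact h1.eqOn_of_preconnected_of_eventuallyEq h2 hDc hz0 h3 hz

theorem rat_main {S : Type*} [NormedAddCommGroup S] [NormedSpace ℂ S] [CompleteSpace S]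
    {F : S × ℂ × ℂ → ι → ℂ} {s0 : S} {ζ : ℂ} {r : ℝ} (hr : 0 < r)
    (hF : DifferentiableOn ℂ F (ball s0 r ×ˢ ball ζ r ×ˢ ball ζ r))
    (hF0 : ∀ p ∈ ball s0 r ×ˢ ball ζ r ×ˢ ball ζ r, F p ≠ 0)
    (hline : ∀ᶠ t : S × ℂ × ℂ in 𝓝 (s0, 1, 0), ∃ (n : ℕ) (c : Fin n → ι → ℂ), c ≠ 0 ∧
      ∀ᶠ z in 𝓝 ζ, Par (E c z) (F (t.1, z, t.2.1 * z + t.2.2)))
    {V : Set (S × ℂ)} (hV : V ∈ 𝓝 (s0, ζ)) :
    ∃ W : Set (S × ℂ), IsOpen W ∧ W.Nonempty ∧ W ⊆ V ∧ W ⊆ ball s0 r ×ˢ ball ζ r ∧
      ∃ (n : ℕ) (a : S × ℂ → Fin (n + 1) → ι → ℂ), DifferentiableOn ℂ a W ∧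
        ∀ w ∈ W, (∀ z, E (a w) z ≠ 0) ∧ a w (Fin.last n) ≠ 0 ∧
          ∀ z ∈ ball ζ r, Par (E (a w) z) (F (w.1, z, w.2)) := by
  set Bx : Set (S × ℂ × ℂ) := ball s0 r ×ˢ ball ζ r ×ˢ ball ζ r with hBx
  have hBxo : IsOpen Bx := isOpen_ball.prod (isOpen_ball.prod isOpen_ball)
  -- choice of ε
  have hc1 : Continuous (fun q : (S × ℂ × ℂ) × ℂ => (q.1.1, q.2, q.1.2.1 * q.2 + q.1.2.2)) := by
    fun_prop
  have hn1 : ∀ᶠ q : (S × ℂ × ℂ) × ℂ in 𝓝 ((s0, 1, 0), ζ),
      (q.1.1, q.2, q.1.2.1 * q.2 + q.1.2.2) ∈ Bx := by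
    refine hc1.continuousAt.eventually (hBxo.mem_nhds ?_)
    simp only [hBx, mem_prod, mem_ball, one_mul, add_zero, dist_self]
    exact ⟨hr, hr, hr⟩
  have hc2 : Continuous (fun t : S × ℂ × ℂ => (t.1, t.2.1 * ζ + t.2.2)) := by fun_prop
  have hn2 : ∀ᶠ t : S × ℂ × ℂ in 𝓝 (s0, 1, 0), (t.1, t.2.1 * ζ + t.2.2) ∈ interior V := by
    refine hc2.continuousAt.eventually (isOpen_interior.mem_nhds ?_)
    simp only [one_mul, add_zero]
    exact mem_interior_iff_mem_nhds.2 hV
  have hn3 : ∀ᶠ t : S × ℂ × ℂ in 𝓝 (s0, 1, 0), t.2.1 ≠ 0 := by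
    have : Continuous (fun t : S × ℂ × ℂ => t.2.1) := by fun_prop
    exact this.continuousAt.eventually_ne (by simp)
  obtain ⟨ε1, hε1, hb1⟩ := Metric.eventually_nhds_iff_ball.1 hn1
  obtain ⟨ε2, hε2, hb2⟩ := Metric.eventually_nhds_iff_ball.1 (hn2.and (hn3.and hline))
  set ε := min ε1 ε2 with hεdef
  have hε : 0 < ε := lt_min hε1 hε2
  set O : Set (S × ℂ × ℂ) := ball (s0, 1, 0) ε with hOdef
  have hO1 : ∀ t ∈ O, ∀ z ∈ ball ζ ε, (t.1, z, t.2.1 * z + t.2.2) ∈ Bx := by
    intro t ht z hz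
    refine hb1 (t, z) ?_
    rw [← ball_prod_same]
    exact ⟨ball_subset_ball (min_le_left _ _) ht, ball_subset_ball (min_le_left _ _) hz⟩
  have hO2 : ∀ t ∈ O, (t.1, t.2.1 * ζ + t.2.2) ∈ interior V ∧ t.2.1 ≠ 0 ∧
      ∃ (n : ℕ) (c : Fin n → ι → ℂ), c ≠ 0 ∧
        ∀ᶠ z in 𝓝 ζ, Par (E c z) (F (t.1, z, t.2.1 * z + t.2.2)) := fun t ht =>
    hb2 t (ball_subset_ball (min_le_right _ _) ht)
  have hFc : ContinuousOn F Bx := hF.continuousOn
  -- first Baire
  obtain ⟨n, hn⟩ := baire_open (T := S × ℂ × ℂ) (O := O) isOpen_ball ⟨_, mem_ball_self hε⟩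
    (fun n => {t | RatLT n (fun z => F (t.1, z, t.2.1 * z + t.2.2)) (ball ζ ε)})
    (by
      intro t ht
      obtain ⟨-, -, n, c, hc, hp⟩ := hO2 t ht
      refine ⟨n, c, hc, ?_⟩
      refine par_extend isOpen_ball (convex_ball ζ ε).isPreconnected ?_ (mem_ball_self hε) hp
      have h3 : DifferentiableOn ℂ (fun z : ℂ => (t.1, z, t.2.1 * z + t.2.2)) (ball ζ ε) := by
        fun_prop
      exact hF.comp h3 fun z hz => hO1 t ht z hz)
    (by
      intro n t ht hcl
      refine ratLT_of_mem_closure (Φ := fun t : S × ℂ × ℂ => fun z => F (t.1, z, t.2.1 * z + t.2.2))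
        (A := O) ?_ ht hcl
      intro z hz
      have h3 : ContinuousOn (fun t : S × ℂ × ℂ => (t.1, z, t.2.1 * z + t.2.2)) O := by fun_prop
      exact hFc.comp h3 fun t ht => hO1 t ht z hz)
  obtain ⟨⟨s1, α, β1⟩, ht1⟩ := hn
  obtain ⟨ρ1, hρ1, hb3⟩ := Metric.isOpen_iff.1 isOpen_interior _ ht1
  have hb4 : ∀ s ∈ ball s1 ρ1, ∀ a ∈ ball α ρ1, ∀ b ∈ ball β1 ρ1, (s, a, b) ∈ O ∧
      RatLT n (fun z => F (s, z, a * z + b)) (ball ζ ε) := by
    intro s hs a ha b hb
    have h3 : (s, a, b) ∈ ball ((s1, α, β1) : S × ℂ × ℂ) ρ1 := by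
      rw [← ball_prod_same, ← ball_prod_same]
      exact ⟨hs, ha, hb⟩
    have h4 := interior_subset (hb3 h3)
    exact ⟨h4.1, h4.2⟩
  have hself := hb4 s1 (mem_ball_self hρ1) α (mem_ball_self hρ1) β1 (mem_ball_self hρ1)
  have hα : α ≠ 0 := (hO2 _ hself.1).2.1
  -- second slope
  set δ : ℝ := ρ1 / (4 * (1 + ‖ζ‖)) with hδdef
  have hz0 : 0 ≤ ‖ζ‖ := norm_nonneg _
  have hδ : 0 < δ := by positivity
  have hδ1 : δ * (1 + ‖ζ‖) = ρ1 / 4 := by
    rw [hδdef]; field_simp
  have hδ2 : δ < ρ1 := by nlinarith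
  have hδ3 : δ * ‖ζ‖ < ρ1 / 4 := by nlinarith
  set ρ : ℝ := min (ρ1 / 4) (δ * ε / 2) with hρdef
  have hρ : 0 < ρ := lt_min (by positivity) (by positivity)
  have hρa : ρ ≤ ρ1 / 4 := min_le_left _ _
  have hρb : ρ ≤ δ * ε / 2 := min_le_right _ _
  set α' : ℂ := α + δ with hα'def
  set r' : ℝ := min ε (ρ / (1 + ‖α‖ + ‖α'‖)) with hr'def
  have hden : 0 < 1 + ‖α‖ + ‖α'‖ := by positivity
  have hr' : 0 < r' := lt_min hε (by positivity)
  have hr'1 : r' * (1 + ‖α‖ + ‖α'‖) ≤ ρ := by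
    have : r' ≤ ρ / (1 + ‖α‖ + ‖α'‖) := min_le_right _ _
    calc r' * (1 + ‖α‖ + ‖α'‖) ≤ ρ / (1 + ‖α‖ + ‖α'‖) * (1 + ‖α‖ + ‖α'‖) :=
          mul_le_mul_of_nonneg_right this hden.le
      _ = ρ := by field_simp
  have hr'ε : r' ≤ ε := min_le_left _ _
  have hna : 0 ≤ ‖α‖ := norm_nonneg _
  have hna' : 0 ≤ ‖α'‖ := norm_nonneg _
  have hα'mem : α' ∈ ball α ρ1 := by
    rw [mem_ball, dist_eq_norm, hα'def, add_sub_cancel_left, Complex.norm_real, Real.norm_of_nonneg hδ.le]
    exact hδ2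
  have hvmem : ∀ b ∈ ball (β1 - δ * ζ) ρ, b ∈ ball β1 ρ1 := by
    intro b hb
    rw [mem_ball, dist_eq_norm] at hb ⊢
    calc ‖b - β1‖ = ‖(b - (β1 - δ * ζ)) - δ * ζ‖ := by congr 1; ring
      _ ≤ ‖b - (β1 - δ * ζ)‖ + ‖(δ : ℂ) * ζ‖ := norm_sub_le _ _
      _ < ρ + ρ1 / 4 := by
          rw [norm_mul, Complex.norm_real, Real.norm_of_nonneg hδ.le]
          exact add_lt_add hb hδ3
      _ ≤ ρ1 := by linarith
  have humem : ∀ b ∈ ball β1 ρ, b ∈ ball β1 ρ1 := fun b hb =>
    ball_subset_ball (by linarith) hb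
  -- rationality on horizontal lines
  have hhor : ∀ s ∈ ball s1 ρ1, ∃ K, ∀ z2 ∈ ball (α * ζ + β1) r',
      RatLT K (fun z => F (s, z, z2)) (ball ζ r') := by
    intro s hs
    refine two_slopes (G := fun z1 z2 => F (s, z1, z2)) (R := {q | (s, q.1, q.2) ∈ Bx})
      (α := α) (α' := α') (u := β1) (v := β1 - δ * ζ) (ζ := ζ) (ρ := ρ) (r := ε) (n := n)
      ?_ ?_ hα ?_ hρ hr'ε ?_ ?_ ?_ ?_ ?_ ?_ ?_ ?_
    · have h3 : ContinuousOn (fun q : ℂ × ℂ => (s, q.1, q.2)) {q | (s, q.1, q.2) ∈ Bx} := by fun_prop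
      exact hFc.comp h3 fun q hq => hq
    · exact fun q hq => hF0 _ hq
    · rw [hα'def, add_sub_cancel_left]
      exact_mod_cast hδ.ne'
    · rw [hα'def]; ring
    · exact fun b hb => (hb4 s hs α (mem_ball_self hρ1) b (humem b hb)).2
    · exact fun b hb => (hb4 s hs α' hα'mem b (hvmem b hb)).2
    · exact fun b hb z hz => hO1 _ (hb4 s hs α (mem_ball_self hρ1) b (humem b hb)).1 z hz
    · exact fun b hb z hz => hO1 _ (hb4 s hs α' hα'mem b (hvmem b hb)).1 z hz
    · rw [hα'def, add_sub_cancel_left, Complex.norm_real, Real.norm_of_nonneg hδ.le]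
      linarith
    · nlinarith
    · nlinarith
  -- second Baire
  set O2 : Set (S × ℂ) := (ball s1 ρ1 ×ˢ ball (α * ζ + β1) r') ∩ interior V with hO2def
  have hO2o : IsOpen O2 := (isOpen_ball.prod isOpen_ball).inter isOpen_interior
  have hO2ne : O2.Nonempty := ⟨(s1, α * ζ + β1), ⟨mem_ball_self hρ1, mem_ball_self hr'⟩,
    (hO2 _ hself.1).1⟩
  have hbox : ∀ w ∈ O2, ∀ z ∈ ball ζ r', (w.1, z, w.2) ∈ Bx := by
    rintro ⟨s, z2⟩ ⟨⟨hs, hz2⟩, -⟩ z hz
    have hb : z2 - α * z ∈ ball β1 ρ := by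
      rw [mem_ball, dist_eq_norm] at hz hz2 ⊢
      have : z2 - α * z - β1 = (z2 - (α * ζ + β1)) - α * (z - ζ) := by ring
      rw [this]
      calc ‖(z2 - (α * ζ + β1)) - α * (z - ζ)‖
          ≤ ‖z2 - (α * ζ + β1)‖ + ‖α * (z - ζ)‖ := norm_sub_le _ _
        _ < r' + ‖α‖ * r' := by
            rw [norm_mul]
            exact add_lt_add_of_lt_of_le hz2 (mul_le_mul_of_nonneg_left hz.le (norm_nonneg _))
        _ ≤ ρ := by nlinarith
    have h3 := hO1 _ (hb4 s hs α (mem_ball_self hρ1) _ (humem _ hb)).1 z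
      (ball_subset_ball hr'ε hz)
    simpa only [add_sub_cancel] using h3
  have hbox2 : ∀ w ∈ O2, w ∈ ball s0 r ×ˢ ball ζ r := by
    intro w hw
    have h3 := hbox w hw ζ (mem_ball_self hr')
    exact ⟨h3.1, h3.2.2⟩
  let CC : ℕ → Set (S × ℂ) := fun K => {w | RatLT K (fun z => F (w.1, z, w.2)) (ball ζ r')}
  have hCcl : ∀ K, ∀ w ∈ O2, w ∈ closure {w' | w' ∈ O2 ∧ w' ∈ CC K} → w ∈ CC K := by
    intro K w hw hcl
    refine ratLT_of_mem_closure (Φ := fun w : S × ℂ => fun z => F (w.1, z, w.2)) (A := O2) ?_ hw hcl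
    intro z hz
    have h3 : ContinuousOn (fun w : S × ℂ => (w.1, z, w.2)) O2 := by fun_prop
    exact hFc.comp h3 fun w hw => hbox w hw z hz
  have hex : ∃ K, (interior {w' | w' ∈ O2 ∧ w' ∈ CC K}).Nonempty :=
    baire_open hO2o hO2ne CC (by
      rintro ⟨s, z2⟩ ⟨⟨hs, hz2⟩, -⟩
      obtain ⟨K, hK⟩ := hhor s hs
      exact ⟨K, hK z2 hz2⟩) hCcl
  classical
  obtain ⟨hK1, hK2⟩ := And.intro (Nat.find_spec hex) (fun m hm => Nat.find_min hex (m := m) hm)
  rcases hk : Nat.find hex with _ | k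
  · rw [hk] at hK1
    obtain ⟨w, hw⟩ := hK1
    exact absurd (interior_subset hw).2 (not_ratLT_zero _ _)
  rw [hk] at hK1 hK2
  have hmin : ¬ (interior {w' | w' ∈ O2 ∧ w' ∈ CC k}).Nonempty := hK2 k (Nat.lt_succ_self k)
  set U1 : Set (S × ℂ) := interior {w' | w' ∈ O2 ∧ w' ∈ CC (k + 1)} \
    closure {w' | w' ∈ O2 ∧ w' ∈ CC k} with hU1
  have hU1o : IsOpen U1 := isOpen_interior.sdiff isClosed_closure
  have hU1ne : U1.Nonempty := by
    by_contra hemp
    rw [not_nonempty_iff_eq_empty, hU1, sdiff_eq_empty] at hemp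
    apply hmin
    obtain ⟨w, hw⟩ := hK1
    refine ⟨w, mem_interior.2 ⟨interior {w' | w' ∈ O2 ∧ w' ∈ CC (k + 1)}, ?_, isOpen_interior, hw⟩⟩
    intro w' hw'
    have h3 := (interior_subset hw').1
    exact ⟨h3, hCcl k w' h3 (hemp hw')⟩
  have hU1a : ∀ w ∈ U1, w ∈ O2 ∧ RatLT (k + 1) (fun z => F (w.1, z, w.2)) (ball ζ r') :=
    fun w hw => by
      have h4 := interior_subset hw.1
      exact ⟨h4.1, h4.2⟩
  have hU1b : ∀ w ∈ U1, ¬ RatLT k (fun z => F (w.1, z, w.2)) (ball ζ r') := by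
    intro w hw hcon
    exact hw.2 (subset_closure ⟨(hU1a w hw).1, hcon⟩)
  obtain ⟨w0, hw0⟩ := hU1ne
  obtain ⟨W, hWo, hw0W, hWU, a, ha, haw⟩ := holo_family (O := U1) (D := ball ζ r') (n := k)
    (Φ := fun w : S × ℂ => fun z => F (w.1, z, w.2)) hU1o isOpen_ball ⟨ζ, mem_ball_self hr'⟩
    (by
      intro w hw
      have h3 : ContinuousOn (fun z : ℂ => (w.1, z, w.2)) (ball ζ r') := by fun_prop
      exact hFc.comp h3 fun z hz => hbox w (hU1a w hw).1 z hz)
    (fun w hw z hz => hF0 _ (hbox w (hU1a w hw).1 z hz))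
    (by
      intro z hz
      have h3 : DifferentiableOn ℂ (fun w : S × ℂ => (w.1, z, w.2)) U1 := by fun_prop
      exact hF.comp h3 fun w hw => hbox w (hU1a w hw).1 z hz)
    (fun w hw => (hU1a w hw).2) hU1b hw0
  refine ⟨W, hWo, ⟨w0, hw0W⟩, ?_, ?_, k, a, ha, ?_⟩
  · exact fun w hw => interior_subset (hU1a w (hWU hw)).1.2
  · exact fun w hw => hbox2 w (hU1a w (hWU hw)).1
  · intro w hw
    have hwU := hWU hw
    have hwO := (hU1a w hwU).1
    obtain ⟨ha0, hap⟩ := haw w hw
    have hcont : ContinuousOn (fun z : ℂ => F (w.1, z, w.2)) (ball ζ r') := by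
      have h3 : ContinuousOn (fun z : ℂ => (w.1, z, w.2)) (ball ζ r') := by fun_prop
      exact hFc.comp h3 fun z hz => hbox w hwO z hz
    refine ⟨fun z hz => ?_, fun hz => ?_, ?_⟩
    · exact hU1b w hwU (RatLT.reduce isOpen_ball hcont ha0 hap (Or.inr ⟨z, hz⟩))
    · exact hU1b w hwU (RatLT.reduce isOpen_ball hcont ha0 hap (Or.inl hz))
    · refine par_extend isOpen_ball (convex_ball ζ r).isPreconnected ?_ (mem_ball_self hr)
        (Filter.eventually_of_mem (ball_mem_nhds ζ hr') hap)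
      have h3 : DifferentiableOn ℂ (fun z : ℂ => (w.1, z, w.2)) (ball ζ r) := by fun_prop
      have h4 := hbox2 w hwO
      exact hF.comp h3 fun z hz => ⟨h4.1, hz, h4.2⟩

end Crest.Agent.R266.RatK
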